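import Mathlib

/-! # Brouwer's fixed point theorem for bounded continuous maps of a finite-dimensional space

Proof by Milnor's volume argument: for a retraction `g` of the ball onto the sphere, the volume
`∫ det (1 + t (Dg - 1))` is a polynomial in `t` which is constant for small `t`, and zero at
`t = 1`. -/

namespace Vale.Agent.P371G

open MeasureTheory Metric Set Filter Topology Polynomial
open scoped NNReal

section
variable {d : ℕ}



/-- `det (1 + t A)` at `t = 1` is interpolated by its values at `d + 1` other points. -/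
theorem det_one_add_interpolate (A : (EuclideanSpace ℝ (Fin d)) →L[ℝ] (EuclideanSpace ℝ (Fin d))) (v : ℕ → ℝ) (hv : Function.Injective v) :
    (1 + A).det = ∑ k ∈ Finset.range (d + 1),
      (Lagrange.basis (Finset.range (d + 1)) v k).eval 1 * (1 + v k • A).det := by
  classical
  let b := (EuclideanSpace.basisFun (Fin d) ℝ).toBasis
  set B : Matrix (Fin d) (Fin d) ℝ := LinearMap.toMatrix b b (A : (EuclideanSpace ℝ (Fin d)) →ₗ[ℝ] (EuclideanSpace ℝ (Fin d))) with hB
  set P : ℝ[X] := Matrix.det ((X : ℝ[X]) • B.map C + (1 : Matrix (Fin d) (Fin d) ℝ).map C) with hP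
  have heval : ∀ t : ℝ, P.eval t = (1 + t • A).det := by
    intro t
    rw [hP, ← Polynomial.coe_evalRingHom, RingHom.map_det]
    rw [show (1 + t • A).det = LinearMap.det ((1 + t • A : (EuclideanSpace ℝ (Fin d)) →L[ℝ] (EuclideanSpace ℝ (Fin d))) : (EuclideanSpace ℝ (Fin d)) →ₗ[ℝ] (EuclideanSpace ℝ (Fin d))) from rfl,
      ← LinearMap.det_toMatrix b]
    congr 1
    have : ((1 + t • A : (EuclideanSpace ℝ (Fin d)) →L[ℝ] (EuclideanSpace ℝ (Fin d))) : (EuclideanSpace ℝ (Fin d)) →ₗ[ℝ] (EuclideanSpace ℝ (Fin d))) = LinearMap.id + t • (A : (EuclideanSpace ℝ (Fin d)) →ₗ[ℝ] (EuclideanSpace ℝ (Fin d))) := rfl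
    rw [this]
    ext i j
    by_cases h : i = j <;> simp [h, ← hB, mul_comm t, add_comm]
  have hdeg : P.degree < (Finset.range (d + 1)).card := by
    rw [Finset.card_range]
    refine lt_of_le_of_lt P.degree_le_natDegree ?_
    have := Polynomial.natDegree_det_X_add_C_le B (1 : Matrix (Fin d) (Fin d) ℝ)
    rw [Fintype.card_fin] at this
    exact_mod_cast Nat.lt_succ_of_le this
  have h := Lagrange.eq_interpolate (v := v) hv.injOn hdeg
  have h1 := congrArg (Polynomial.eval (1 : ℝ)) h
  rw [Lagrange.interpolate_apply, Polynomial.eval_finsetSum, heval, one_smul] at h1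
  rw [h1]
  refine Finset.sum_congr rfl fun k _ => ?_
  rw [Polynomial.eval_mul, Polynomial.eval_C, heval, mul_comm]

/-- There is no differentiable retraction of the closed ball onto the sphere. -/
theorem no_smooth_retraction {g : (EuclideanSpace ℝ (Fin d)) → (EuclideanSpace ℝ (Fin d))} {U : Set (EuclideanSpace ℝ (Fin d))} (hU : IsOpen U)
    (hBU : closedBall 0 1 ⊆ U) (hg : ContDiffOn ℝ 1 g U)
    (hnorm : ∀ x ∈ closedBall (0:(EuclideanSpace ℝ (Fin d))) 1, ‖g x‖ = 1) (hid : ∀ x : (EuclideanSpace ℝ (Fin d)), ‖x‖ = 1 → g x = x) : False := by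
  classical
  set w : (EuclideanSpace ℝ (Fin d)) → (EuclideanSpace ℝ (Fin d)) := fun x => if ‖x‖ ≤ 1 then g x - x else 0 with hw
  have hw0 : ∀ x : (EuclideanSpace ℝ (Fin d)), 1 ≤ ‖x‖ → w x = 0 := by
    intro x hx
    simp only [hw]
    split_ifs with h
    · rw [hid x (le_antisymm h hx), sub_self]
    · rfl
  have hgd : ∀ x ∈ U, DifferentiableAt ℝ g x := fun x hx =>
    (hg.differentiableOn one_ne_zero).differentiableAt (hU.mem_nhds hx)
  have hwc : ContinuousOn (fun x => fderiv ℝ g x - 1) U :=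
    (hg.continuousOn_fderiv_of_isOpen hU le_rfl).sub continuousOn_const
  obtain ⟨K0, hK0⟩ := (isCompact_closedBall (0:(EuclideanSpace ℝ (Fin d))) 1).exists_bound_of_continuousOn (hwc.mono hBU)
  set K := max K0 1 with hKdef
  have hK : 0 < K := lt_of_lt_of_le one_pos (le_max_right _ _)
  have hdw : ∀ x ∈ closedBall (0:(EuclideanSpace ℝ (Fin d))) 1,
      HasFDerivWithinAt (fun y => g y - y) (fderiv ℝ g x - 1) (closedBall (0:(EuclideanSpace ℝ (Fin d))) 1) x := fun x hx =>
    ((hgd x (hBU hx)).hasFDerivAt.sub (hasFDerivAt_id x)).hasFDerivWithinAt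
  have hlipB : ∀ x ∈ closedBall (0:(EuclideanSpace ℝ (Fin d))) 1, ∀ y ∈ closedBall (0:(EuclideanSpace ℝ (Fin d))) 1,
      ‖(g y - y) - (g x - x)‖ ≤ K * ‖y - x‖ := fun x hx y hy =>
    (convex_closedBall (0:(EuclideanSpace ℝ (Fin d))) 1).norm_image_sub_le_of_norm_hasFDerivWithin_le hdw
      (fun z hz => (hK0 z hz).trans (le_max_left _ _)) hx hy
  have hin : ∀ x : (EuclideanSpace ℝ (Fin d)), ‖x‖ ≤ 1 → x ∈ closedBall (0:(EuclideanSpace ℝ (Fin d))) 1 := fun x hx => mem_closedBall_zero_iff.2 hx
  have hlip : ∀ x y : (EuclideanSpace ℝ (Fin d)), ‖w x - w y‖ ≤ K * ‖x - y‖ := by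
    have mixed : ∀ x y : (EuclideanSpace ℝ (Fin d)), ‖x‖ ≤ 1 → 1 ≤ ‖y‖ → ‖w x - w y‖ ≤ K * ‖x - y‖ := by
      intro x y hx hy
      have hy0 : ‖y‖ ≠ 0 := by linarith
      set z := ‖y‖⁻¹ • y with hz
      have hz1 : ‖z‖ = 1 := by rw [hz, norm_smul, norm_inv, norm_norm, inv_mul_cancel₀ hy0]
      have hxz : ‖x - z‖ ≤ ‖x - y‖ := by
        refine (sq_le_sq₀ (norm_nonneg _) (norm_nonneg _)).1 ?_
        rw [norm_sub_sq_real, norm_sub_sq_real, hz1, hz, real_inner_smul_right]
        have hi : inner ℝ x y ≤ ‖x‖ * ‖y‖ := real_inner_le_norm x y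
        have h1 : ‖y‖⁻¹ ≤ 1 := inv_le_one_of_one_le₀ hy
        have e : ‖y‖⁻¹ * ‖y‖ = 1 := inv_mul_cancel₀ hy0
        nlinarith [mul_le_mul_of_nonneg_left hi (sub_nonneg.2 h1), mul_nonneg (sub_nonneg.2 hy)
          (sub_nonneg.2 hx), sq_nonneg (‖y‖ - 1)]
      have h := hlipB z (hin _ hz1.le) x (hin _ hx)
      have e1 : w x = g x - x := by simp only [hw]; rw [if_pos hx]
      have e2 : g z - z = 0 := by rw [hid z hz1, sub_self]
      rw [hw0 y hy, e1]
      rw [e2] at h
      exact h.trans (mul_le_mul_of_nonneg_left hxz hK.le)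
    intro x y
    rcases le_total ‖x‖ 1 with hx | hx <;> rcases le_total ‖y‖ 1 with hy | hy
    · simp only [hw]; rw [if_pos hx, if_pos hy]
      exact hlipB y (hin _ hy) x (hin _ hx)
    · exact mixed x y hx hy
    · rw [norm_sub_rev, norm_sub_rev x]; exact mixed y x hy hx
    · rw [hw0 x hx, hw0 y hy, sub_self, norm_zero]; positivity
  set U0 := ball (0:(EuclideanSpace ℝ (Fin d))) 1 with hU0
  have hderiv : ∀ (t : ℝ), ∀ x ∈ U0,
      HasFDerivWithinAt (fun y => y + t • w y) (1 + t • (fderiv ℝ g x - 1)) U0 x := by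
    intro t x hx
    have hxU := hBU (ball_subset_closedBall hx)
    have hev : w =ᶠ[𝓝 x] fun y => g y - y := by
      filter_upwards [isOpen_ball.mem_nhds hx] with y hy
      simp only [hw]
      rw [if_pos (mem_ball_zero_iff.1 hy).le]
    have h1 := ((hgd x hxU).hasFDerivAt.sub (hasFDerivAt_id x)).congr_of_eventuallyEq hev
    exact ((hasFDerivAt_id x).add (h1.const_smul t)).hasFDerivWithinAt
  -- small times
  have hdet1 : ∀ᶠ B : (EuclideanSpace ℝ (Fin d)) →L[ℝ] (EuclideanSpace ℝ (Fin d)) in 𝓝 1, 0 < B.det := by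
    have h1 : (1 : (EuclideanSpace ℝ (Fin d)) →L[ℝ] (EuclideanSpace ℝ (Fin d))).det = 1 := LinearMap.det_id
    exact (ContinuousLinearMap.continuous_det.tendsto 1).eventually
      (lt_mem_nhds (by rw [h1]; norm_num))
  obtain ⟨δ, hδ, hδd⟩ := Metric.eventually_nhds_iff.1 hdet1
  set η := min δ 1 / (2 * K) with hη
  have hη0 : 0 < η := by positivity
  set v : ℕ → ℝ := fun k => η / (k + 1) with hvdef
  have hv : Function.Injective v := by
    intro a b h
    simp only [hvdef] at h
    field_simp at h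
    exact_mod_cast (by linarith : (a:ℝ) = b)
  have hvt : ∀ k, 0 < v k ∧ v k * K < 1 ∧ v k * K < δ := by
    intro k
    have h1 : v k ≤ η := div_le_self hη0.le (by linarith [(Nat.cast_nonneg k : (0:ℝ) ≤ k)])
    have h2 : η * K = min δ 1 / 2 := by rw [hη]; field_simp
    have h3 := mul_le_mul_of_nonneg_right h1 hK.le
    refine ⟨div_pos hη0 (by positivity), ?_, ?_⟩ <;>
      nlinarith [min_le_left δ (1:ℝ), min_le_right δ (1:ℝ), lt_min hδ one_pos]
  have hvol : ∀ k, ∫ x in U0, (1 + v k • (fderiv ℝ g x - 1)).det = volume.real U0 := by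
    intro k
    obtain ⟨ht, ht1, htd⟩ := hvt k
    set F : (EuclideanSpace ℝ (Fin d)) → (EuclideanSpace ℝ (Fin d)) := fun y => y + v k • w y with hF
    have hinj : Function.Injective F := by
      intro x y h
      simp only [hF] at h
      have h' : x - y = v k • (w y - w x) := by
        rw [smul_sub, sub_eq_sub_iff_add_eq_add, h, add_comm]
      by_contra hne
      have hp : 0 < ‖x - y‖ := norm_pos_iff.2 (sub_ne_zero.2 hne)
      have hle := hlip y x
      rw [norm_sub_rev y x] at hle
      have : ‖x - y‖ = v k * ‖w y - w x‖ := by rw [h', norm_smul, Real.norm_of_nonneg ht.le]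
      nlinarith [mul_le_mul_of_nonneg_left hle ht.le]
    have hsurj : Function.Surjective F := by
      intro y
      have hKc : LipschitzWith (v k * K).toNNReal (fun x => y - v k • w x) := by
        refine LipschitzWith.of_dist_le_mul fun a b => ?_
        rw [dist_eq_norm, dist_eq_norm, sub_sub_sub_cancel_left, ← smul_sub, norm_smul,
          Real.norm_of_nonneg ht.le, Real.coe_toNNReal _ (by positivity), mul_assoc]
        refine mul_le_mul_of_nonneg_left ?_ ht.le
        rw [norm_sub_rev a b]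
        exact hlip b a
      have hC : ContractingWith (v k * K).toNNReal (fun x => y - v k • w x) :=
        ⟨by rw [← NNReal.coe_lt_coe, Real.coe_toNNReal _ (by positivity)]; exact_mod_cast ht1, hKc⟩
      refine ⟨hC.fixedPoint, ?_⟩
      have h := hC.fixedPoint_isFixedPt
      simp only [Function.IsFixedPt] at h
      exact (sub_eq_iff_eq_add.1 h).symm
    have hout : ∀ x : (EuclideanSpace ℝ (Fin d)), x ∉ U0 → F x = x := fun x hx => by
      simp only [hF]
      rw [hw0 x (by simpa [hU0] using hx), smul_zero, add_zero]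
    have himage : F '' U0 = U0 := by
      ext y
      constructor
      · rintro ⟨x, hx, rfl⟩
        by_contra hy
        exact hy (by rw [hinj (hout _ hy)]; exact hx)
      · intro hy
        obtain ⟨x, rfl⟩ := hsurj y
        refine ⟨x, ?_, rfl⟩
        by_contra hx
        rw [hout x hx] at hy
        exact hx hy
    have h := integral_image_eq_integral_abs_det_fderiv_smul (μ := volume) measurableSet_ball
      (hderiv (v k)) hinj.injOn (fun _ => (1:ℝ))
    rw [himage, setIntegral_const, smul_eq_mul, mul_one] at h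
    rw [h]
    refine setIntegral_congr_fun measurableSet_ball fun x hx => ?_
    have hp : 0 < (1 + v k • (fderiv ℝ g x - 1)).det := hδd (by
      rw [dist_eq_norm, add_sub_cancel_left, norm_smul, Real.norm_of_nonneg ht.le]
      refine lt_of_le_of_lt (mul_le_mul_of_nonneg_left ?_ ht.le) htd
      exact (hK0 x (ball_subset_closedBall hx)).trans (le_max_left _ _))
    simp only [smul_eq_mul, mul_one, abs_of_pos hp]
  have hint : ∀ t : ℝ, IntegrableOn (fun x => (1 + t • (fderiv ℝ g x - 1)).det) U0 := by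
    intro t
    refine IntegrableOn.mono_set ?_ (ball_subset_closedBall : U0 ⊆ closedBall 0 1)
    refine ContinuousOn.integrableOn_compact (isCompact_closedBall _ _) ?_
    exact ContinuousLinearMap.continuous_det.comp_continuousOn
      (continuousOn_const.add ((hwc.mono hBU).const_smul t))
  have hzero : ∀ x ∈ U0, (1 + (fderiv ℝ g x - 1)).det = 0 := by
    intro x hx
    rw [add_sub_cancel]
    have hxU := hBU (ball_subset_closedBall hx)
    have hn := (hgd x hxU).hasFDerivAt.norm_sq
    have hc : (fun y => ‖g y‖ ^ 2) =ᶠ[𝓝 x] fun _ => (1:ℝ) := by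
      filter_upwards [isOpen_ball.mem_nhds hx] with y hy
      rw [hnorm y (ball_subset_closedBall hy), one_pow]
    have h0 := hn.unique ((hasFDerivAt_const (1:ℝ) x).congr_of_eventuallyEq hc)
    by_contra hne
    have hker : LinearMap.ker ((fderiv ℝ g x : (EuclideanSpace ℝ (Fin d)) →L[ℝ] (EuclideanSpace ℝ (Fin d))) : (EuclideanSpace ℝ (Fin d)) →ₗ[ℝ] (EuclideanSpace ℝ (Fin d))) = ⊥ := by
      by_contra hk
      exact hne (LinearMap.det_eq_zero_iff_ker_ne_bot.2 hk)
    obtain ⟨z, hz⟩ := (LinearMap.injective_iff_surjective.1 (LinearMap.ker_eq_bot.1 hker)) (g x)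
    have h2 := DFunLike.congr_fun h0 z
    simp only [_root_.smul_apply, ContinuousLinearMap.comp_apply,
      _root_.zero_apply, innerSL_apply_apply, nsmul_eq_mul] at h2
    have hz' : fderiv ℝ g x z = g x := hz
    rw [hz', real_inner_self_eq_norm_sq, hnorm x (ball_subset_closedBall hx)] at h2
    norm_num at h2
  have hsum : ∑ k ∈ Finset.range (d + 1),
      (Lagrange.basis (Finset.range (d + 1)) v k).eval (1:ℝ) = 1 := by
    rw [← Polynomial.eval_finsetSum, Lagrange.sum_basis hv.injOn
      (Finset.nonempty_range_iff.2 (Nat.succ_ne_zero d)), Polynomial.eval_one]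
  have hmain : (0:ℝ) = volume.real U0 := by
    calc (0:ℝ) = ∫ x in U0, (1 + (fderiv ℝ g x - 1)).det := by
          rw [setIntegral_congr_fun measurableSet_ball hzero, integral_zero]
      _ = ∫ x in U0, ∑ k ∈ Finset.range (d + 1),
            (Lagrange.basis (Finset.range (d + 1)) v k).eval (1:ℝ) *
              (1 + v k • (fderiv ℝ g x - 1)).det := by
          simp only [← det_one_add_interpolate _ v hv]
      _ = ∑ k ∈ Finset.range (d + 1),
            (Lagrange.basis (Finset.range (d + 1)) v k).eval (1:ℝ) * volume.real U0 := by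
          rw [integral_finsetSum _ fun k _ => (hint (v k)).const_mul _]
          exact Finset.sum_congr rfl fun k _ => by rw [integral_const_mul, hvol k]
      _ = volume.real U0 := by rw [← Finset.sum_mul, hsum, one_mul]
  have hpos : 0 < volume.real U0 :=
    ENNReal.toReal_pos (measure_ball_pos volume (0:(EuclideanSpace ℝ (Fin d))) one_pos).ne' measure_ball_lt_top.ne
  linarith

/-- A continuous map of Euclidean space into the open unit ball has a fixed point. -/
theorem fixed_point_unit {h : (EuclideanSpace ℝ (Fin d)) → (EuclideanSpace ℝ (Fin d))} (hh : Continuous h) (hb : ∀ x, ‖h x‖ < 1) :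
    ∃ x, h x = x := by
  by_contra hne
  simp only [not_exists] at hne
  have hcont : Continuous fun x => min ‖x - h x‖ (1 - ‖h x‖) :=
    ((continuous_id.sub hh).norm).min (continuous_const.sub hh.norm)
  obtain ⟨x0, -, hx0⟩ := (isCompact_closedBall (0:(EuclideanSpace ℝ (Fin d))) 1).exists_isMinOn
    (nonempty_closedBall.2 zero_le_one) hcont.continuousOn
  set ε := min ‖x0 - h x0‖ (1 - ‖h x0‖) with hε
  have hε0 : 0 < ε := lt_min (norm_pos_iff.2 (sub_ne_zero.2 (Ne.symm (hne x0)))) (by linarith [hb x0])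
  obtain ⟨f, hfd, hfa, -⟩ := hh.exists_contDiff_approx 1 (ε := fun _ => ε) continuous_const
    fun _ => hε0
  have hfa' : ∀ x, ‖f x - h x‖ < ε := fun x => by rw [← dist_eq_norm]; exact hfa x
  have hfx : ∀ x ∈ closedBall (0:(EuclideanSpace ℝ (Fin d))) 1, x - f x ≠ 0 ∧ ‖f x‖ < 1 := by
    intro x hx
    have h1 : ε ≤ min ‖x - h x‖ (1 - ‖h x‖) := hx0 hx
    have h2 := le_min_iff.1 h1
    refine ⟨fun hz => ?_, ?_⟩
    · have := hfa' x
      rw [← sub_eq_zero.1 hz] at this
      linarith
    · have := norm_le_norm_add_norm_sub (h x) (f x)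
      linarith [hfa' x, norm_sub_rev (h x) (f x)]
  set a : (EuclideanSpace ℝ (Fin d)) → ℝ := fun x => ‖x - f x‖ ^ 2 with ha
  set b : (EuclideanSpace ℝ (Fin d)) → ℝ := fun x => inner ℝ x (x - f x) with hb'
  set D : (EuclideanSpace ℝ (Fin d)) → ℝ := fun x => b x ^ 2 + a x * (1 - ‖x‖ ^ 2) with hD
  have hfd1 : ContDiff ℝ 1 f := hfd
  have hac : ContDiff ℝ 1 a := (contDiff_id.sub hfd1).norm_sq ℝ
  have hbc : ContDiff ℝ 1 b := contDiff_id.inner ℝ (contDiff_id.sub hfd1)
  have hDc : ContDiff ℝ 1 D :=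
    (hbc.pow 2).add (hac.mul (contDiff_const.sub (contDiff_id.norm_sq ℝ)))
  have hpos : ∀ x ∈ closedBall (0:(EuclideanSpace ℝ (Fin d))) 1, 0 < a x ∧ 0 < D x ∧ (‖x‖ = 1 → 0 < b x) := by
    intro x hx
    obtain ⟨h1, h2⟩ := hfx x hx
    have hx1 := mem_closedBall_zero_iff.1 hx
    have ha0 : 0 < a x := by simp only [ha]; exact pow_pos (norm_pos_iff.2 h1) 2
    have hb0 : ‖x‖ = 1 → 0 < b x := fun e => by
      simp only [hb', inner_sub_right, real_inner_self_eq_norm_sq, e, one_pow]
      have := real_inner_le_norm x (f x)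
      rw [e, one_mul] at this
      linarith
    refine ⟨ha0, ?_, hb0⟩
    simp only [hD]
    rcases hx1.eq_or_lt with e | e
    · have := hb0 e
      rw [e]
      nlinarith [pow_pos this 2]
    · have : 0 < 1 - ‖x‖ ^ 2 := by nlinarith [norm_nonneg x]
      nlinarith [sq_nonneg (b x), mul_pos ha0 this]
  set U := {x | 0 < a x} ∩ {x | 0 < D x} with hU
  set l : (EuclideanSpace ℝ (Fin d)) → ℝ := fun x => (-b x + Real.sqrt (D x)) / a x with hl
  set g : (EuclideanSpace ℝ (Fin d)) → (EuclideanSpace ℝ (Fin d)) := fun x => x + l x • (x - f x) with hg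
  refine no_smooth_retraction (g := g) (U := U)
    ((isOpen_lt continuous_const hac.continuous).inter (isOpen_lt continuous_const hDc.continuous))
    (fun x hx => ⟨(hpos x hx).1, (hpos x hx).2.1⟩) ?_ ?_ ?_
  · intro x hx
    have hs : ContDiffAt ℝ 1 (fun y => Real.sqrt (D y)) x :=
      hDc.contDiffAt.sqrt hx.2.ne'
    have hlc : ContDiffAt ℝ 1 l x :=
      (hbc.contDiffAt.neg.add hs).div hac.contDiffAt (ne_of_gt hx.1)
    exact (contDiffAt_id.add (hlc.smul (contDiff_id.sub hfd1).contDiffAt)).contDiffWithinAt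
  · intro x hx
    obtain ⟨ha0, hD0, -⟩ := hpos x hx
    have hs := Real.mul_self_sqrt hD0.le
    have hla : l x * a x = -b x + Real.sqrt (D x) := by
      simp only [hl]
      rw [div_mul_cancel₀ _ ha0.ne']
    have hsq : ‖g x‖ ^ 2 = 1 := by
      simp only [hg]
      rw [norm_add_sq_real, real_inner_smul_right, norm_smul, mul_pow, Real.norm_eq_abs, sq_abs]
      show ‖x‖ ^ 2 + 2 * (l x * b x) + l x ^ 2 * a x = 1
      have hDdef : D x = b x ^ 2 + a x * (1 - ‖x‖ ^ 2) := rfl
      refine mul_left_cancel₀ ha0.ne' ?_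
      linear_combination hs + hDdef + (l x * a x + b x + Real.sqrt (D x)) * hla
    exact (sq_eq_one_iff.1 hsq).resolve_right (by linarith [norm_nonneg (g x)])
  · intro x hx
    obtain ⟨ha0, -, hb0⟩ := hpos x (mem_closedBall_zero_iff.2 hx.le)
    simp only [hg, hl, hD, hx, one_pow, sub_self, mul_zero, add_zero, Real.sqrt_sq (hb0 hx).le,
      neg_add_cancel, zero_div, zero_smul]

end

/-- **Brouwer**: a bounded continuous self-map of a finite-dimensional real normed space has a
fixed point. -/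
theorem brouwer_bounded {V : Type} [NormedAddCommGroup V] [NormedSpace ℝ V] [FiniteDimensional ℝ V]
    {f : V → V} (hf : Continuous f) (hb : ∃ C, ∀ x, ‖f x‖ ≤ C) : ∃ x, f x = x := by
  obtain ⟨C, hC⟩ := hb
  have e : V ≃L[ℝ] EuclideanSpace ℝ (Fin (Module.finrank ℝ V)) :=
    ContinuousLinearEquiv.ofFinrankEq (by simp)
  set r := ‖(e : V →L[ℝ] EuclideanSpace ℝ (Fin (Module.finrank ℝ V)))‖ * max C 0 + 1 with hr
  have hr0 : 0 < r := by positivity
  obtain ⟨y, hy⟩ := fixed_point_unit (h := fun y => r⁻¹ • e (f (e.symm (r • y))))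
    (by fun_prop)
    (fun y => by
      rw [norm_smul, Real.norm_of_nonneg (inv_nonneg.2 hr0.le), inv_mul_lt_one₀ hr0]
      have h1 := (e : V →L[ℝ] EuclideanSpace ℝ (Fin (Module.finrank ℝ V))).le_opNorm
        (f (e.symm (r • y)))
      have h2 := mul_le_mul_of_nonneg_left ((hC (e.symm (r • y))).trans (le_max_left C 0))
        (norm_nonneg (e : V →L[ℝ] EuclideanSpace ℝ (Fin (Module.finrank ℝ V))))
      simp only [ContinuousLinearEquiv.coe_coe] at h1
      linarith)
  refine ⟨e.symm (r • y), e.injective ?_⟩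
  have h := congrArg (fun z => r • z) hy
  simp only [smul_smul, mul_inv_cancel₀ hr0.ne', one_smul] at h
  rw [h, e.apply_symm_apply]

end Vale.Agent.P371G
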