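import Vale.Agent.P371G.PsiDefs

/-! # Uniform bounds and continuity for `Λ_s` and `H_s` -/

namespace Vale.Agent.P371G

open Matrix Finset Filter Topology MeasureTheory
open scoped ComplexOrder MatrixOrder Matrix.Norms.L2Operator

variable {n : ℕ}

/-- The dominating profile in `s`. -/
noncomputable def wB (K s : ℝ) : ℝ :=
  if s ≤ 4 * K ^ 2 then |Real.log s| + 2 * Real.log (6 * K) else 4 * K ^ 2 / s

theorem wB_nonneg {K s : ℝ} (hK : 1 ≤ K) : 0 ≤ wB K s := by
  unfold wB
  split_ifs with h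
  · have := Real.log_nonneg (by linarith : (1:ℝ) ≤ 6 * K)
    positivity
  · have : 0 < s := lt_of_le_of_lt (by positivity) (not_le.1 h)
    positivity

theorem fc_le_smul {X : Mat n} (hX : X.IsHermitian) {f : ℝ → ℝ} {r : ℝ}
    (h : ∀ i, f (hX.eigenvalues i) ≤ r) : fc f X ≤ r • (1 : Mat n) := by
  rw [← fc_const hX r]; exact fc_mono hX h

theorem smul_le_fc {X : Mat n} (hX : X.IsHermitian) {f : ℝ → ℝ} {r : ℝ}
    (h : ∀ i, r ≤ f (hX.eigenvalues i)) : r • (1 : Mat n) ≤ fc f X := by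
  rw [← fc_const hX r]; exact fc_mono hX h

theorem smul_one_mono {a b : ℝ} (h : a ≤ b) : a • (1 : Mat n) ≤ b • (1 : Mat n) := by
  rw [← sub_nonneg, ← sub_smul]
  exact smul_nonneg (sub_nonneg.2 h) zero_le_one

theorem entry_le_of_bounds {X : Mat n} {k : ℝ} (hX : X.IsHermitian)
    (h1 : (-k) • (1 : Mat n) ≤ X) (h2 : X ≤ k • (1 : Mat n)) (i j : Fin n) : ‖X i j‖ ≤ k := by
  have hb : ∀ a, |hX.eigenvalues a| ≤ k := fun a => abs_le.2 ⟨le_eig hX h1 a, eig_le hX h2 a⟩
  have hk : 0 ≤ k := (abs_nonneg _).trans (hb i)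
  set U : Mat n := (hX.eigenvectorUnitary : Mat n) with hU
  have hrow : ∀ b, ∑ a, ‖U b a‖ ^ 2 = 1 := fun b => by
    have h := congrArg Complex.re (congrFun (congrFun (eU_mul_star hX) b) b)
    rw [Matrix.mul_apply, Complex.re_sum, Matrix.one_apply_eq, ← hU] at h
    simpa [Matrix.conjTranspose_apply, Complex.mul_conj', ← Complex.ofReal_pow] using h
  conv_lhs => rw [← fc_id hX, fc_diag hX, ← hU, Matrix.mul_apply]
  refine (norm_sum_le _ _).trans ?_
  calc ∑ a, ‖(U * diagonal fun a => (hX.eigenvalues a : ℂ)) i a * Uᴴ a j‖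
      ≤ ∑ a, k * ((‖U i a‖ ^ 2 + ‖U j a‖ ^ 2) / 2) := by
        refine Finset.sum_le_sum fun a _ => ?_
        rw [Matrix.mul_diagonal, Matrix.conjTranspose_apply, norm_mul, norm_mul, norm_star,
          Complex.norm_real, Real.norm_eq_abs]
        nlinarith [hb a, abs_nonneg (hX.eigenvalues a), norm_nonneg (U i a), norm_nonneg (U j a),
          mul_nonneg (norm_nonneg (U i a)) (norm_nonneg (U j a)),
          sq_nonneg (‖U i a‖ - ‖U j a‖)]
    _ = k := by rw [← Finset.mul_sum, ← Finset.sum_div, Finset.sum_add_distrib, hrow, hrow]; ring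

theorem abs_rtr_mul_le {A X : Mat n} {k : ℝ} (hA : 0 ≤ A) (h1 : (-k) • (1 : Mat n) ≤ X)
    (h2 : X ≤ k • (1 : Mat n)) : |rtr (A * X)| ≤ k * rtr A := by
  have a := rtr_mul_le_left hA h1
  have b := rtr_mul_le_left hA h2
  rw [Matrix.mul_smul, Matrix.mul_one, rtr_smul] at a b
  exact abs_le.2 ⟨by linarith, by linarith⟩

theorem log_split {X : Mat n} (hX : X.PosDef) {l : ℝ} (hl : 0 < l) :
    fc Real.log X = fc (fun x => Real.log (x / l)) X + Real.log l • (1 : Mat n) := by
  rw [← fc_const hX.1 (Real.log l), fc_add]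
  refine fc_congr hX.1 fun i => ?_
  rw [Real.log_div (hX.eigenvalues_pos i).ne' hl.ne']
  ring

theorem log_le_affine {X : Mat n} (hX : X.PosDef) {l : ℝ} (hl : 0 < l) :
    fc (fun x => Real.log (x / l)) X ≤ l⁻¹ • X - (1 : Mat n) := by
  have e : l⁻¹ • X - (1 : Mat n) = fc (fun x => l⁻¹ * x - 1) X := by
    rw [← fc_sub (fun x => l⁻¹ * x) (fun _ => 1), ← fc_smul, fc_id hX.1, fc_one hX.1]
  rw [e]
  refine fc_mono hX.1 fun i => ?_
  have := Real.log_le_sub_one_of_pos (div_pos (hX.eigenvalues_pos i) hl)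
  rw [div_eq_inv_mul] at this ⊢
  linarith

theorem affine_inv_le_log {X : Mat n} (hX : X.PosDef) {l : ℝ} (hl : 0 < l) :
    (1 : Mat n) - l • X⁻¹ ≤ fc (fun x => Real.log (x / l)) X := by
  have e : (1 : Mat n) - l • X⁻¹ = fc (fun x => 1 - l * x⁻¹) X := by
    rw [← fc_sub (fun _ => 1) (fun x => l * x⁻¹), ← fc_smul, fc_one hX.1,
      ← inv_eq_fc hX.1 (fun i => (hX.eigenvalues_pos i).ne')]
  rw [e]
  refine fc_mono hX.1 fun i => ?_
  have hx := hX.eigenvalues_pos i
  have := Real.log_le_sub_one_of_pos (div_pos hl hx)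
  rw [Real.log_div hl.ne' hx.ne', div_eq_mul_inv] at this
  rw [Real.log_div hx.ne' hl.ne']
  linarith

theorem Adm.N_bounds {A M : Mat n} (h : Adm A M) {K : ℝ} (hMK : M ≤ K • (1 : Mat n)) :
    M - A ≤ K • (1 : Mat n) ∧ (-K) • (1 : Mat n) ≤ M - A := by
  refine ⟨(sub_le_self _ h.nonneg).trans hMK, ?_⟩
  rw [neg_smul, neg_le]
  refine le_trans ?_ hMK
  rw [neg_sub, ← sub_nonneg]
  refine (sub_nonneg.2 h.le_two).trans_eq ?_
  module

theorem cM_eig_ge {s x K : ℝ} (hs : 0 < s) (hK : 1 ≤ K) (hsK : s ≤ 4 * K ^ 2) (hx : 0 < x)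
    (hxK : x ≤ K) : s / (4 * K) ≤ Real.sqrt (x ^ 2 + s) - x := by
  have h1 : Real.sqrt (x ^ 2 + s) ≤ 3 * K :=
    Real.sqrt_le_iff.2 ⟨by linarith, by nlinarith⟩
  have h2 := sqrt_gt hs x
  rw [abs_of_pos hx] at h2
  have h3 := Real.mul_self_sqrt (by positivity : (0:ℝ) ≤ x ^ 2 + s)
  rw [div_le_iff₀ (by linarith)]
  nlinarith

/-- Uniform two-sided bound on `Λ`. -/
theorem Lam_bound {A M : Mat n} (h : Adm A M) {K : ℝ} (hK : 1 ≤ K) (hMK : M ≤ K • (1 : Mat n))
    {s : ℝ} (hs : 0 < s) :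
    (-wB K s) • (1 : Mat n) ≤ Lam s A M ∧ Lam s A M ≤ wB K s • (1 : Mat n) := by
  have hM := h.posDef.1
  have hP := h.cA hs
  have hQ := h.dA hs
  have hmE : ∀ i, hM.eigenvalues i ≤ K := eig_le hM hMK
  have hm0 : ∀ i, 0 < hM.eigenvalues i := h.posDef.eigenvalues_pos
  obtain ⟨hN1, hN2⟩ := h.N_bounds hMK
  have hN : (M - A).IsHermitian := hM.sub h.herm
  by_cases hsK : s ≤ 4 * K ^ 2
  · rw [wB, if_pos hsK]
    set r := s / (4 * K) with hr
    have hr0 : 0 < r := by positivity
    have hcr : r • (1 : Mat n) ≤ cM s M := by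
      rw [cM_eq hM]
      exact smul_le_fc hM fun i => cM_eig_ge hs hK hsK (hm0 i) (hmE i)
    have hLK : LM s M ≤ (3 * K) • (1 : Mat n) := by
      rw [LM_eq hM]
      exact fc_le_smul hM fun i => Real.sqrt_le_iff.2
        ⟨by linarith, by nlinarith [hm0 i, hmE i]⟩
    have hP1 : r • (1 : Mat n) ≤ cM s M + A := hcr.trans (le_add_of_nonneg_right h.nonneg)
    have hQ1 : r • (1 : Mat n) ≤ dM s M - A := hcr.trans h.c_le
    have hPQ : cM s M + A ≤ (6 * K) • (1 : Mat n) ∧ dM s M - A ≤ (6 * K) • (1 : Mat n) := by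
      constructor
      · rw [show cM s M + A = LM s M + -(M - A) by rw [cM]; abel]
        refine (add_le_add hLK (neg_le_neg hN2)).trans ?_
        rw [neg_smul, neg_neg, ← add_smul]
        exact smul_one_mono (by linarith)
      · rw [show dM s M - A = LM s M + (M - A) by rw [dM]; abel]
        refine (add_le_add hLK hN1).trans ?_
        rw [← add_smul]
        exact smul_one_mono (by linarith)
    have bnd : ∀ X : Mat n, X.PosDef → r • (1 : Mat n) ≤ X → X ≤ (6 * K) • (1 : Mat n) →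
        Real.log r • (1 : Mat n) ≤ fc Real.log X ∧
          fc Real.log X ≤ Real.log (6 * K) • (1 : Mat n) := fun X hX h1 h2 =>
      ⟨smul_le_fc hX.1 fun i => Real.log_le_log hr0 (le_eig hX.1 h1 i),
        fc_le_smul hX.1 fun i => Real.log_le_log (hX.eigenvalues_pos i) (eig_le hX.1 h2 i)⟩
    obtain ⟨p1, p2⟩ := bnd _ hP hP1 hPQ.1
    obtain ⟨q1, q2⟩ := bnd _ hQ hQ1 hPQ.2
    have hlr : Real.log r = Real.log s - Real.log (4 * K) := by
      rw [hr, Real.log_div hs.ne' (by positivity)]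
    have h46 : Real.log (4 * K) ≤ Real.log (6 * K) :=
      Real.log_le_log (by positivity) (by linarith)
    have h0 := Real.log_nonneg (by linarith : (1:ℝ) ≤ 4 * K)
    have ha := le_abs_self (Real.log s)
    have hb := neg_abs_le (Real.log s)
    constructor
    · refine le_trans ?_ (sub_le_sub_right (add_le_add p1 q1) _)
      rw [← add_smul, ← sub_smul, hlr]
      exact smul_one_mono (by linarith)
    · refine (sub_le_sub_right (add_le_add p2 q2) _).trans ?_
      rw [← add_smul, ← sub_smul]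
      exact smul_one_mono (by linarith)
  · rw [wB, if_neg hsK]
    push Not at hsK
    set l := Real.sqrt s with hl
    have hl0 : 0 < l := Real.sqrt_pos.2 hs
    have hl2 : l * l = s := Real.mul_self_sqrt hs.le
    have hlK : 2 * K ≤ l := Real.le_sqrt_of_sq_le (by nlinarith)
    have hlog : Lam s A M = fc (fun x => Real.log (x / l)) (cM s M + A)
        + fc (fun x => Real.log (x / l)) (dM s M - A) := by
      rw [Lam, log_split hP hl0, log_split hQ hl0, hl, Real.log_sqrt hs.le]
      module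
    rw [hlog]
    constructor
    · have hN0 : ∀ i, |hN.eigenvalues i| ≤ K := fun i =>
        abs_le.2 ⟨le_eig hN hN2 i, eig_le hN hN1 i⟩
      have hLl : l • (1 : Mat n) ≤ LM s M := by
        rw [LM_eq hM]
        exact smul_le_fc hM fun i => Real.sqrt_le_sqrt (by nlinarith)
      have eP : fc (fun x => l - x) (M - A) = l • (1 : Mat n) - (M - A) := by
        rw [← fc_sub (fun _ => l) (fun x => x), fc_const hN, fc_id hN]
      have eQ : fc (fun x => l + x) (M - A) = l • (1 : Mat n) + (M - A) := by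
        rw [← fc_add (fun _ => l) (fun x => x), fc_const hN, fc_id hN]
      have p0 : (fc (fun x => l - x) (M - A)).PosDef := fc_posDef hN fun i => by
        have := abs_le.1 (hN0 i); linarith
      have q0 : (fc (fun x => l + x) (M - A)).PosDef := fc_posDef hN fun i => by
        have := abs_le.1 (hN0 i); linarith
      have iP : (cM s M + A)⁻¹ ≤ fc (fun x => (l - x)⁻¹) (M - A) := by
        have e : (fc (fun x => l - x) (M - A))⁻¹ = fc (fun x => (l - x)⁻¹) (M - A) := by
          refine Matrix.inv_eq_left_inv ?_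
          rw [fc_mul, ← fc_one hN]
          exact fc_congr hN fun i => inv_mul_cancel₀ (by have := abs_le.1 (hN0 i); linarith)
        rw [← e]
        refine inv_antitone p0 ?_
        rw [eP, show cM s M + A = LM s M - (M - A) by rw [cM]; abel]
        exact sub_le_sub_right hLl _
      have iQ : (dM s M - A)⁻¹ ≤ fc (fun x => (l + x)⁻¹) (M - A) := by
        have e : (fc (fun x => l + x) (M - A))⁻¹ = fc (fun x => (l + x)⁻¹) (M - A) := by
          refine Matrix.inv_eq_left_inv ?_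
          rw [fc_mul, ← fc_one hN]
          exact fc_congr hN fun i => inv_mul_cancel₀ (by have := abs_le.1 (hN0 i); linarith)
        rw [← e]
        refine inv_antitone q0 ?_
        rw [eQ, show dM s M - A = LM s M + (M - A) by rw [dM]; abel]
        exact add_le_add hLl le_rfl
      refine le_trans ?_ (add_le_add (affine_inv_le_log hP hl0) (affine_inv_le_log hQ hl0))
      have hsum : l • (cM s M + A)⁻¹ + l • (dM s M - A)⁻¹ ≤ (2 + 4 * K ^ 2 / s) • (1 : Mat n) := by
        refine (add_le_add (smul_le_smul_of_nonneg_left iP hl0.le)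
          (smul_le_smul_of_nonneg_left iQ hl0.le)).trans ?_
        rw [fc_smul, fc_smul, fc_add]
        refine fc_le_smul hN fun i => ?_
        have hb := abs_le.1 (hN0 i)
        set x := hN.eigenvalues i
        have hx2 : x ^ 2 ≤ K ^ 2 := sq_le_sq' hb.1 hb.2
        have h1 : 0 < l - x := by linarith
        have h2 : 0 < l + x := by linarith
        have e : l * (l - x)⁻¹ + l * (l + x)⁻¹ = 2 * s / (s - x ^ 2) := by
          rw [show s - x ^ 2 = (l - x) * (l + x) by rw [← hl2]; ring, ← hl2]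
          field_simp
          ring
        have h3 : 0 < s - x ^ 2 := by nlinarith
        rw [e, div_le_iff₀ h3]
        have e4 : 4 * K ^ 2 / s * s = 4 * K ^ 2 := by field_simp
        have h5 : 4 * K ^ 2 / s * x ^ 2 ≤ K ^ 2 := by
          rw [div_mul_eq_mul_div, div_le_iff₀ hs]
          nlinarith
        nlinarith
      calc (-(4 * K ^ 2 / s)) • (1 : Mat n)
          = 1 + 1 - (2 + 4 * K ^ 2 / s) • (1 : Mat n) := by module
        _ ≤ 1 + 1 - (l • (cM s M + A)⁻¹ + l • (dM s M - A)⁻¹) := sub_le_sub_left hsum _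
        _ = 1 - l • (cM s M + A)⁻¹ + (1 - l • (dM s M - A)⁻¹) := by abel
    · refine (add_le_add (log_le_affine hP hl0) (log_le_affine hQ hl0)).trans ?_
      rw [show l⁻¹ • (cM s M + A) - (1 : Mat n) + (l⁻¹ • (dM s M - A) - 1)
        = (2 * l⁻¹) • LM s M - (2 : ℝ) • (1 : Mat n) by rw [cM, dM]; module, LM_eq hM, fc_smul,
        ← fc_const hM 2, fc_sub]
      refine fc_le_smul hM fun i => ?_
      set x := hM.eigenvalues i
      have hx : x ^ 2 ≤ K ^ 2 := by nlinarith [hm0 i, hmE i]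
      have : Real.sqrt (x ^ 2 + s) ≤ l + x ^ 2 / (2 * l) := by
        refine Real.sqrt_le_iff.2 ⟨by positivity, ?_⟩
        have : (l + x ^ 2 / (2 * l)) ^ 2 = s + x ^ 2 + (x ^ 2 / (2 * l)) ^ 2 := by
          rw [← hl2]; field_simp; ring
        nlinarith [sq_nonneg (x ^ 2 / (2 * l))]
      have h2 : 2 * l⁻¹ * Real.sqrt (x ^ 2 + s) ≤ 2 + x ^ 2 / s := by
        refine (mul_le_mul_of_nonneg_left this (by positivity)).trans_eq ?_
        rw [← hl2]; field_simp
      have : x ^ 2 / s ≤ 4 * K ^ 2 / s := div_le_div_of_nonneg_right (by nlinarith) hs.le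
      linarith

theorem Lam_herm {A M : Mat n} (s : ℝ) : (Lam s A M).IsHermitian :=
  ((fc_herm _ _).add (fc_herm _ _)).sub (smul_one_herm _)

theorem Lam_entry {A M : Mat n} (h : Adm A M) {K : ℝ} (hK : 1 ≤ K) (hMK : M ≤ K • (1 : Mat n))
    {s : ℝ} (hs : 0 < s) (i j : Fin n) : ‖Lam s A M i j‖ ≤ wB K s :=
  entry_le_of_bounds (Lam_herm s) (Lam_bound h hK hMK hs).1 (Lam_bound h hK hMK hs).2 i j

theorem Adm.path {A M : Mat n} (h : Adm A M) {s : ℝ} (hs : 0 < s) {θ : ℝ}
    (hθ : θ ∈ Set.Icc (0:ℝ) 1) :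
    HasDerivAt (fun t : ℝ => HH s (t • A) M) (rtr (A * Lam s (θ • A) M)) θ := by
  have h' := h.scale hθ
  have hd := hasDerivAt_HH hs h.posDef.1 (h'.cA hs) (h'.dA hs) h.herm
  rw [← sub_self θ] at hd
  have := hd.comp_sub_const θ θ
  refine this.congr_of_eventuallyEq (Eventually.of_forall fun t => ?_)
  show HH s (t • A) M = HH s (θ • A + (t - θ) • A) M
  rw [← add_smul, add_sub_cancel]

theorem HH_bound {A M : Mat n} (h : Adm A M) {K : ℝ} (hK : 1 ≤ K) (hMK : M ≤ K • (1 : Mat n))
    {s : ℝ} (hs : 0 < s) : |HH s A M| ≤ wB K s * rtr A := by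
  have := norm_image_sub_le_of_norm_deriv_le_segment_01' (f := fun t : ℝ => HH s (t • A) M)
    (f' := fun θ => rtr (A * Lam s (θ • A) M)) (C := wB K s * rtr A)
    (fun θ hθ => (h.path hs hθ).hasDerivWithinAt) fun θ hθ => by
      have h' := h.scale (Set.Ico_subset_Icc_self hθ)
      exact (Real.norm_eq_abs _).trans_le (abs_rtr_mul_le h.nonneg (Lam_bound h' hK hMK hs).1
        (Lam_bound h' hK hMK hs).2)
  simpa [HH_zero] using this

section continuity

variable {X : Type*} [TopologicalSpace X]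

theorem continuousOn_fc {S : Set X} {f : ℝ → ℝ} (hf : Continuous f) {a : X → Mat n}
    (ha : ContinuousOn a S) (hs : ∀ x ∈ S, (a x).IsHermitian) :
    ContinuousOn (fun x => fc f (a x)) S :=
  ha.cfc_of_mem_nhdsSet f (s := Set.univ) Filter.univ_mem hs hf.continuousOn

theorem continuousOn_log {S : Set X} {a : X → Mat n} (ha : ContinuousOn a S)
    (hs : ∀ x ∈ S, (a x).PosDef) : ContinuousOn (fun x => fc Real.log (a x)) S := by
  have h : ContinuousOn (CFC.log : Mat n → Mat n) {a | IsSelfAdjoint a ∧ IsUnit a} :=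
    CFC.continuousOn_log
  exact h.comp ha fun x hx => ⟨(hs x hx).1, (hs x hx).isUnit⟩

variable {S : Set X} {σ : X → ℝ} {A M : X → Mat n}
  (hσ : ContinuousOn σ S) (hA : ContinuousOn A S) (hM : ContinuousOn M S)
  (hσ0 : ∀ x ∈ S, 0 < σ x) (hAdm : ∀ x ∈ S, Adm (A x) (M x))

include hσ hM hAdm in
theorem continuousOn_LM : ContinuousOn (fun x => LM (σ x) (M x)) S :=
  continuousOn_fc Real.continuous_sqrt ((hM.mul hM).add (hσ.smul continuousOn_const)) fun x hx => by
    rw [sq_add_eq (hAdm x hx).posDef.1]; exact fc_herm _ _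

include hσ hA hM hσ0 hAdm

theorem continuousOn_Lam : ContinuousOn (fun x => Lam (σ x) (A x) (M x)) S := by
  have hL := continuousOn_LM hσ hM hAdm
  exact ((continuousOn_log ((hL.sub hM).add hA) fun x hx => (hAdm x hx).cA (hσ0 x hx)).add
    (continuousOn_log ((hL.add hM).sub hA) fun x hx => (hAdm x hx).dA (hσ0 x hx))).sub
    ((hσ.log fun x hx => (hσ0 x hx).ne').smul continuousOn_const)

theorem continuousOn_HH : ContinuousOn (fun x => HH (σ x) (A x) (M x)) S := by
  have hL := continuousOn_LM hσ hM hAdm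
  have hc := hL.sub hM
  have hd := hL.add hM
  have hh : Continuous hlog := Real.continuous_mul_log.sub continuous_id
  have hr : Continuous (rtr : Mat n → ℝ) := by unfold rtr; fun_prop
  have hr' : ∀ {a : X → Mat n}, ContinuousOn a S → ContinuousOn (fun x => rtr (a x)) S :=
    fun ha => hr.comp_continuousOn ha
  have f : ∀ {a : X → Mat n}, ContinuousOn a S → (∀ x ∈ S, (a x).IsHermitian) →
      ContinuousOn (fun x => rtr (fc hlog (a x))) S := fun ha hs => hr' (continuousOn_fc hh ha hs)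
  have lc := continuousOn_log hc fun x hx => cM_posDef (hσ0 x hx) (hAdm x hx).posDef.1
  have ld := continuousOn_log hd fun x hx => dM_posDef (hσ0 x hx) (hAdm x hx).posDef.1
  exact (((f (hc.add hA) fun x hx => ((hAdm x hx).cA (hσ0 x hx)).1).sub
    (f hc fun x hx => cM_herm (hAdm x hx).posDef.1 _)).sub (hr' (((hc.add hA).sub hc).mul lc))).sub
    (((f (hd.sub hA) fun x hx => ((hAdm x hx).dA (hσ0 x hx)).1).sub
    (f hd fun x hx => dM_herm (hAdm x hx).posDef.1 _)).sub (hr' (((hd.sub hA).sub hd).mul ld)))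

end continuity

end Vale.Agent.P371G
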