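import Vale.Agent.P371G.Order

/-! # The Bregman divergence of `x log x - x` and its two variational representations -/

namespace Vale.Agent.P371G

open Matrix Finset MeasureTheory
open scoped ComplexOrder MatrixOrder

variable {n : ℕ}

/-- `h(x) = x log x - x`. -/
noncomputable def hlog (x : ℝ) : ℝ := x * Real.log x - x

/-- Trace Bregman divergence of `hlog`. -/
noncomputable def breg (X Y : Mat n) : ℝ :=
  rtr (fc hlog X) - rtr (fc hlog Y) - rtr ((X - Y) * fc Real.log Y)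

/-- The density of the Bregman divergence on the segment. -/
noncomputable def bq (θ : ℝ) {X Y : Mat n} (hX : X.PosDef) (hY : Y.PosDef) : ℝ :=
  ∑ i, ∑ j, ‖inBases hX.1 hY.1 (X - Y) i j‖ ^ 2 /
    ((1 - θ) * hY.1.eigenvalues j + θ * hX.1.eigenvalues i)

theorem den_pos {θ x y : ℝ} (hθ : θ ∈ Set.Icc (0 : ℝ) 1) (hx : 0 < x) (hy : 0 < y) :
    0 < (1 - θ) * y + θ * x := by
  rcases hθ.1.eq_or_lt with h | h
  · subst h; simpa using hy
  · nlinarith [mul_pos h hx, mul_nonneg (sub_nonneg.2 hθ.2) hy.le]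

theorem breg_scalar {x y : ℝ} (hx : 0 < x) (hy : 0 < y) :
    (∫ θ in (0:ℝ)..1, (1 - θ) * ((x - y) ^ 2 / ((1 - θ) * y + θ * x)))
      = hlog x - hlog y - (x - y) * Real.log y := by
  set F : ℝ → ℝ := fun θ => hlog ((1 - θ) * y + θ * x)
    + (1 - θ) * (x - y) * Real.log ((1 - θ) * y + θ * x) with hF
  have hd : ∀ θ ∈ Set.uIcc (0:ℝ) 1,
      HasDerivAt F ((1 - θ) * ((x - y) ^ 2 / ((1 - θ) * y + θ * x))) θ := by
    intro θ hθ
    rw [Set.uIcc_of_le zero_le_one] at hθ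
    have hp := den_pos hθ hx hy
    have hu : HasDerivAt (fun t : ℝ => (1 - t) * y + t * x) (x - y) θ := by
      refine ((((hasDerivAt_id θ).const_sub 1).mul_const y).add
        ((hasDerivAt_id θ).mul_const x)).congr_deriv ?_
      ring
    have hl := hu.log hp.ne'
    have hh : HasDerivAt (fun t => hlog ((1 - t) * y + t * x))
        ((x - y) * Real.log ((1 - θ) * y + θ * x)) θ := by
      refine ((hu.mul hl).sub hu).congr_deriv ?_
      rw [mul_div_cancel₀ _ hp.ne']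
      ring
    have h2 := (((hasDerivAt_id θ).const_sub 1).mul_const (x - y)).mul hl
    refine (hh.add h2).congr_deriv ?_
    simp only [id_eq]
    field_simp
    ring
  have hc : ContinuousOn (fun θ => (1 - θ) * ((x - y) ^ 2 / ((1 - θ) * y + θ * x)))
      (Set.uIcc (0:ℝ) 1) := by
    refine ContinuousOn.mul (by fun_prop) (ContinuousOn.div (by fun_prop) (by fun_prop) ?_)
    intro θ hθ
    rw [Set.uIcc_of_le zero_le_one] at hθ
    exact (den_pos hθ hx hy).ne'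
  rw [intervalIntegral.integral_eq_sub_of_hasDerivAt hd hc.intervalIntegrable]
  simp only [hF]
  norm_num
  ring

section
variable {X Y : Mat n} (hX : X.PosDef) (hY : Y.PosDef)

theorem bq_continuousOn : ContinuousOn (fun θ => bq θ hX hY) (Set.Icc 0 1) := by
  unfold bq
  refine continuousOn_finsetSum _ fun i _ => continuousOn_finsetSum _ fun j _ => ?_
  refine ContinuousOn.div (by fun_prop) (by fun_prop) fun θ hθ => ?_
  exact (den_pos hθ (hX.eigenvalues_pos i) (hY.eigenvalues_pos j)).ne'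

theorem bq_intervalIntegrable :
    IntervalIntegrable (fun θ => (1 - θ) * bq θ hX hY) volume 0 1 := by
  refine ContinuousOn.intervalIntegrable ?_
  rw [Set.uIcc_of_le zero_le_one]
  exact ContinuousOn.mul (by fun_prop) (bq_continuousOn hX hY)

theorem breg_eq : breg X Y = ∫ θ in (0:ℝ)..1, (1 - θ) * bq θ hX hY := by
  have e : ∀ θ, (1 - θ) * bq θ hX hY = ∑ i, ∑ j, (1 - θ) *
      ((hX.1.eigenvalues i - hY.1.eigenvalues j) ^ 2 /
        ((1 - θ) * hY.1.eigenvalues j + θ * hX.1.eigenvalues i)) * ov hX.1 hY.1 i j := by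
    intro θ
    simp only [bq, Finset.mul_sum, inBases_diff, norm_mul, ← Complex.ofReal_sub,
      Complex.norm_real, mul_pow, Real.norm_eq_abs, sq_abs, ov]
    exact Finset.sum_congr rfl fun i _ => Finset.sum_congr rfl fun j _ => by ring
  have hii : ∀ i j, IntervalIntegrable (fun θ : ℝ => (1 - θ) *
      ((hX.1.eigenvalues i - hY.1.eigenvalues j) ^ 2 /
        ((1 - θ) * hY.1.eigenvalues j + θ * hX.1.eigenvalues i)) * ov hX.1 hY.1 i j)
      volume 0 1 := by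
    intro i j
    refine ContinuousOn.intervalIntegrable ?_
    rw [Set.uIcc_of_le zero_le_one]
    refine ContinuousOn.mul (ContinuousOn.mul (by fun_prop)
      (ContinuousOn.div (by fun_prop) (by fun_prop) fun θ hθ => ?_)) (by fun_prop)
    exact (den_pos hθ (hX.eigenvalues_pos i) (hY.eigenvalues_pos j)).ne'
  simp only [e]
  rw [intervalIntegral.integral_finsetSum fun i _ => by
    simpa only [Finset.sum_fn] using IntervalIntegrable.sum Finset.univ fun j _ => hii i j]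
  simp only [intervalIntegral.integral_finsetSum fun j _ => hii _ j,
    intervalIntegral.integral_mul_const, breg_scalar (hX.eigenvalues_pos _) (hY.eigenvalues_pos _)]
  have e3 : rtr ((X - Y) * fc Real.log Y)
      = ∑ i, ∑ j, (hX.1.eigenvalues i - hY.1.eigenvalues j) * Real.log (hY.1.eigenvalues j)
          * ov hX.1 hY.1 i j := by
    have h1 : rtr (X * fc Real.log Y) = ∑ i, ∑ j,
        hX.1.eigenvalues i * Real.log (hY.1.eigenvalues j) * ov hX.1 hY.1 i j := by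
      conv_lhs => enter [1, 1]; rw [← fc_id hX.1]
      exact rtr_fc_fc hX.1 hY.1 _ _
    have h2 : rtr (Y * fc Real.log Y) = ∑ i, ∑ j,
        hY.1.eigenvalues j * Real.log (hY.1.eigenvalues j) * ov hX.1 hY.1 i j := by
      conv_lhs => enter [1, 1]; rw [← fc_id hY.1]
      rw [fc_mul, rtr_fc hY.1]
      exact (sum_right hX.1 hY.1 fun y => y * Real.log y).symm
    rw [Matrix.sub_mul, rtr_sub, h1, h2, ← Finset.sum_sub_distrib]
    refine Finset.sum_congr rfl fun i _ => ?_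
    rw [← Finset.sum_sub_distrib]
    exact Finset.sum_congr rfl fun j _ => by ring
  rw [breg, e3, rtr_fc hX.1, rtr_fc hY.1, ← sum_left hX.1 hY.1 hlog,
    ← sum_right hX.1 hY.1 hlog, ← Finset.sum_sub_distrib, ← Finset.sum_sub_distrib]
  refine Finset.sum_congr rfl fun i _ => ?_
  rw [← Finset.sum_sub_distrib, ← Finset.sum_sub_distrib]
  exact Finset.sum_congr rfl fun j _ => by ring

theorem breg_nonneg (hX : X.PosDef) (hY : Y.PosDef) : 0 ≤ breg X Y := by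
  rw [breg_eq hX hY]
  refine intervalIntegral.integral_nonneg zero_le_one fun θ hθ => ?_
  refine mul_nonneg (sub_nonneg.2 hθ.2) ?_
  exact Finset.sum_nonneg fun i _ => Finset.sum_nonneg fun j _ =>
    div_nonneg (sq_nonneg _) (den_pos hθ (hX.eigenvalues_pos i) (hY.eigenvalues_pos j)).le

theorem inBases_back' (B : Mat n) :
    inBases hX.1 hY.1 ((hX.1.eigenvectorUnitary : Mat n) * B *
      (hY.1.eigenvectorUnitary : Mat n)ᴴ) = B := by
  simp only [inBases, ← Matrix.mul_assoc, eU_star_mul, Matrix.one_mul]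
  rw [Matrix.mul_assoc, eU_star_mul, Matrix.mul_one]

/-- The affine functional in `(X⁻¹, Y⁻¹)` lying above `bq`. -/
noncomputable def bqUpper (θ : ℝ) (A U Xi Yi : Mat n) : ℝ :=
  rtr (U * Yi * Uᴴ) / (1 - θ) + rtr ((A - U)ᴴ * Xi * (A - U)) / θ

/-- The affine functional in `(X, Y)` lying below `bq`. -/
noncomputable def bqLower (θ : ℝ) (A U X Y : Mat n) : ℝ :=
  2 * rtr (Uᴴ * A) - (1 - θ) * rtr (U * Y * Uᴴ) - θ * rtr (Uᴴ * X * U)

theorem rtr_mid_right (g : ℝ → ℝ) (U : Mat n) :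
    rtr (U * fc g Y * Uᴴ) = ∑ i, ∑ j, g (hY.1.eigenvalues j) * ‖inBases hX.1 hY.1 U i j‖ ^ 2 := by
  have := rtr_fc_star hX.1 hY.1 (fun _ => 1) g U
  simpa [fc_one hX.1] using this

theorem rtr_mid_left (f : ℝ → ℝ) (U : Mat n) :
    rtr (Uᴴ * fc f X * U) = ∑ i, ∑ j, f (hX.1.eigenvalues i) * ‖inBases hX.1 hY.1 U i j‖ ^ 2 := by
  rw [Matrix.mul_assoc, rtr_mul_comm]
  have := rtr_fc_star hX.1 hY.1 f (fun _ => 1) U
  simpa [fc_one hY.1] using this

theorem bqUpper_eq (θ : ℝ) (A U : Mat n) :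
    bqUpper θ A U X⁻¹ Y⁻¹ = ∑ i, ∑ j,
      ((hY.1.eigenvalues j)⁻¹ * ‖inBases hX.1 hY.1 U i j‖ ^ 2 / (1 - θ) +
        (hX.1.eigenvalues i)⁻¹ * ‖inBases hX.1 hY.1 A i j - inBases hX.1 hY.1 U i j‖ ^ 2 / θ) := by
  rw [bqUpper, inv_eq_fc hX.1 (fun i => (hX.eigenvalues_pos i).ne'),
    inv_eq_fc hY.1 (fun i => (hY.eigenvalues_pos i).ne'), rtr_mid_right hX hY,
    rtr_mid_left hX hY]
  simp only [inBases_sub, Matrix.sub_apply, Finset.sum_div, ← Finset.sum_add_distrib]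

theorem bqLower_eq (θ : ℝ) (A U : Mat n) :
    bqLower θ A U X Y = ∑ i, ∑ j,
      (2 * (inBases hX.1 hY.1 A i j * star (inBases hX.1 hY.1 U i j)).re
        - (1 - θ) * (hY.1.eigenvalues j * ‖inBases hX.1 hY.1 U i j‖ ^ 2)
        - θ * (hX.1.eigenvalues i * ‖inBases hX.1 hY.1 U i j‖ ^ 2)) := by
  have e1 : rtr (Uᴴ * A) = ∑ i, ∑ j,
      (inBases hX.1 hY.1 A i j * star (inBases hX.1 hY.1 U i j)).re := by
    rw [rtr_mul_comm]
    have := rtr_fc_mul_fc_mul hX.1 hY.1 (fun _ => 1) (fun _ => 1) A Uᴴ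
    simpa [fc_one hX.1, fc_one hY.1, ← inBases_star] using this
  have e2 : rtr (U * Y * Uᴴ) = ∑ i, ∑ j,
      hY.1.eigenvalues j * ‖inBases hX.1 hY.1 U i j‖ ^ 2 := by
    conv_lhs => enter [1, 1, 2]; rw [← fc_id hY.1]
    exact rtr_mid_right hX hY _ U
  have e3 : rtr (Uᴴ * X * U) = ∑ i, ∑ j,
      hX.1.eigenvalues i * ‖inBases hX.1 hY.1 U i j‖ ^ 2 := by
    conv_lhs => enter [1, 1, 2]; rw [← fc_id hX.1]
    exact rtr_mid_left hX hY _ U
  rw [bqLower, e1, e2, e3]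
  simp only [Finset.mul_sum, ← Finset.sum_sub_distrib]

theorem bq_le_upper {θ : ℝ} (hθ : θ ∈ Set.Ioo (0:ℝ) 1) (U : Mat n) :
    bq θ hX hY ≤ bqUpper θ (X - Y) U X⁻¹ Y⁻¹ := by
  rw [bqUpper_eq hX hY]
  refine Finset.sum_le_sum fun i _ => Finset.sum_le_sum fun j _ => ?_
  set a := inBases hX.1 hY.1 (X - Y) i j
  set u := inBases hX.1 hY.1 U i j
  set x := hX.1.eigenvalues i
  set y := hY.1.eigenvalues j
  have hx : 0 < x := hX.eigenvalues_pos i
  have hy : 0 < y := hY.eigenvalues_pos j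
  have h1 : 0 < 1 - θ := by linarith [hθ.2]
  have h2 := hθ.1
  have hn : ‖a‖ ≤ ‖u‖ + ‖a - u‖ := norm_le_norm_add_norm_sub' a u
  have hsq : ‖a‖ ^ 2 ≤ (‖u‖ + ‖a - u‖) ^ 2 := pow_le_pow_left₀ (norm_nonneg _) hn 2
  have hp : 0 < (1 - θ) * y + θ * x := by positivity
  rw [div_le_iff₀ hp]
  refine hsq.trans (le_of_sub_nonneg ?_)
  have : (y⁻¹ * ‖u‖ ^ 2 / (1 - θ) + x⁻¹ * ‖a - u‖ ^ 2 / θ) * ((1 - θ) * y + θ * x)
      - (‖u‖ + ‖a - u‖) ^ 2
      = (θ * x * ‖u‖ - (1 - θ) * y * ‖a - u‖) ^ 2 / ((1 - θ) * y * (θ * x)) := by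
    field_simp
    ring
  rw [this]
  positivity

theorem bq_eq_upper {θ : ℝ} (hθ : θ ∈ Set.Ioo (0:ℝ) 1) :
    ∃ U : Mat n, bqUpper θ (X - Y) U X⁻¹ Y⁻¹ = bq θ hX hY := by
  refine ⟨(hX.1.eigenvectorUnitary : Mat n) * (Matrix.of fun i j =>
    (((1 - θ) * hY.1.eigenvalues j /
      ((1 - θ) * hY.1.eigenvalues j + θ * hX.1.eigenvalues i) : ℝ) : ℂ) *
      inBases hX.1 hY.1 (X - Y) i j) * (hY.1.eigenvectorUnitary : Mat n)ᴴ, ?_⟩
  rw [bqUpper_eq hX hY, inBases_back' hX hY, bq]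
  refine Finset.sum_congr rfl fun i _ => Finset.sum_congr rfl fun j _ => ?_
  simp only [Matrix.of_apply]
  set a := inBases hX.1 hY.1 (X - Y) i j
  set x := hX.1.eigenvalues i
  set y := hY.1.eigenvalues j
  have hx : 0 < x := hX.eigenvalues_pos i
  have hy : 0 < y := hY.eigenvalues_pos j
  have h1 : 0 < 1 - θ := by linarith [hθ.2]
  have h2 := hθ.1
  have hp : 0 < (1 - θ) * y + θ * x := by positivity
  rw [show a - (((1 - θ) * y / ((1 - θ) * y + θ * x) : ℝ) : ℂ) * a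
    = ((θ * x / ((1 - θ) * y + θ * x) : ℝ) : ℂ) * a by
      rw [show (θ * x / ((1 - θ) * y + θ * x) : ℝ) = 1 - (1 - θ) * y / ((1 - θ) * y + θ * x) by
        field_simp; ring]
      push_cast; ring, norm_mul, norm_mul, Complex.norm_real, Complex.norm_real,
    Real.norm_eq_abs, Real.norm_eq_abs, mul_pow, mul_pow, sq_abs, sq_abs]
  field_simp

theorem lower_le_bq {θ : ℝ} (hθ : θ ∈ Set.Icc (0:ℝ) 1) (U : Mat n) :
    bqLower θ (X - Y) U X Y ≤ bq θ hX hY := by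
  rw [bqLower_eq hX hY]
  refine Finset.sum_le_sum fun i _ => Finset.sum_le_sum fun j _ => ?_
  set a := inBases hX.1 hY.1 (X - Y) i j
  set u := inBases hX.1 hY.1 U i j
  set x := hX.1.eigenvalues i
  set y := hY.1.eigenvalues j
  have hp := den_pos hθ (hX.eigenvalues_pos i) (hY.eigenvalues_pos j)
  have hre : (a * star u).re ≤ ‖a‖ * ‖u‖ :=
    (Complex.re_le_norm _).trans (by rw [norm_mul, norm_star])
  rw [le_div_iff₀ hp]
  nlinarith [sq_nonneg (‖a‖ - ((1 - θ) * y + θ * x) * ‖u‖),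
    mul_le_mul_of_nonneg_left hre hp.le]

theorem bq_eq_lower {θ : ℝ} (hθ : θ ∈ Set.Icc (0:ℝ) 1) :
    ∃ U : Mat n, bqLower θ (X - Y) U X Y = bq θ hX hY := by
  refine ⟨(hX.1.eigenvectorUnitary : Mat n) * (Matrix.of fun i j =>
    (((1 - θ) * hY.1.eigenvalues j + θ * hX.1.eigenvalues i)⁻¹ : ℂ) *
      inBases hX.1 hY.1 (X - Y) i j) * (hY.1.eigenvectorUnitary : Mat n)ᴴ, ?_⟩
  rw [bqLower_eq hX hY, inBases_back' hX hY, bq]
  refine Finset.sum_congr rfl fun i _ => Finset.sum_congr rfl fun j _ => ?_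
  simp only [Matrix.of_apply]
  set a := inBases hX.1 hY.1 (X - Y) i j
  set x := hX.1.eigenvalues i
  set y := hY.1.eigenvalues j
  have hp := den_pos hθ (hX.eigenvalues_pos i) (hY.eigenvalues_pos j)
  have hc : (((1 : ℂ) - (θ : ℂ)) * (y : ℂ) + (θ : ℂ) * (x : ℂ))⁻¹
      = ((((1 - θ) * y + θ * x)⁻¹ : ℝ) : ℂ) := by push_cast; rfl
  simp only [hc, norm_mul, Complex.norm_real, Real.norm_eq_abs, mul_pow, sq_abs,
    star_mul', RCLike.star_def, Complex.conj_ofReal]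
  rw [show a * ((((((1 - θ) * y + θ * x)⁻¹ : ℝ)) : ℂ) * (starRingEnd ℂ) a)
    = ((((1 - θ) * y + θ * x)⁻¹ : ℝ) : ℂ) * (a * (starRingEnd ℂ) a) by ring,
    Complex.re_ofReal_mul, Complex.mul_conj', ← Complex.ofReal_pow, Complex.ofReal_re]
  generalize hD : (1 - θ) * y + θ * x = D at hp ⊢
  have e : ∀ K : ℝ, 2 * (D⁻¹ * ‖a‖ ^ 2) - (1 - θ) * (y * K) - θ * (x * K)
      = 2 * (D⁻¹ * ‖a‖ ^ 2) - D * K := fun K => by rw [← hD]; ring
  rw [e]
  field_simp
  ring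

end

theorem rtr_conj_mono (U : Mat n) {P Q : Mat n} (h : P ≤ Q) :
    rtr (U * P * Uᴴ) ≤ rtr (U * Q * Uᴴ) := by
  have h2 : 0 ≤ U * (Q - P) * Uᴴ :=
    ((sub_nonneg.2 h).posSemidef.mul_mul_conjTranspose_same U).nonneg
  have := rtr_nonneg h2
  rw [Matrix.mul_sub, Matrix.sub_mul, rtr_sub] at this
  linarith

/-- Midpoint concavity of the Bregman divergence in `(X⁻¹, Y⁻¹)` at fixed `X - Y`. -/
theorem breg_concave_inv {X Y X₀ Y₀ X₁ Y₁ : Mat n} (hX : X.PosDef) (hY : Y.PosDef)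
    (hX₀ : X₀.PosDef) (hY₀ : Y₀.PosDef) (hX₁ : X₁.PosDef) (hY₁ : Y₁.PosDef)
    (hA₀ : X₀ - Y₀ = X - Y) (hA₁ : X₁ - Y₁ = X - Y)
    (hXi : X₀⁻¹ + X₁⁻¹ ≤ (2 : ℝ) • X⁻¹) (hYi : Y₀⁻¹ + Y₁⁻¹ ≤ (2 : ℝ) • Y⁻¹) :
    breg X₀ Y₀ + breg X₁ Y₁ ≤ 2 * breg X Y := by
  rw [breg_eq hX hY, breg_eq hX₀ hY₀, breg_eq hX₁ hY₁, ← intervalIntegral.integral_add
    (bq_intervalIntegrable hX₀ hY₀) (bq_intervalIntegrable hX₁ hY₁),
    ← intervalIntegral.integral_const_mul]
  refine intervalIntegral.integral_mono_on_of_le_Ioo zero_le_one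
    ((bq_intervalIntegrable hX₀ hY₀).add (bq_intervalIntegrable hX₁ hY₁))
    ((bq_intervalIntegrable hX hY).const_mul 2) fun θ hθ => ?_
  obtain ⟨U, hU⟩ := bq_eq_upper hX hY hθ
  have h0 := bq_le_upper hX₀ hY₀ hθ U
  have h1 := bq_le_upper hX₁ hY₁ hθ U
  rw [hA₀] at h0
  rw [hA₁] at h1
  have hy := rtr_conj_mono U hYi
  have hx := rtr_conj_mono ((X - Y - U)ᴴ) hXi
  rw [Matrix.conjTranspose_conjTranspose] at hx
  simp only [Matrix.mul_add, Matrix.add_mul, rtr_add, Matrix.mul_smul, Matrix.smul_mul,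
    rtr_smul] at hx hy
  have h1θ : 0 < 1 - θ := by linarith [hθ.2]
  have hy' := div_le_div_of_nonneg_right hy h1θ.le
  have hx' := div_le_div_of_nonneg_right hx hθ.1.le
  rw [← hU]
  simp only [bqUpper] at h0 h1 ⊢
  simp only [add_div, mul_div_assoc] at hx' hy'
  have hmain : bq θ hX₀ hY₀ + bq θ hX₁ hY₁ ≤
      2 * (rtr (U * Y⁻¹ * Uᴴ) / (1 - θ) + rtr ((X - Y - U)ᴴ * X⁻¹ * (X - Y - U)) / θ) := by
    linarith
  nlinarith [mul_le_mul_of_nonneg_left hmain h1θ.le]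

/-- Midpoint convexity of the Bregman divergence in `(X, Y)` at fixed `X - Y`, with antitonicity. -/
theorem breg_convex {X Y X₀ Y₀ X₁ Y₁ : Mat n} (hX : X.PosDef) (hY : Y.PosDef)
    (hX₀ : X₀.PosDef) (hY₀ : Y₀.PosDef) (hX₁ : X₁.PosDef) (hY₁ : Y₁.PosDef)
    (hA₀ : X₀ - Y₀ = X - Y) (hA₁ : X₁ - Y₁ = X - Y)
    (hXl : X₀ + X₁ ≤ (2 : ℝ) • X) (hYl : Y₀ + Y₁ ≤ (2 : ℝ) • Y) :
    2 * breg X Y ≤ breg X₀ Y₀ + breg X₁ Y₁ := by
  rw [breg_eq hX hY, breg_eq hX₀ hY₀, breg_eq hX₁ hY₁, ← intervalIntegral.integral_add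
    (bq_intervalIntegrable hX₀ hY₀) (bq_intervalIntegrable hX₁ hY₁),
    ← intervalIntegral.integral_const_mul]
  refine intervalIntegral.integral_mono_on zero_le_one
    ((bq_intervalIntegrable hX hY).const_mul 2)
    ((bq_intervalIntegrable hX₀ hY₀).add (bq_intervalIntegrable hX₁ hY₁)) fun θ hθ => ?_
  obtain ⟨U, hU⟩ := bq_eq_lower hX hY hθ
  have h0 := lower_le_bq hX₀ hY₀ hθ U
  have h1 := lower_le_bq hX₁ hY₁ hθ U
  rw [hA₀] at h0
  rw [hA₁] at h1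
  have hy := rtr_conj_mono U hYl
  have hx := rtr_conj_mono Uᴴ hXl
  rw [Matrix.conjTranspose_conjTranspose] at hx
  simp only [Matrix.mul_add, Matrix.add_mul, rtr_add, Matrix.mul_smul, Matrix.smul_mul,
    rtr_smul] at hx hy
  rw [← hU]
  simp only [bqLower] at h0 h1 ⊢
  have hmain : 2 * (2 * rtr (Uᴴ * (X - Y)) - (1 - θ) * rtr (U * Y * Uᴴ)
      - θ * rtr (Uᴴ * X * U)) ≤ bq θ hX₀ hY₀ + bq θ hX₁ hY₁ := by
    nlinarith [mul_le_mul_of_nonneg_left hy (sub_nonneg.2 hθ.2),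
      mul_le_mul_of_nonneg_left hx hθ.1]
  nlinarith [mul_le_mul_of_nonneg_left hmain (sub_nonneg.2 hθ.2)]

end Vale.Agent.P371G
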