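import Vale.Agent.P371G.Defs

/-! # The constants of the sharp bound: the Beta integral and the identity for `LOne`. -/

namespace Vale.Agent.P371G

open Real

theorem beta0_eq {γ : ℝ} (hγ : 1 / 2 < γ) :
    beta0 γ = Real.Gamma (γ + 1 / 2) ^ 2 / Real.Gamma (2 * γ + 1) := by
  set s : ℂ := ((γ + 1 / 2 : ℝ) : ℂ) with hs
  have hre : 0 < s.re := by rw [hs, Complex.ofReal_re]; linarith
  have h := Complex.Gamma_mul_Gamma_eq_betaIntegral hre hre
  have hb : Complex.betaIntegral s s = ((beta0 γ : ℝ) : ℂ) := by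
    rw [Complex.betaIntegral, beta0, ← intervalIntegral.integral_ofReal]
    refine intervalIntegral.integral_congr fun x hx => ?_
    rw [Set.uIcc_of_le zero_le_one] at hx
    have h0 : 0 ≤ x := hx.1
    have h1 : 0 ≤ 1 - x := by linarith [hx.2]
    rw [Real.mul_rpow h0 h1, Complex.ofReal_mul, Complex.ofReal_cpow h0, Complex.ofReal_cpow h1]
    have e : ((γ - 1 / 2 : ℝ) : ℂ) = s - 1 := by rw [hs]; push_cast; ring
    rw [e]; push_cast; rfl
  rw [hb, show s + s = ((2 * γ + 1 : ℝ) : ℂ) by rw [hs]; push_cast; ring, hs, Complex.Gamma_ofReal,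
    Complex.Gamma_ofReal, ← Complex.ofReal_mul, ← Complex.ofReal_mul, Complex.ofReal_inj] at h
  have hne := (Real.Gamma_pos_of_pos (by linarith : 0 < 2 * γ + 1)).ne'
  rw [eq_div_iff hne, sq, h]
  ring

theorem beta0_pos {γ : ℝ} (hγ : 1 / 2 < γ) : 0 < beta0 γ := by
  rw [beta0_eq hγ]
  exact div_pos (pow_pos (Real.Gamma_pos_of_pos (by linarith)) 2)
    (Real.Gamma_pos_of_pos (by linarith))

/-- The constant of the matrix Young inequality, divided by `4^γ β₀`, is `LOne`. -/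
theorem LOne_eq {γ : ℝ} (hγ : 1 / 2 < γ) :
    LOne γ = 1 / (γ + 1 / 2) * ((γ - 1 / 2) / (γ + 1 / 2)) ^ (γ - 1 / 2)
      / ((4 : ℝ) ^ γ * beta0 γ) := by
  have h1 : 0 < Real.Gamma (γ + 1 / 2) := Real.Gamma_pos_of_pos (by linarith)
  have h2 : 0 < Real.Gamma (γ + 1) := Real.Gamma_pos_of_pos (by linarith)
  have h4 : (0 : ℝ) < 4 ^ γ := by positivity
  have hdup := Real.Gamma_mul_Gamma_add_half (γ + 1 / 2)
  rw [show γ + 1 / 2 + 1 / 2 = γ + 1 by ring, show 2 * (γ + 1 / 2) = 2 * γ + 1 by ring,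
    show (1 : ℝ) - (2 * γ + 1) = -(2 * γ) by ring, Real.rpow_neg zero_le_two,
    Real.rpow_mul zero_le_two, show (2 : ℝ) ^ (2 : ℝ) = 4 by norm_num] at hdup
  have hG : Real.Gamma (2 * γ + 1)
      = 4 ^ γ * Real.Gamma (γ + 1 / 2) * Real.Gamma (γ + 1) / Real.sqrt π := by
    rw [eq_div_iff (by positivity), mul_assoc _ (Real.Gamma (γ + 1 / 2)), hdup]
    field_simp
  have hnext : Real.Gamma (γ + 3 / 2) = (γ + 1 / 2) * Real.Gamma (γ + 1 / 2) := by
    rw [show γ + 3 / 2 = γ + 1 / 2 + 1 by ring, Real.Gamma_add_one (by linarith)]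
  rw [LOne, beta0_eq hγ, hnext, hG]
  generalize ((γ - 1 / 2) / (γ + 1 / 2)) ^ (γ - 1 / 2) = P
  have hp : γ + 1 / 2 ≠ 0 := by linarith
  have hπ : Real.sqrt π ≠ 0 := by positivity
  field_simp

end Vale.Agent.P371G
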