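import Vale.Agent.P371G.Breg

/-! # The resolvent-level potential `H_s(A, M)` and its gradient `Λ_s(A, M)` -/

namespace Vale.Agent.P371G

open Matrix Finset Filter Topology
open scoped ComplexOrder MatrixOrder Matrix.Norms.L2Operator

variable {n : ℕ}

/-- `L = √(M² + s)`. -/
noncomputable def LM (s : ℝ) (M : Mat n) : Mat n := fc Real.sqrt (M * M + s • (1 : Mat n))

/-- `d = L + M`. -/
noncomputable def dM (s : ℝ) (M : Mat n) : Mat n := LM s M + M

/-- `c = L - M`. -/
noncomputable def cM (s : ℝ) (M : Mat n) : Mat n := LM s M - M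

/-- The per-`s` potential. -/
noncomputable def HH (s : ℝ) (A M : Mat n) : ℝ :=
  breg (cM s M + A) (cM s M) - breg (dM s M - A) (dM s M)

/-- The gradient of `HH` in `A`. -/
noncomputable def Lam (s : ℝ) (A M : Mat n) : Mat n :=
  fc Real.log (cM s M + A) + fc Real.log (dM s M - A) - Real.log s • (1 : Mat n)

/-- Admissible pairs. -/
structure Adm (A M : Mat n) : Prop where
  nonneg : 0 ≤ A
  le_two : A ≤ (2 : ℝ) • M
  posDef : M.PosDef

theorem Adm.herm {A M : Mat n} (h : Adm A M) : A.IsHermitian := herm_of_nonneg h.nonneg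

theorem Adm.scale {A M : Mat n} (h : Adm A M) {θ : ℝ} (hθ : θ ∈ Set.Icc (0 : ℝ) 1) :
    Adm (θ • A) M := by
  refine ⟨smul_nonneg hθ.1 h.nonneg, le_trans ?_ h.le_two, h.posDef⟩
  rw [← sub_nonneg]
  have := smul_nonneg (sub_nonneg.2 hθ.2) h.nonneg
  rwa [sub_smul, one_smul] at this

theorem adm_zero {M : Mat n} (hM : M.PosDef) : Adm (0 : Mat n) M :=
  ⟨le_rfl, smul_nonneg (by norm_num) hM.posSemidef.nonneg, hM⟩

section
variable {s : ℝ} {M : Mat n} (hM : M.IsHermitian)

include hM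

theorem sq_add_eq (s : ℝ) : M * M + s • (1 : Mat n) = fc (fun x => x ^ 2 + s) M := by
  conv_lhs => rw [← fc_const hM s]; enter [1]; rw [← fc_id hM, fc_mul]
  rw [fc_add]
  simp only [sq]

theorem LM_eq (s : ℝ) : LM s M = fc (fun x => Real.sqrt (x ^ 2 + s)) M := by
  rw [LM, sq_add_eq hM, fc_comp hM]

theorem dM_eq (s : ℝ) : dM s M = fc (fun x => Real.sqrt (x ^ 2 + s) + x) M := by
  rw [dM, LM_eq hM]
  conv_lhs => enter [2]; rw [← fc_id hM]
  rw [fc_add]

theorem cM_eq (s : ℝ) : cM s M = fc (fun x => Real.sqrt (x ^ 2 + s) - x) M := by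
  rw [cM, LM_eq hM]
  conv_lhs => enter [2]; rw [← fc_id hM]
  rw [fc_sub]

theorem LM_herm (s : ℝ) : (LM s M).IsHermitian := by rw [LM_eq hM]; exact fc_herm _ _

theorem dM_herm (s : ℝ) : (dM s M).IsHermitian := by rw [dM_eq hM]; exact fc_herm _ _

theorem cM_herm (s : ℝ) : (cM s M).IsHermitian := by rw [cM_eq hM]; exact fc_herm _ _

theorem LM_sq (hs : 0 ≤ s) : LM s M * LM s M = M * M + s • (1 : Mat n) := by
  rw [sq_add_eq hM, LM_eq hM, fc_mul]
  exact fc_congr hM fun i => Real.mul_self_sqrt (by positivity)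

end

theorem fc_posDef {X : Mat n} (hX : X.IsHermitian) {f : ℝ → ℝ}
    (h : ∀ i, 0 < f (hX.eigenvalues i)) : (fc f X).PosDef := by
  rw [fc_diag hX]
  refine PosDef.mul_mul_conjTranspose_same (PosDef.diagonal fun i => by
    exact_mod_cast h i) ?_
  exact Matrix.vecMul_injective_iff_isUnit.2 (IsUnit.of_mul_eq_one _ (eU_mul_star hX))

theorem sqrt_gt {s : ℝ} (hs : 0 < s) (x : ℝ) : |x| < Real.sqrt (x ^ 2 + s) := by
  rw [← Real.sqrt_sq_eq_abs]
  exact Real.sqrt_lt_sqrt (sq_nonneg x) (by linarith)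

section
variable {s : ℝ} {M A : Mat n} (hs : 0 < s)

include hs

theorem cM_posDef (hM : M.IsHermitian) : (cM s M).PosDef := by
  rw [cM_eq hM]
  exact fc_posDef hM fun i => by linarith [sqrt_gt hs (hM.eigenvalues i), le_abs_self (hM.eigenvalues i)]

theorem dM_posDef (hM : M.IsHermitian) : (dM s M).PosDef := by
  rw [dM_eq hM]
  exact fc_posDef hM fun i => by linarith [sqrt_gt hs (hM.eigenvalues i), neg_abs_le (hM.eigenvalues i)]

theorem LM_posDef (hM : M.IsHermitian) : (LM s M).PosDef := by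
  rw [LM_eq hM]
  exact fc_posDef hM fun i => Real.sqrt_pos.2 (by positivity)

theorem cM_inv (hM : M.IsHermitian) : (cM s M)⁻¹ = s⁻¹ • dM s M := by
  refine Matrix.inv_eq_left_inv ?_
  rw [Matrix.smul_mul, cM_eq hM, dM_eq hM, fc_mul, fc_smul, ← fc_one hM]
  refine fc_congr hM fun i => ?_
  have h := Real.mul_self_sqrt (by positivity : (0:ℝ) ≤ hM.eigenvalues i ^ 2 + s)
  field_simp
  linear_combination h

theorem Adm.cA (h : Adm A M) : (cM s M + A).PosDef :=
  (cM_posDef hs h.posDef.1).add_posSemidef h.nonneg.posSemidef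

omit hs in
theorem Adm.c_le (h : Adm A M) : cM s M ≤ dM s M - A := by
  rw [← sub_nonneg, show dM s M - A - cM s M = (2 : ℝ) • M - A by rw [dM, cM]; module]
  exact sub_nonneg.2 h.le_two

theorem Adm.dA (h : Adm A M) : (dM s M - A).PosDef :=
  posDef_mono (cM_posDef hs h.posDef.1) h.c_le

/-- `d` is midpoint concave and monotone in `M²`. -/
theorem dM_midpoint {M₀ M₁ : Mat n} (hM : M.PosDef) (h₀ : M₀.PosDef) (h₁ : M₁.PosDef)
    (h : M₀ * M₀ + M₁ * M₁ ≤ (2 : ℝ) • (M * M)) :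
    dM s M₀ + dM s M₁ ≤ (2 : ℝ) • dM s M := by
  have key : ∀ P₀ P₁ P : Mat n, P₀.IsHermitian → P₁.IsHermitian → P.PosDef →
      0 ≤ P₀ → 0 ≤ P₁ → P₀ * P₀ + P₁ * P₁ ≤ (2 : ℝ) • (P * P) →
      P₀ + P₁ ≤ (2 : ℝ) • P := by
    intro P₀ P₁ P h0 h1 hP hn0 hn1 hsq
    have hQ : ((1 / 2 : ℝ) • (P₀ + P₁)).IsHermitian := by
      rw [IsHermitian, Matrix.conjTranspose_smul, (h0.add h1).eq, star_trivial]
    have hle : ((1 / 2 : ℝ) • (P₀ + P₁)) * ((1 / 2 : ℝ) • (P₀ + P₁)) ≤ P * P := by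
      have hd := ((posSemidef_conjTranspose_mul_self (P₀ - P₁)).nonneg)
      rw [(h0.sub h1).eq] at hd
      rw [← sub_nonneg]
      have h4 := add_nonneg (smul_nonneg (by norm_num : (0:ℝ) ≤ 1 / 2) (sub_nonneg.2 hsq))
        (smul_nonneg (by norm_num : (0:ℝ) ≤ 1 / 4) hd)
      refine h4.trans_eq ?_
      simp only [Matrix.smul_mul, Matrix.mul_smul, Matrix.add_mul, Matrix.mul_add,
        Matrix.sub_mul, Matrix.mul_sub]
      module
    have := le_of_sq_le hQ hP.1 (hP.add_posSemidef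
      (smul_nonneg (by norm_num : (0:ℝ) ≤ 1/2) (add_nonneg hn0 hn1)).posSemidef) hle
    have h5 := smul_nonneg (by norm_num : (0:ℝ) ≤ 2) (sub_nonneg.2 this)
    rw [smul_sub, smul_smul, show (2:ℝ) * (1/2) = 1 by norm_num, one_smul, sub_nonneg] at h5
    exact h5
  have a := key _ _ _ (LM_herm h₀.1 s) (LM_herm h₁.1 s) (LM_posDef hs hM.1)
    (LM_posDef hs h₀.1).posSemidef.nonneg (LM_posDef hs h₁.1).posSemidef.nonneg (by
      rw [LM_sq h₀.1 hs.le, LM_sq h₁.1 hs.le, LM_sq hM.1 hs.le, ← sub_nonneg]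
      refine (sub_nonneg.2 h).trans_eq ?_
      module)
  have b := key _ _ _ h₀.1 h₁.1 hM h₀.posSemidef.nonneg h₁.posSemidef.nonneg h
  rw [← sub_nonneg]
  refine (add_nonneg (sub_nonneg.2 a) (sub_nonneg.2 b)).trans_eq ?_
  simp only [dM]
  module

/-- Midpoint concavity (and monotonicity) of `HH` in `M²`. -/
theorem HH_concave {M₀ M₁ : Mat n} (hA : A.PosDef) (h : Adm A M) (h₀ : Adm A M₀) (h₁ : Adm A M₁)
    (hsq : M₀ * M₀ + M₁ * M₁ ≤ (2 : ℝ) • (M * M)) :
    HH s A M₀ + HH s A M₁ ≤ 2 * HH s A M := by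
  have hd := dM_midpoint hs h.posDef h₀.posDef h₁.posDef hsq
  have hci : ∀ {P : Mat n}, Adm A P → (cM s P + A)⁻¹
      = A⁻¹ - A⁻¹ * ((cM s P)⁻¹ + A⁻¹)⁻¹ * A⁻¹ := by
    intro P hP
    have hc := cM_posDef hs hP.posDef.1
    have hK : ((cM s P)⁻¹ + A⁻¹).PosDef := hc.inv.add hA.inv
    refine Matrix.inv_eq_right_inv ?_
    set c := cM s P
    set K := (c⁻¹ + A⁻¹)⁻¹
    have e1 : c * (c⁻¹ + A⁻¹) = 1 + c * A⁻¹ := by rw [Matrix.mul_add, posDef_mul_inv hc]
    calc (c + A) * (A⁻¹ - A⁻¹ * K * A⁻¹)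
        = c * A⁻¹ + 1 - (c * A⁻¹ + 1) * K * A⁻¹ := by
          simp only [Matrix.add_mul, Matrix.mul_sub, ← Matrix.mul_assoc, posDef_mul_inv hA,
            Matrix.one_mul]
      _ = c * A⁻¹ + 1 - c * ((c⁻¹ + A⁻¹) * K) * A⁻¹ := by
          rw [← Matrix.mul_assoc, e1, add_comm (1 : Mat n)]
      _ = 1 := by rw [posDef_mul_inv hK, Matrix.mul_one]; abel
  have hXi : (cM s M₀ + A)⁻¹ + (cM s M₁ + A)⁻¹ ≤ (2 : ℝ) • (cM s M + A)⁻¹ := by
    have hc := cM_posDef hs h.posDef.1
    have hc0 := cM_posDef hs h₀.posDef.1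
    have hc1 := cM_posDef hs h₁.posDef.1
    have hmid := inv_midpoint (P := (cM s M)⁻¹ + A⁻¹) (P₀ := (cM s M₀)⁻¹ + A⁻¹)
      (P₁ := (cM s M₁)⁻¹ + A⁻¹) (hc.inv.add hA.inv) (hc0.inv.add hA.inv) (hc1.inv.add hA.inv) (by
        rw [cM_inv hs h.posDef.1, cM_inv hs h₀.posDef.1, cM_inv hs h₁.posDef.1, ← sub_nonneg]
        refine (smul_nonneg (inv_nonneg.2 hs.le) (sub_nonneg.2 hd)).trans_eq ?_
        module)
    rw [hci h₀, hci h₁, hci h, ← sub_nonneg]
    have := ((sub_nonneg.2 hmid).posSemidef.conjTranspose_mul_mul_same A⁻¹).nonneg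
    rw [hA.inv.1.eq] at this
    refine this.trans_eq ?_
    simp only [Matrix.mul_sub, Matrix.sub_mul, Matrix.mul_add, Matrix.add_mul, Matrix.mul_smul,
      Matrix.smul_mul]
    module
  have hYi : (cM s M₀)⁻¹ + (cM s M₁)⁻¹ ≤ (2 : ℝ) • (cM s M)⁻¹ := by
    rw [cM_inv hs h.posDef.1, cM_inv hs h₀.posDef.1, cM_inv hs h₁.posDef.1, ← sub_nonneg]
    refine (smul_nonneg (inv_nonneg.2 hs.le) (sub_nonneg.2 hd)).trans_eq ?_
    module
  have h1 := breg_concave_inv (h.cA hs) (cM_posDef hs h.posDef.1) (h₀.cA hs)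
    (cM_posDef hs h₀.posDef.1) (h₁.cA hs) (cM_posDef hs h₁.posDef.1) (by abel) (by abel) hXi hYi
  have h2 := breg_convex (h.dA hs) (dM_posDef hs h.posDef.1) (h₀.dA hs)
    (dM_posDef hs h₀.posDef.1) (h₁.dA hs) (dM_posDef hs h₁.posDef.1) (by abel) (by abel) (by
      rw [← sub_nonneg]
      refine (sub_nonneg.2 hd).trans_eq ?_
      module) hd
  simp only [HH]
  linarith

end

theorem HH_zero (s : ℝ) (M : Mat n) : HH s 0 M = 0 := by simp [HH, breg, rtr_zero]

theorem continuousAt_log {X : Mat n} (hX : X.PosDef) :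
    ContinuousWithinAt (fun Y => fc Real.log Y) {Y : Mat n | Y.PosDef} X := by
  have h : ContinuousOn (CFC.log : Mat n → Mat n) {a | IsSelfAdjoint a ∧ IsUnit a} :=
    CFC.continuousOn_log
  exact (h X ⟨hX.1, hX.isUnit⟩).mono fun Y hY => ⟨hY.1, hY.isUnit⟩

theorem eventually_posDef {X : Mat n} (hX : X.PosDef) {V : Mat n} (hV : V.IsHermitian) :
    ∀ᶠ t : ℝ in 𝓝 0, (X + t • V).PosDef := by
  rcases isEmpty_or_nonempty (Fin n) with he | he
  · refine Eventually.of_forall fun t => ?_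
    exact (Subsingleton.elim X (X + t • V)) ▸ hX
  obtain ⟨i0, -, hi0⟩ := Finset.exists_min_image Finset.univ hX.1.eigenvalues Finset.univ_nonempty
  set r := hX.1.eigenvalues i0
  have hr : 0 < r := hX.eigenvalues_pos i0
  set K := 1 + ∑ i, |hV.eigenvalues i| with hK
  have hK0 : 0 < K := by positivity
  filter_upwards [Metric.ball_mem_nhds (0 : ℝ) (div_pos hr (by positivity : 0 < 2 * K))] with t ht
  rw [Metric.mem_ball, dist_zero_right, Real.norm_eq_abs, lt_div_iff₀ (by positivity)] at ht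
  have h1 : r • (1 : Mat n) ≤ X := smul_one_le_of_eig hX.1 fun i => hi0 i (Finset.mem_univ _)
  have h2 : (-(|t| * K)) • (1 : Mat n) ≤ t • V := by
    refine le_of_eq_of_le (fc_const hV _).symm (le_of_le_of_eq (fc_mono hV (g := fun x => t * x)
      fun i => ?_) (by rw [← fc_smul, fc_id hV]))
    have hi : |hV.eigenvalues i| ≤ K := by
      have := Finset.single_le_sum (f := fun i => |hV.eigenvalues i|) (fun i _ => abs_nonneg _)
        (Finset.mem_univ i)
      linarith
    have := mul_le_mul_of_nonneg_left hi (abs_nonneg t)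
    have h3 := neg_abs_le (t * hV.eigenvalues i)
    rw [abs_mul] at h3
    linarith
  refine posDef_of_le (half_pos hr) ((?_ : _ ≤ _).trans (add_le_add h1 h2))
  rw [← add_smul, ← sub_nonneg, ← sub_smul]
  exact smul_nonneg (by linarith) zero_le_one

theorem smul_herm {V : Mat n} (hV : V.IsHermitian) (t : ℝ) : (t • V).IsHermitian := by
  rw [IsHermitian, Matrix.conjTranspose_smul, hV.eq, star_trivial]

/-- The derivative of `tr h(X + tV)`. -/
theorem hasDerivAt_rtr_hlog {X V : Mat n} (hX : X.PosDef) (hV : V.IsHermitian) :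
    HasDerivAt (fun t : ℝ => rtr (fc hlog (X + t • V))) (rtr (V * fc Real.log X)) 0 := by
  set D := rtr (V * fc Real.log X) with hD
  set E := fun t : ℝ => rtr (V * fc Real.log (X + t • V)) with hE
  have hc : Tendsto (fun t : ℝ => E t - D) (𝓝 0) (𝓝 0) := by
    have hpath : Tendsto (fun t : ℝ => X + t • V) (𝓝 0) (𝓝[{Y : Mat n | Y.PosDef}] X) := by
      refine tendsto_nhdsWithin_iff.2 ⟨?_, eventually_posDef hX hV⟩
      have : Continuous fun t : ℝ => X + t • V := by fun_prop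
      simpa using this.tendsto 0
    have h2 := (continuousAt_log hX).tendsto.comp hpath
    have h3 : Continuous fun Y : Mat n => rtr (V * Y) := by unfold rtr; fun_prop
    have h4 := (h3.tendsto _).comp h2
    simpa using tendsto_sub_nhds_zero_iff.2 h4
  refine hasDerivAt_iff_isLittleO.2 ?_
  rw [Asymptotics.isLittleO_iff]
  intro c hcpos
  filter_upwards [eventually_posDef hX hV, Metric.tendsto_nhds.1 hc c hcpos] with t ht htc
  simp only [zero_smul, add_zero, sub_zero, smul_eq_mul]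
  have l1 := breg_nonneg ht hX
  have l2 := breg_nonneg hX ht
  simp only [breg] at l1 l2
  rw [show X + t • V - X = t • V by abel, Matrix.smul_mul, rtr_smul] at l1
  rw [show X - (X + t • V) = (-t) • V by rw [neg_smul]; abel, Matrix.smul_mul, rtr_smul] at l2
  simp only [dist_zero_right, Real.norm_eq_abs, hE] at htc
  simp only [Real.norm_eq_abs]
  rw [abs_le]
  have hb : |t| * |rtr (V * fc Real.log (X + t • V)) - D| ≤ c * |t| := by
    rw [mul_comm c]; exact mul_le_mul_of_nonneg_left htc.le (abs_nonneg t)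
  have h5 := le_abs_self (t * (rtr (V * fc Real.log (X + t • V)) - D))
  rw [abs_mul] at h5
  constructor <;> nlinarith [mul_nonneg hcpos.le (abs_nonneg t)]

/-- The derivative of `HH` in `A` at fixed `M`. -/
theorem hasDerivAt_HH {s : ℝ} {A M V : Mat n} (hs : 0 < s) (hM : M.IsHermitian)
    (hP : (cM s M + A).PosDef) (hQ : (dM s M - A).PosDef) (hV : V.IsHermitian) :
    HasDerivAt (fun t : ℝ => HH s (A + t • V) M) (rtr (V * Lam s A M)) 0 := by
  have hlogs : fc Real.log (cM s M) + fc Real.log (dM s M) = Real.log s • (1 : Mat n) := by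
    rw [cM_eq hM, dM_eq hM, fc_comp hM, fc_comp hM, fc_add, ← fc_const hM (Real.log s)]
    refine fc_congr hM fun i => ?_
    have h1 := sqrt_gt hs (hM.eigenvalues i)
    rw [← Real.log_mul (by linarith [le_abs_self (hM.eigenvalues i)])
      (by linarith [neg_abs_le (hM.eigenvalues i)])]
    congr 1
    linear_combination Real.mul_self_sqrt (by positivity : (0:ℝ) ≤ hM.eigenvalues i ^ 2 + s)
  have hl : ∀ Z : Mat n, ∀ G : Mat n, HasDerivAt (fun t : ℝ => rtr ((Z + t • V) * G))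
      (rtr (V * G)) 0 := by
    intro Z G
    simp only [Matrix.add_mul, Matrix.smul_mul, rtr_add, rtr_smul]
    simpa using ((hasDerivAt_id (0:ℝ)).mul_const (rtr (V * G))).const_add (rtr (Z * G))
  have d1 : HasDerivAt (fun t : ℝ => breg (cM s M + (A + t • V)) (cM s M))
      (rtr (V * fc Real.log (cM s M + A)) - rtr (V * fc Real.log (cM s M))) 0 := by
    have := ((hasDerivAt_rtr_hlog hP hV).sub_const (rtr (fc hlog (cM s M)))).sub
      (hl A (fc Real.log (cM s M)))
    refine this.congr_of_eventuallyEq (Eventually.of_forall fun t => ?_)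
    simp [breg, add_assoc]
  have d2 : HasDerivAt (fun t : ℝ => breg (dM s M - (A + t • V)) (dM s M))
      (-rtr (V * fc Real.log (dM s M - A)) + rtr (V * fc Real.log (dM s M))) 0 := by
    have h1 := hasDerivAt_rtr_hlog hQ hV.neg
    have := (h1.sub_const (rtr (fc hlog (dM s M)))).add (hl A (fc Real.log (dM s M)))
    refine (this.congr_of_eventuallyEq (Eventually.of_forall fun t => ?_)).congr_deriv
      (by rw [Matrix.neg_mul, rtr_neg])
    simp only [breg, Pi.add_apply]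
    rw [show dM s M - (A + t • V) = dM s M - A + t • -V by rw [smul_neg]; abel,
      show dM s M - A + t • -V - dM s M = -(A + t • V) by rw [smul_neg]; abel, Matrix.neg_mul,
      rtr_neg]
    ring
  refine (d1.sub d2).congr_deriv ?_
  rw [Lam, ← hlogs]
  simp only [Matrix.mul_sub, Matrix.mul_add, rtr_sub, rtr_add]
  ring

end Vale.Agent.P371G
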