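import Vale.Agent.P371G.Const
import Vale.Agent.P371M.Upper

/-! # From the kinetic inequality on intervals to the eigenvalue bound, `1 < γ < 3/2`.

The interval inequality is extended to `H^1` families on the line by approximation, combined with
a matrix Young inequality and optimised over the weights `d i` of the eigenfunctions. -/

namespace Vale.Agent.P371G

open Matrix Finset MeasureTheory Filter Topology Set
open scoped Matrix ComplexOrder
open Vale.Agent.P371M

variable {m n : ℕ}

/-! ### Traces of powers -/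

theorem trPow_eq {A : Matrix (Fin m) (Fin m) ℂ} (hA : A.IsHermitian) (q : ℝ) :
    trPow q A = ∑ a, hA.eigenvalues a ^ q := by
  rw [trPow, dif_pos hA]

theorem trPow_nonneg {A : Matrix (Fin m) (Fin m) ℂ} (hA : A.PosSemidef) (q : ℝ) :
    0 ≤ trPow q A := by
  rw [trPow_eq hA.1]
  exact Finset.sum_nonneg fun a _ => Real.rpow_nonneg (hA.eigenvalues_nonneg a) _

theorem re_trace_pow {A : Matrix (Fin m) (Fin m) ℂ} (hA : A.IsHermitian) (k : ℕ) :
    (Matrix.trace (A ^ k)).re = ∑ a, hA.eigenvalues a ^ k := by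
  set U : Matrix (Fin m) (Fin m) ℂ := (hA.eigenvectorUnitary : Matrix (Fin m) (Fin m) ℂ)
  set D : Matrix (Fin m) (Fin m) ℂ := diagonal fun i => (hA.eigenvalues i : ℂ) with hD
  have hU1 : U * Uᴴ = 1 := Unitary.coe_mul_star_self hA.eigenvectorUnitary
  have hU2 : Uᴴ * U = 1 := Unitary.coe_star_mul_self hA.eigenvectorUnitary
  have hd : A = U * D * Uᴴ := by
    conv_lhs => rw [hA.spectral_theorem]
    rfl
  have hp : ∀ j : ℕ, A ^ j = U * D ^ j * Uᴴ := fun j => by
    induction j with
    | zero => rw [pow_zero, pow_zero, Matrix.mul_one, hU1]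
    | succ j ih =>
      rw [pow_succ, ih, hd, pow_succ]
      simp only [Matrix.mul_assoc]
      rw [← Matrix.mul_assoc Uᴴ U, hU2, Matrix.one_mul]
  rw [hp, Matrix.trace_mul_comm, ← Matrix.mul_assoc, hU2, Matrix.one_mul, hD, Matrix.diagonal_pow,
    Matrix.trace_diagonal, Complex.re_sum]
  exact Finset.sum_congr rfl fun a _ => by
    rw [Pi.pow_apply, ← Complex.ofReal_pow, Complex.ofReal_re]

theorem eigenvalues_le_trace {A : Matrix (Fin m) (Fin m) ℂ} (hA : A.PosSemidef) (a : Fin m) :
    hA.1.eigenvalues a ≤ (Matrix.trace A).re := by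
  have h := re_trace_pow hA.1 1
  simp only [pow_one] at h
  rw [h]
  exact Finset.single_le_sum (fun b _ => hA.eigenvalues_nonneg b) (Finset.mem_univ a)

theorem re_trace_aeval {A : Matrix (Fin m) (Fin m) ℂ} (hA : A.IsHermitian) (P : Polynomial ℝ) :
    (Matrix.trace (Polynomial.aeval A P)).re = ∑ a, P.eval (hA.eigenvalues a) := by
  induction P using Polynomial.induction_on' with
  | add P Q hP hQ =>
    rw [map_add, Matrix.trace_add, Complex.add_re, hP, hQ, ← Finset.sum_add_distrib]
    simp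
  | monomial k c =>
    rw [Polynomial.aeval_monomial, ← Algebra.smul_def, Matrix.trace_smul, Complex.smul_re,
      re_trace_pow hA, Finset.smul_sum]
    simp

/-- `trPow q` is continuous on positive semidefinite matrices. -/
theorem continuousOn_trPow {q : ℝ} (hq : 0 ≤ q) :
    ContinuousOn (trPow q) {A : Matrix (Fin m) (Fin m) ℂ | A.PosSemidef} := by
  intro A₀ hA₀
  rw [ContinuousWithinAt, Metric.tendsto_nhds]
  intro ε hε
  set M := (Matrix.trace A₀).re + 1
  obtain ⟨P, hP⟩ := exists_polynomial_near_of_continuousOn 0 M (fun x => x ^ q)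
    ((Real.continuous_rpow_const hq).continuousOn) (ε / (3 * (m + 1))) (by positivity)
  have hc : Continuous fun A : Matrix (Fin m) (Fin m) ℂ => (Matrix.trace (Polynomial.aeval A P)).re := by
    simp only [Polynomial.aeval_eq_sum_range]
    fun_prop
  have htr : Continuous fun A : Matrix (Fin m) (Fin m) ℂ => (Matrix.trace A).re := by fun_prop
  have key : ∀ A : Matrix (Fin m) (Fin m) ℂ, A.PosSemidef → (Matrix.trace A).re ≤ M →
      |(Matrix.trace (Polynomial.aeval A P)).re - trPow q A| ≤ ε / 3 := by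
    intro A hA hM
    rw [re_trace_aeval hA.1, trPow_eq hA.1, ← Finset.sum_sub_distrib]
    refine (Finset.abs_sum_le_sum_abs _ _).trans ((Finset.sum_le_sum fun a _ => (hP _
      ⟨hA.eigenvalues_nonneg a, (eigenvalues_le_trace hA a).trans hM⟩).le).trans ?_)
    rw [Finset.sum_const, Finset.card_univ, Fintype.card_fin, nsmul_eq_mul, mul_div_assoc',
      div_le_div_iff₀ (by positivity) (by norm_num)]
    nlinarith
  have e1 : ∀ᶠ A in 𝓝[{A : Matrix (Fin m) (Fin m) ℂ | A.PosSemidef}] A₀,
      |(Matrix.trace (Polynomial.aeval A P)).re - (Matrix.trace (Polynomial.aeval A₀ P)).re|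
        < ε / 3 := by
    have h := ((hc.tendsto A₀).mono_left nhdsWithin_le_nhds :
      Tendsto _ (𝓝[{A : Matrix (Fin m) (Fin m) ℂ | A.PosSemidef}] A₀) _)
    simpa [Real.dist_eq] using Metric.tendsto_nhds.1 h (ε / 3) (by positivity)
  have e2 : ∀ᶠ A in 𝓝[{A : Matrix (Fin m) (Fin m) ℂ | A.PosSemidef}] A₀,
      (Matrix.trace A).re ≤ M :=
    ((htr.tendsto A₀).mono_left nhdsWithin_le_nhds).eventually
      (eventually_le_nhds (lt_add_one _))
  filter_upwards [e1, e2, eventually_mem_nhdsWithin] with A h1 h2 h3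
  have k1 := key A h3 h2
  have k2 := key A₀ hA₀ (le_add_of_nonneg_right zero_le_one)
  rw [Real.dist_eq]
  rw [abs_lt] at h1 ⊢
  rw [abs_le] at k1 k2
  constructor <;> linarith

/-- The integrand of the kinetic inequality. -/
noncomputable def qTr (q : ℝ) (A : Matrix (Fin m) (Fin n) ℂ) : ℝ := trPow q (Aᴴ * A)

theorem qTr_nonneg (q : ℝ) (A : Matrix (Fin m) (Fin n) ℂ) : 0 ≤ qTr q A :=
  trPow_nonneg (posSemidef_conjTranspose_mul_self A) q

theorem qTr_continuous {q : ℝ} (hq : 0 ≤ q) : Continuous (qTr (m := m) (n := n) q) :=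
  (continuousOn_trPow hq).comp_continuous
    (by fun_prop : Continuous fun A : Matrix (Fin m) (Fin n) ℂ => Aᴴ * A)
    fun A => posSemidef_conjTranspose_mul_self A

/-! ### The matrix Young inequality -/

theorem sum_eigenvalues_mul_comm (B : Matrix (Fin m) (Fin n) ℂ) {f : ℝ → ℝ} (hf : f 0 = 0) :
    ∑ j, f ((posSemidef_conjTranspose_mul_self B).1.eigenvalues j) =
      ∑ a, f ((posSemidef_self_mul_conjTranspose B).1.eigenvalues a) := by
  have h := congrArg Polynomial.roots (Matrix.charpoly_mul_comm' B Bᴴ)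
  have h1 := (Matrix.charpoly_monic (B * Bᴴ)).ne_zero
  have h2 := (Matrix.charpoly_monic (Bᴴ * B)).ne_zero
  rw [Polynomial.roots_mul (mul_ne_zero (pow_ne_zero _ Polynomial.X_ne_zero) h1),
    Polynomial.roots_mul (mul_ne_zero (pow_ne_zero _ Polynomial.X_ne_zero) h2),
    Polynomial.roots_X_pow, Polynomial.roots_X_pow,
    (posSemidef_self_mul_conjTranspose B).1.roots_charpoly_eq_eigenvalues,
    (posSemidef_conjTranspose_mul_self B).1.roots_charpoly_eq_eigenvalues] at h
  have h3 := congrArg (fun s : Multiset ℂ => (s.map fun z => f z.re).sum) h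
  simpa [Multiset.map_nsmul, Multiset.sum_nsmul, hf, Function.comp_def, List.sum_ofFn] using h3.symm

theorem sum_diag_rpow_le {ρ : Matrix (Fin m) (Fin m) ℂ} (h : ρ.PosSemidef) {q : ℝ} (hq : 1 ≤ q) :
    ∑ a, (ρ a a).re ^ q ≤ ∑ a, h.1.eigenvalues a ^ q := by
  set V : Matrix (Fin m) (Fin m) ℂ := (h.1.eigenvectorUnitary : Matrix (Fin m) (Fin m) ℂ)
  set l := h.1.eigenvalues with hl
  have hV1 : V * Vᴴ = 1 := Unitary.coe_mul_star_self h.1.eigenvectorUnitary
  have hV2 : Vᴴ * V = 1 := Unitary.coe_star_mul_self h.1.eigenvectorUnitary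
  have hd : ρ = V * diagonal (fun i => (l i : ℂ)) * Vᴴ := by
    conv_lhs => rw [h.1.spectral_theorem]
    rfl
  have hdiag : ∀ a, (ρ a a).re = ∑ j, ‖V a j‖ ^ 2 * l j := fun a => by
    rw [hd, Matrix.mul_apply, Complex.re_sum]
    refine Finset.sum_congr rfl fun j _ => ?_
    rw [Matrix.mul_diagonal, Matrix.conjTranspose_apply, RCLike.star_def, mul_right_comm,
      Complex.mul_conj', ← Complex.ofReal_pow, ← Complex.ofReal_mul, Complex.ofReal_re]
  have hrow : ∀ a, ∑ j, ‖V a j‖ ^ 2 = 1 := fun a => by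
    have := congrArg Complex.re (congrFun (congrFun hV1 a) a)
    simpa [Matrix.mul_apply, Complex.mul_conj', ← Complex.ofReal_pow] using this
  have hcol : ∀ j, ∑ a, ‖V a j‖ ^ 2 = 1 := fun j => by
    have := congrArg Complex.re (congrFun (congrFun hV2 j) j)
    simpa [Matrix.mul_apply, Complex.conj_mul', ← Complex.ofReal_pow] using this
  calc ∑ a, (ρ a a).re ^ q ≤ ∑ a, ∑ j, ‖V a j‖ ^ 2 * l j ^ q := Finset.sum_le_sum fun a _ => by
        rw [hdiag a]
        exact Real.rpow_arith_mean_le_arith_mean_rpow _ _ _ (fun j _ => by positivity) (hrow a)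
          (fun j _ => h.eigenvalues_nonneg j) hq
    _ = ∑ j, l j ^ q := by
        rw [Finset.sum_comm]
        exact Finset.sum_congr rfl fun j _ => by rw [← Finset.sum_mul, hcol, one_mul]

/-- The constant of the Young inequality. -/
noncomputable def youngK (γ : ℝ) : ℝ :=
  1 / (γ + 1 / 2) * ((γ - 1 / 2) / (γ + 1 / 2)) ^ (γ - 1 / 2)

theorem young_scalar_gen {γ w r : ℝ} (hγ : 1 / 2 < γ) (hw : 0 ≤ w) (hr : 0 ≤ r) :
    w * r ≤ youngK γ * w ^ (γ + 1 / 2) + r ^ ((γ + 1 / 2) / (γ - 1 / 2)) := by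
  have hd : 0 < γ - 1 / 2 := by linarith
  set p := γ + 1 / 2 with hp
  have hp0 : 0 < p := by linarith
  set q := p / (γ - 1 / 2) with hq
  have hq0 : 0 < q := div_pos hp0 hd
  have hc : p.HolderConjugate q := by
    rw [Real.holderConjugate_iff]
    refine ⟨by linarith, ?_⟩
    rw [hq, hp]; field_simp; ring
  have h := Real.young_inequality_of_nonneg (a := w * (q ^ (1 / q))⁻¹) (b := r * q ^ (1 / q))
    (mul_nonneg hw (by positivity)) (mul_nonneg hr (by positivity)) hc
  have e1 : w * (q ^ (1 / q))⁻¹ * (r * q ^ (1 / q)) = w * r := by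
    have : q ^ (1 / q) ≠ 0 := (Real.rpow_pos_of_pos hq0 _).ne'
    field_simp
  have e2 : (r * q ^ (1 / q)) ^ q / q = r ^ q := by
    rw [Real.mul_rpow hr (by positivity), ← Real.rpow_mul hq0.le, one_div,
      inv_mul_cancel₀ hq0.ne', Real.rpow_one]
    field_simp
  have e3 : (w * (q ^ (1 / q))⁻¹) ^ p / p = youngK γ * w ^ p := by
    rw [Real.mul_rpow hw (by positivity), Real.inv_rpow (by positivity), ← Real.rpow_mul hq0.le,
      show 1 / q * p = γ - 1 / 2 by rw [hq]; field_simp,
      ← Real.inv_rpow hq0.le, show q⁻¹ = (γ - 1 / 2) / p by rw [hq, inv_div], youngK, ← hp]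
    ring
  rw [e1, e2, e3] at h
  linarith

theorem young_matrix_gen {γ : ℝ} (hγ : 1 / 2 < γ) {W : Matrix (Fin m) (Fin m) ℂ}
    (hW : W.PosSemidef) (A : Matrix (Fin m) (Fin n) ℂ) :
    (trace (Aᴴ * W * A)).re ≤
      youngK γ * trPow (γ + 1 / 2) W + qTr ((γ + 1 / 2) / (γ - 1 / 2)) A := by
  set q := (γ + 1 / 2) / (γ - 1 / 2) with hq
  have hq1 : 1 ≤ q := by rw [hq, one_le_div (by linarith)]; linarith
  set U : Matrix (Fin m) (Fin m) ℂ := (hW.1.eigenvectorUnitary : Matrix (Fin m) (Fin m) ℂ)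
  have hU1 : U * Uᴴ = 1 := Unitary.coe_mul_star_self hW.1.eigenvectorUnitary
  set w := hW.1.eigenvalues with hw
  have hd : W = U * diagonal (fun i => (w i : ℂ)) * Uᴴ := by
    conv_lhs => rw [hW.1.spectral_theorem]
    rfl
  set B := Uᴴ * A with hB
  set ρ := B * Bᴴ with hρ
  have hBB : Bᴴ * B = Aᴴ * A := by
    rw [hB, Matrix.conjTranspose_mul, Matrix.conjTranspose_conjTranspose, Matrix.mul_assoc,
      ← Matrix.mul_assoc U, hU1, Matrix.one_mul]
  have e1 : (trace (Aᴴ * W * A)).re = ∑ a, w a * (ρ a a).re := by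
    rw [hd, show Aᴴ * (U * diagonal (fun i => (w i : ℂ)) * Uᴴ) * A
      = Bᴴ * (diagonal (fun i => (w i : ℂ)) * B) by
      rw [hB, Matrix.conjTranspose_mul, Matrix.conjTranspose_conjTranspose]
      simp only [Matrix.mul_assoc], Matrix.trace_mul_comm, Matrix.mul_assoc, ← hρ, Matrix.trace,
      Complex.re_sum]
    exact Finset.sum_congr rfl fun a _ => by
      rw [Matrix.diag_apply, Matrix.diagonal_mul, Complex.re_ofReal_mul]
  have hρp : ρ.PosSemidef := posSemidef_self_mul_conjTranspose B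
  have e2 : ∑ a, hρp.1.eigenvalues a ^ q = qTr q A := by
    have := sum_eigenvalues_mul_comm B (f := fun x => x ^ q) (Real.zero_rpow (by linarith))
    rw [qTr, ← hBB, trPow_eq (posSemidef_conjTranspose_mul_self B).1]
    exact this.symm
  rw [e1, ← e2, trPow_eq hW.1, Finset.mul_sum]
  refine le_trans ?_ (add_le_add_right (sum_diag_rpow_le hρp hq1) _)
  rw [← Finset.sum_add_distrib]
  exact Finset.sum_le_sum fun a _ =>
    young_scalar_gen hγ (hW.eigenvalues_nonneg a) (Complex.nonneg_iff.1 hρp.diag_nonneg).1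

/-! ### Extension of the kinetic inequality to `H^1` on the line -/

theorem kinetic_H1 {γ : ℝ} (hγ : 1 / 2 < γ) (hK : KineticInterval γ) {d : Fin n → ℝ}
    (hd : ∀ i, 0 < d i) {δ τ : ℝ} (hδ : 0 < δ) (hτ : 0 < τ) :
    ∃ ρ > (0 : ℝ), ∀ (m : ℕ) (u du : ℝ → Matrix (Fin m) (Fin n) ℂ),
      (∀ p i, IsH1 (fun x => u x p i) (fun x => du x p i)) →
      ∀ a b : ℝ, a ≤ b → frobSq (u a) < ρ → frobSq (u b) < ρ →
      (Matrix.diagonal (fun i => (d i : ℂ))
        - Matrix.of fun i j => ∫ x in a..b, Rmat (u x) i j).PosSemidef →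
      (∫ x in a..b, qTr ((γ + 1 / 2) / (γ - 1 / 2)) (u x)) ≤ (∫ x in a..b, frobSq (du x))
        + kinConst γ * (∑ i, (d i + δ) ^ (γ / (γ - 1))) + τ := by
  obtain ⟨ρ, hρ, hrho⟩ := hK n (fun i => d i + δ) (fun i => by linarith [hd i]) τ hτ
  refine ⟨ρ, hρ, fun m u du h a b hab hua hub hgram => ?_⟩
  set q := (γ + 1 / 2) / (γ - 1 / 2) with hq
  have hq0 : 0 ≤ q := (div_pos (by linarith) (by linarith)).le
  set η : ℕ → ℝ := fun k => 1 / ((k : ℝ) + 1) with hη
  have hηp : ∀ k, 0 < η k := fun k => by simp only [hη]; positivity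
  have hη1 : ∀ k, η k ≤ 1 := fun k => by
    simp only [hη]; rw [div_le_one (by positivity)]; linarith [(Nat.cast_nonneg k : (0:ℝ) ≤ k)]
  have hη0 : Tendsto η atTop (𝓝 0) := tendsto_one_div_add_atTop_nhds_zero_nat
  choose V G hGc hVd hVu _ hG2 using fun k p i => (h p i).approx hab (hηp k)
  set A : ℕ → ℝ → Matrix (Fin m) (Fin n) ℂ := fun k x => Matrix.of fun p i => V k p i x with hA
  set A' : ℕ → ℝ → Matrix (Fin m) (Fin n) ℂ := fun k x => Matrix.of fun p i => G k p i x with hA'
  have hAc : ∀ k p i, Continuous fun x => A k x p i := fun k p i =>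
    continuous_iff_continuousAt.2 fun x => (hVd k p i x).continuousAt
  have hconv : ∀ x ∈ Icc a b, ∀ p i, Tendsto (fun k => A k x p i) atTop (𝓝 (u x p i)) := by
    intro x hx p i
    refine tendsto_iff_norm_sub_tendsto_zero.2 (squeeze_zero (fun k => norm_nonneg _)
      (fun k => hVu k p i x hx) ?_)
    simpa using hη0.mul_const (b - a + 1)
  obtain ⟨B, hB⟩ : ∃ B, ∀ x ∈ Icc a b, ∀ p i, ‖u x p i‖ ≤ B := by
    have : ∀ p i, ∃ B, 0 ≤ B ∧ ∀ x ∈ Icc a b, ‖u x p i‖ ≤ B := fun p i => by
      obtain ⟨B, hB⟩ := (isCompact_Icc (a := a) (b := b)).exists_bound_of_continuousOn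
        (h p i).continuous.continuousOn
      exact ⟨max B 0, le_max_right _ _, fun x hx => le_trans (hB x hx) (le_max_left _ _)⟩
    choose B hB0 hB using this
    exact ⟨∑ p, ∑ i, B p i, fun x hx p i => le_trans (hB p i x hx)
      (le_trans (Finset.single_le_sum (f := fun j => B p j) (fun j _ => hB0 p j)
        (Finset.mem_univ i))
        (Finset.single_le_sum (f := fun r => ∑ j, B r j)
          (fun r _ => Finset.sum_nonneg fun j _ => hB0 r j) (Finset.mem_univ p)))⟩
  set B' := B + (b - a + 1)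
  have hAB : ∀ k, ∀ x ∈ Icc a b, ∀ p i, ‖A k x p i‖ ≤ B' := fun k x hx p i => by
    have h1 := hVu k p i x hx
    have h2 : η k * (b - a + 1) ≤ b - a + 1 := mul_le_of_le_one_left (by linarith) (hη1 k)
    have h3 := norm_le_norm_add_norm_sub' (A k x p i) (u x p i)
    have h4 : ‖A k x p i - u x p i‖ ≤ η k * (b - a + 1) := h1
    have h5 := hB x hx p i
    linarith
  set K : Set (Matrix (Fin m) (Fin n) ℂ) :=
    Set.pi univ fun _ => Set.pi univ fun _ => Metric.closedBall (0 : ℂ) B' with hKd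
  have hKc : IsCompact K :=
    isCompact_univ_pi fun _ => isCompact_univ_pi fun _ => isCompact_closedBall _ _
  have hmemK : ∀ k, ∀ x ∈ Icc a b, A k x ∈ K := fun k x hx => fun p _ i _ => by
    simpa [Metric.mem_closedBall, dist_zero_right] using hAB k x hx p i
  have htoM : ∀ x ∈ Icc a b, Tendsto (fun k => A k x) atTop (𝓝 (u x)) := fun x hx =>
    tendsto_pi_nhds.2 fun p => tendsto_pi_nhds.2 fun i => hconv x hx p i
  have hlim : ∀ {E : Type} [NormedAddCommGroup E] [NormedSpace ℝ E]
      (F : Matrix (Fin m) (Fin n) ℂ → E), Continuous F →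
      Tendsto (fun k => ∫ x in a..b, F (A k x)) atTop (𝓝 (∫ x in a..b, F (u x))) := by
    intro E _ _ F hF
    obtain ⟨C, hC⟩ := hKc.exists_bound_of_continuousOn hF.continuousOn
    have hIoc : ∀ᵐ x ∂volume, x ∈ uIoc a b → x ∈ Icc a b := Eventually.of_forall fun x hx => by
      rw [uIoc_of_le hab] at hx; exact Ioc_subset_Icc_self hx
    refine intervalIntegral.tendsto_integral_filter_of_dominated_convergence (fun _ => C)
      (Eventually.of_forall fun k => (hF.comp (continuous_matrix (hAc k))).aestronglyMeasurable)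
      (Eventually.of_forall fun k => ?_) intervalIntegrable_const ?_
    · filter_upwards [hIoc] with x hx hxm
      exact hC _ (hmemK k x (hx hxm))
    · filter_upwards [hIoc] with x hx hxm
      exact (hF.tendsto _).comp (htoM x (hx hxm))
  have hev : ∀ᶠ k in atTop, (Matrix.diagonal (fun i => ((d i + δ : ℝ) : ℂ))
      - Matrix.of fun i j => ∫ x in a..b, Rmat (A k x) i j).PosSemidef := by
    set G0 := Matrix.of fun i j => ∫ x in a..b, Rmat (u x) i j with hG0
    have hz : Tendsto (fun k => ∑ i, ∑ j, ‖(∫ x in a..b, Rmat (A k x) i j) - G0 i j‖) atTop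
        (𝓝 0) := by
      have := tendsto_finsetSum (Finset.univ : Finset (Fin n)) fun i _ =>
        tendsto_finsetSum (Finset.univ : Finset (Fin n)) fun j _ =>
          ((hlim (fun Y => Rmat Y i j) (by unfold Rmat; fun_prop)).sub_const (G0 i j)).norm
      simpa [hG0] using this
    filter_upwards [hz.eventually (eventually_le_nhds hδ)] with k hk
    have hH : ∀ w : ℝ → Matrix (Fin m) (Fin n) ℂ,
        (Matrix.of fun i j => ∫ x in a..b, Rmat (w x) i j).IsHermitian := by
      intro w
      ext i j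
      simp only [Matrix.conjTranspose_apply, Matrix.of_apply, RCLike.star_def,
        intervalIntegral.integral_of_le hab, ← integral_conj]
      exact integral_congr_ae (Eventually.of_forall fun x =>
        (posSemidef_conjTranspose_mul_self (w x)).1.apply i j)
    have h1 := posSemidef_smul_one_sub ((hH (A k)).sub (hH u)) (δ := δ) (by simpa [hG0] using hk)
    have := hgram.add h1
    convert this using 1
    ext i j
    by_cases hij : i = j
    · subst hij; simp [hG0]; ring
    · simp [hG0, hij]; ring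
  have hfr : Continuous (frobSq (m := m) (n := n)) := by unfold frobSq; fun_prop
  have hfa := (((hfr.tendsto _).comp (htoM a (left_mem_Icc.2 hab))).eventually
    (eventually_le_nhds hua))
  have hfb := (((hfr.tendsto _).comp (htoM b (right_mem_Icc.2 hab))).eventually
    (eventually_le_nhds hub))
  have hI2 : ∀ p i, IntervalIntegrable (fun x => ‖du x p i‖ ^ 2) volume a b := fun p i =>
    (h p i).dsq_integrable.intervalIntegrable
  have hdu : (∫ x in a..b, frobSq (du x)) = ∑ i, ∑ p, ∫ x in a..b, ‖du x p i‖ ^ 2 := by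
    simp only [frobSq_eq]
    have hin : ∀ i, IntervalIntegrable (fun x => ∑ p, ‖du x p i‖ ^ 2) volume a b := fun i => by
      simpa only [Finset.sum_fn] using IntervalIntegrable.sum Finset.univ fun p _ => hI2 p i
    rw [intervalIntegral.integral_finsetSum fun i _ => hin i]
    exact Finset.sum_congr rfl fun i _ =>
      intervalIntegral.integral_finsetSum fun p _ => hI2 p i
  have hA2 : ∀ k, (∫ x in a..b, frobSq (A' k x))
      ≤ (1 + η k) * (∫ x in a..b, frobSq (du x)) + (n * m : ℝ) * (η k * (η k + 1)) := by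
    intro k
    have e : (fun x => frobSq (A' k x)) = fun x => ∑ i, ∑ p, ‖G k p i x‖ ^ 2 :=
      funext fun x => frobSq_eq _
    have hcG : ∀ i, Continuous fun x => ∑ p, ‖G k p i x‖ ^ 2 := fun i =>
      continuous_finsetSum _ fun p _ => (hGc k p i).norm.pow 2
    rw [e, intervalIntegral.integral_finsetSum fun i _ => (hcG i).intervalIntegrable _ _, hdu]
    calc ∑ i, ∫ x in a..b, ∑ p, ‖G k p i x‖ ^ 2
        = ∑ i, ∑ p, ∫ x in a..b, ‖G k p i x‖ ^ 2 := Finset.sum_congr rfl fun i _ =>
          intervalIntegral.integral_finsetSum fun p _ =>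
            ((hGc k p i).norm.pow 2).intervalIntegrable _ _
      _ ≤ ∑ i, ∑ p, ((1 + η k) * (∫ x in a..b, ‖du x p i‖ ^ 2) + η k * (η k + 1)) :=
          Finset.sum_le_sum fun i _ => Finset.sum_le_sum fun p _ => hG2 k p i
      _ = _ := by
          simp only [Finset.sum_add_distrib, Finset.sum_const, Finset.card_univ, Fintype.card_fin,
            nsmul_eq_mul, ← Finset.mul_sum]
          ring
  set S := kinConst γ * (∑ i, (d i + δ) ^ (γ / (γ - 1))) + τ with hS
  rw [add_assoc, ← hS]
  refine le_of_tendsto_of_tendsto (hlim (qTr q) (qTr_continuous hq0))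
    (g := fun k => (1 + η k) * (∫ x in a..b, frobSq (du x)) + (n * m : ℝ) * (η k * (η k + 1)) + S)
    ?_ ?_
  · have t1 := (hη0.const_add 1).mul_const (∫ x in a..b, frobSq (du x))
    have t2 := (hη0.mul (hη0.add_const 1)).const_mul (n * m : ℝ)
    simpa using (t1.add t2).add_const S
  · filter_upwards [hev, hfa, hfb] with k hk hka hkb
    have := hrho m (A k) (A' k) (fun p i x => hVd k p i x) (fun p i => hGc k p i) a b hab hka hkb hk
    have h2 := hA2 k
    simp only [frobSq] at h2 this ⊢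
    simp only [qTr] at this ⊢
    linarith

theorem kinetic_line {γ : ℝ} (hγ : γ ∈ Set.Ioo (1 : ℝ) (3 / 2)) (hK : KineticInterval γ)
    {d : Fin n → ℝ} (hd : ∀ i, 0 < d i) {u du : ℝ → Matrix (Fin m) (Fin n) ℂ}
    (h : ∀ p i, IsH1 (fun x => u x p i) (fun x => du x p i))
    (hgram : ∀ a b : ℝ, a ≤ b → (Matrix.diagonal (fun i => (d i : ℂ))
      - Matrix.of fun i j => ∫ x in a..b, Rmat (u x) i j).PosSemidef) :
    Integrable (fun x => qTr ((γ + 1 / 2) / (γ - 1 / 2)) (u x)) ∧
      (∫ x, qTr ((γ + 1 / 2) / (γ - 1 / 2)) (u x))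
        ≤ (∫ x, frobSq (du x)) + kinConst γ * ∑ i, d i ^ (γ / (γ - 1)) := by
  have hγ1 : 1 < γ := hγ.1
  set q := (γ + 1 / 2) / (γ - 1 / 2) with hq
  have hq0 : 0 ≤ q := (div_pos (by linarith) (by linarith)).le
  have hF : Integrable fun x => frobSq (u x) := by
    simp only [frobSq_eq]
    exact integrable_finsetSum _ fun i _ => integrable_finsetSum _ fun p _ =>
      (h p i).sq_integrable
  have hD : Integrable fun x => frobSq (du x) := by
    simp only [frobSq_eq]
    exact integrable_finsetSum _ fun i _ => integrable_finsetSum _ fun p _ =>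
      (h p i).dsq_integrable
  have hF0 : ∀ A : Matrix (Fin m) (Fin n) ℂ, 0 ≤ frobSq A := fun A => by
    rw [frobSq_eq]; positivity
  have hu : Continuous fun x => qTr q (u x) :=
    continuous_comp_matrix (qTr_continuous hq0) fun p i => (h p i).continuous
  have main : ∀ δ > (0 : ℝ), ∀ τ > (0 : ℝ), Integrable (fun x => qTr q (u x)) ∧
      (∫ x, qTr q (u x)) ≤
        (∫ x, frobSq (du x)) + kinConst γ * (∑ i, (d i + δ) ^ (γ / (γ - 1))) + τ := by
    intro δ hδ τ hτ
    obtain ⟨ρ, hρ, hrho⟩ := kinetic_H1 (n := n) (by linarith : 1 / 2 < γ) hK hd hδ hτ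
    choose bb hb1 hb2 using fun k : ℕ => exists_small_right hF (k : ℝ) (δ := ρ) hρ
    choose aa ha1 ha2 using fun k : ℕ => exists_small_left hF (-(k : ℝ)) (δ := ρ) hρ
    have hta : Tendsto aa atTop atBot := tendsto_atBot_mono (fun k => (ha1 k).le)
      (tendsto_neg_atTop_atBot.comp tendsto_natCast_atTop_atTop)
    have htb : Tendsto bb atTop atTop :=
      tendsto_atTop_mono (fun k => (hb1 k).le) tendsto_natCast_atTop_atTop
    have hbound : ∀ k, (∫ x in aa k..bb k, qTr q (u x)) ≤
        (∫ x, frobSq (du x)) + kinConst γ * (∑ i, (d i + δ) ^ (γ / (γ - 1))) + τ := fun k => by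
      have hle : aa k ≤ bb k := by linarith [ha1 k, hb1 k, (Nat.cast_nonneg k : (0:ℝ) ≤ k)]
      have h2 : (∫ x in aa k..bb k, frobSq (du x)) ≤ ∫ x, frobSq (du x) := by
        rw [intervalIntegral.integral_of_le hle]
        exact setIntegral_le_integral hD (Eventually.of_forall fun x => hF0 _)
      linarith [hrho m u du h (aa k) (bb k) hle (ha2 k) (hb2 k) (hgram _ _ hle)]
    have hint : Integrable fun x => qTr q (u x) := by
      refine integrable_of_intervalIntegral_norm_bounded
        ((∫ x, frobSq (du x)) + kinConst γ * (∑ i, (d i + δ) ^ (γ / (γ - 1))) + τ)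
        (fun k => hu.integrableOn_Ioc) hta htb (Eventually.of_forall fun k => ?_)
      simp only [Real.norm_of_nonneg (qTr_nonneg _ _)]
      exact hbound k
    exact ⟨hint, le_of_tendsto' (intervalIntegral_tendsto_integral hint hta htb) hbound⟩
  refine ⟨(main 1 one_pos 1 one_pos).1, ?_⟩
  have hη0 : Tendsto (fun k : ℕ => 1 / ((k : ℝ) + 1)) atTop (𝓝 0) :=
    tendsto_one_div_add_atTop_nhds_zero_nat
  have hlimit : Tendsto (fun k : ℕ => (∫ x, frobSq (du x))
      + kinConst γ * (∑ i, (d i + 1 / ((k : ℝ) + 1)) ^ (γ / (γ - 1))) + 1 / ((k : ℝ) + 1)) atTop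
      (𝓝 ((∫ x, frobSq (du x)) + kinConst γ * ∑ i, d i ^ (γ / (γ - 1)))) := ?_
  · exact ge_of_tendsto' hlimit fun k => (main _ (by positivity) _ (by positivity)).2
  have hsum : Tendsto (fun k : ℕ => ∑ i, (d i + 1 / ((k : ℝ) + 1)) ^ (γ / (γ - 1))) atTop
      (𝓝 (∑ i, d i ^ (γ / (γ - 1)))) := tendsto_finsetSum _ fun i _ => by
    simpa using (hη0.const_add (d i)).rpow_const (p := γ / (γ - 1))
      (Or.inl (by simpa using (hd i).ne'))
  simpa using ((hsum.const_mul (kinConst γ)).const_add (∫ x, frobSq (du x))).add hη0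

/-! ### The eigenvalue bound -/

theorem weight_identity {γ l : ℝ} (hγ : 1 < γ) (hl : 0 < l) :
    (l / (kinConst γ * (γ / (γ - 1)))) ^ (γ - 1) * l
      - kinConst γ * ((l / (kinConst γ * (γ / (γ - 1)))) ^ (γ - 1)) ^ (γ / (γ - 1))
      = (4 : ℝ) ^ γ * beta0 γ * l ^ γ := by
  have hb := beta0_pos (by linarith : 1 / 2 < γ)
  have hd : (0 : ℝ) < γ - 1 := by linarith
  set s := kinConst γ * (γ / (γ - 1)) with hs
  have hse : s = 1 / 4 * (1 / (4 * γ * beta0 γ)) ^ (1 / (γ - 1)) := by
    rw [hs, kinConst]; field_simp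
  have hs0 : 0 < s := by rw [hse]; positivity
  have hspow : s ^ (γ - 1) = 1 / ((4 : ℝ) ^ γ * γ * beta0 γ) := by
    rw [hse, Real.mul_rpow (by norm_num) (by positivity), ← Real.rpow_mul (by positivity),
      one_div_mul_cancel hd.ne', Real.rpow_one, one_div (4 : ℝ), Real.inv_rpow (by norm_num),
      Real.rpow_sub_one (by norm_num) γ]
    field_simp
  have hx : 0 < l / s := div_pos hl hs0
  rw [← Real.rpow_mul hx.le, show (γ - 1) * (γ / (γ - 1)) = γ by field_simp,
    show γ = γ - 1 + 1 by ring, Real.rpow_add hx, Real.rpow_one,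
    Real.rpow_add hl, Real.rpow_one, show γ - 1 + 1 - 1 = γ - 1 by ring,
    show γ - 1 + 1 = γ by ring, Real.div_rpow hl.le hs0.le, hspow]
  have hk : kinConst γ = s * ((γ - 1) / γ) := by rw [hs]; field_simp
  rw [hk]
  generalize l ^ (γ - 1) = L
  generalize (4 : ℝ) ^ γ = P
  have := hs0.ne'
  field_simp
  ring

theorem eig_bound_gen {γ : ℝ} (hγ : γ ∈ Set.Ioo (1 : ℝ) (3 / 2)) (hK : KineticInterval γ)
    {m n : ℕ} {W : ℝ → Matrix (Fin m) (Fin m) ℂ} (hW : Vale.Agent.P371M.IsPotential γ W)
    {u du : Fin n → ℝ → Fin m → ℂ} {lam : Fin n → ℝ}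
    (hE : Vale.Agent.P371M.IsEigFamily W u du lam) :
    ∑ i, |lam i| ^ γ ≤ LOne γ * ∫ x, Vale.Agent.P371M.trPow (γ + 1 / 2) (W x) := by
  obtain ⟨h, horth, hneg, hweak⟩ := hE
  have hγ1 : 1 < γ := hγ.1
  have hγh : 1 / 2 < γ := by linarith
  have hb := beta0_pos hγh
  set r := γ / (γ - 1) with hr
  set q := (γ + 1 / 2) / (γ - 1 / 2) with hq
  have hc0 : 0 < kinConst γ := by
    have : 0 < 1 - 1 / γ := by
      rw [sub_pos, div_lt_one (by linarith)]; exact hγ1
    unfold kinConst; positivity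
  set d : Fin n → ℝ := fun i => (|lam i| / (kinConst γ * r)) ^ (γ - 1) with hdd
  have hl : ∀ i, 0 < |lam i| := fun i => abs_pos.2 (hneg i).ne
  have hd : ∀ i, 0 < d i := fun i => Real.rpow_pos_of_pos
    (div_pos (hl i) (mul_pos hc0 (div_pos (by linarith) (by linarith)))) _
  set U : ℝ → Matrix (Fin m) (Fin n) ℂ :=
    fun x => Matrix.of fun a i => (Real.sqrt (d i) : ℂ) * u i x a with hU
  set dU : ℝ → Matrix (Fin m) (Fin n) ℂ :=
    fun x => Matrix.of fun a i => (Real.sqrt (d i) : ℂ) * du i x a with hdU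
  have hH1 : ∀ a i, IsH1 (fun x => U x a i) (fun x => dU x a i) := fun a i => by
    obtain ⟨h1, h2, h3⟩ := h i a
    refine ⟨h1.const_mul _, h2.const_mul _, fun s t => ?_⟩
    simp only [hU, hdU, Matrix.of_apply]
    rw [← mul_sub, h3 s t, intervalIntegral.integral_const_mul]
  have hsq : ∀ i, (Real.sqrt (d i) : ℂ) * (Real.sqrt (d i) : ℂ) = (d i : ℂ) := fun i => by
    rw [← Complex.ofReal_mul, Real.mul_self_sqrt (hd i).le]
  have hgram : ∀ a b : ℝ, a ≤ b → (Matrix.diagonal (fun i => (d i : ℂ))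
      - Matrix.of fun i j => ∫ x in a..b, Rmat (U x) i j).PosSemidef := by
    intro a b hab
    have hp := (gram_le h horth a b hab).conjTranspose_mul_mul_same
      (Matrix.diagonal fun i => (Real.sqrt (d i) : ℂ))
    convert hp using 1
    ext i j
    rw [Matrix.diagonal_conjTranspose, Matrix.mul_diagonal, Matrix.diagonal_mul]
    simp only [Matrix.sub_apply, Matrix.of_apply, Pi.star_apply, RCLike.star_def,
      Complex.conj_ofReal, mul_sub, sub_mul, hU, Rmat, Matrix.mul_apply,
      Matrix.conjTranspose_apply, map_mul]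
    congr 1
    · by_cases hij : i = j
      · subst hij; simp [hsq]
      · simp [hij]
    · rw [← intervalIntegral.integral_const_mul, ← intervalIntegral.integral_mul_const]
      refine intervalIntegral.integral_congr fun x _ => ?_
      simp only [Finset.mul_sum, Finset.sum_mul]
      exact Finset.sum_congr rfl fun p _ => by ring
  obtain ⟨hqi, hkin⟩ := kinetic_line hγ hK hd hH1 hgram
  set qu : Fin n → ℝ → ℂ := fun i x => star (u i x) ⬝ᵥ (W x *ᵥ u i x) with hqu
  have hWe : ∀ x, (trace ((U x)ᴴ * W x * U x)).re = ∑ i, d i * (qu i x).re := fun x => by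
    simp only [Matrix.trace, Complex.re_sum, Matrix.diag_apply]
    refine Finset.sum_congr rfl fun i _ => ?_
    rw [← Complex.re_ofReal_mul, ← hsq i]
    congr 1
    simp only [hqu, hU, Matrix.mul_apply, Matrix.conjTranspose_apply,
      Matrix.of_apply, dotProduct, mulVec, Pi.star_apply, RCLike.star_def, map_mul,
      Complex.conj_ofReal, Finset.mul_sum, Finset.sum_mul]
    rw [Finset.sum_comm]
    exact Finset.sum_congr rfl fun a _ => Finset.sum_congr rfl fun b _ => by ring
  set D := fun x => youngK γ * trPow (γ + 1 / 2) (W x) + qTr q (U x) with hD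
  have hDi : Integrable D := (hW.2.2.const_mul _).add hqi
  have hq0 : ∀ i x, 0 ≤ qu i x := fun i x => (hW.1 x).dotProduct_mulVec_nonneg _
  have hYle : ∀ x, ∑ i, d i * (qu i x).re ≤ D x := fun x => by
    rw [← hWe]; exact young_matrix_gen hγh (hW.1 x) (U x)
  have hquI : ∀ i, Integrable (qu i) := by
    intro i
    refine (hDi.const_mul (d i)⁻¹).mono' ?_ (Eventually.of_forall fun x => ?_)
    · refine Measurable.aestronglyMeasurable ?_
      simp only [hqu, dotProduct, mulVec, Pi.star_apply]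
      refine Finset.measurable_fun_sum _ fun a _ => ((h i a).continuous.star.measurable).mul
        (Finset.measurable_fun_sum _ fun b _ => (hW.2.1 a b).mul (h i b).continuous.measurable)
    · have h0 := Complex.nonneg_iff.1 (hq0 i x)
      rw [← Complex.abs_re_eq_norm.2 h0.2.symm, abs_of_nonneg h0.1, ← div_eq_inv_mul,
        le_div_iff₀ (hd i), mul_comm]
      refine le_trans ?_ (hYle x)
      exact Finset.single_le_sum (f := fun j => d j * (qu j x).re)
        (fun j _ => mul_nonneg (hd j).le (Complex.nonneg_iff.1 (hq0 j x)).1) (Finset.mem_univ i)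
  have hdi : ∀ i, Integrable fun x => star (du i x) ⬝ᵥ du i x := fun i => by
    simp only [dotProduct, Pi.star_apply, RCLike.star_def, Complex.conj_mul']
    refine integrable_finsetSum _ fun a _ => ?_
    exact ((h i a).dsq_integrable.ofReal (𝕜 := ℂ)).congr
      (Eventually.of_forall fun x => Complex.ofReal_pow _ _)
  have hfr : ∀ x, frobSq (dU x) = ∑ i, d i * (star (du i x) ⬝ᵥ du i x).re := fun x => by
    simp only [frobSq, Matrix.trace, Complex.re_sum, Matrix.diag_apply]
    refine Finset.sum_congr rfl fun i _ => ?_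
    rw [← Complex.re_ofReal_mul, ← hsq i]
    congr 1
    simp only [hdU, Matrix.mul_apply, Matrix.conjTranspose_apply, Matrix.of_apply, dotProduct,
      Pi.star_apply, RCLike.star_def, map_mul, Complex.conj_ofReal, Finset.mul_sum]
    exact Finset.sum_congr rfl fun a _ => by ring
  have hquR : ∀ i, Integrable fun x => d i * (qu i x).re := fun i => (hquI i).re.const_mul (d i)
  have hdiR : ∀ i, Integrable fun x => d i * (star (du i x) ⬝ᵥ du i x).re :=
    fun i => (hdi i).re.const_mul (d i)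
  have e1 : ∑ i, d i * (∫ x, qu i x).re = ∫ x, ∑ i, d i * (qu i x).re := by
    rw [integral_finsetSum _ fun i _ => hquR i]
    exact Finset.sum_congr rfl fun i _ => by
      rw [integral_const_mul]; congr 1; exact (integral_re (hquI i)).symm
  have e2 : ∑ i, d i * (∫ x, star (du i x) ⬝ᵥ du i x).re = ∫ x, frobSq (dU x) := by
    simp only [hfr]
    rw [integral_finsetSum _ fun i _ => hdiR i]
    exact Finset.sum_congr rfl fun i _ => by
      rw [integral_const_mul]; congr 1; exact (integral_re (hdi i)).symm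
  have h1 : (∫ x, ∑ i, d i * (qu i x).re) ≤
      youngK γ * (∫ x, trPow (γ + 1 / 2) (W x)) + ∫ x, qTr q (U x) := by
    refine le_trans (integral_mono (integrable_finsetSum _ fun i _ => hquR i)
      hDi hYle) ?_
    rw [hD, integral_add (hW.2.2.const_mul _) hqi, integral_const_mul]
  have hlam : ∀ i, d i * |lam i| =
      d i * (∫ x, qu i x).re - d i * (∫ x, star (du i x) ⬝ᵥ du i x).re := fun i => by
    have := hweak i (u i) (du i) (h i)
    rw [horth i i, if_pos rfl, mul_one] at this
    have h2 := congrArg Complex.re this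
    rw [Complex.sub_re, Complex.ofReal_re] at h2
    rw [abs_of_neg (hneg i), ← mul_sub]
    congr 1
    simp only [hqu]
    linarith
  have hmain : ∑ i, (d i * |lam i| - kinConst γ * d i ^ r) ≤
      youngK γ * ∫ x, trPow (γ + 1 / 2) (W x) := by
    rw [Finset.sum_sub_distrib, ← Finset.mul_sum, Finset.sum_congr rfl fun i _ => hlam i,
      Finset.sum_sub_distrib, e1, e2]
    linarith
  have hid : ∀ i, d i * |lam i| - kinConst γ * d i ^ r =
      (4 : ℝ) ^ γ * beta0 γ * |lam i| ^ γ := fun i => weight_identity hγ1 (hl i)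
  rw [Finset.sum_congr rfl fun i _ => hid i, ← Finset.mul_sum] at hmain
  rw [LOne_eq hγh, div_mul_eq_mul_div, le_div_iff₀ (by positivity), mul_comm]
  exact hmain

end Vale.Agent.P371G
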