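import Vale.Agent.P371G.Minimax
import Vale.Agent.P371G.Reduce

/-! # The flow of the minimax value and the kinetic inequality on intervals

With `R = AᴴA` and `Xp(y) = ∫_a^y R + (δ + ε (y - a))`, the minimax value `S(y)` satisfies
`S' ≤ ‖A'‖² - tr R^q + ε n`; the two endpoint values give the inequality. -/

namespace Vale.Agent.P371G

open Matrix Finset MeasureTheory Filter Topology Set
open scoped ComplexOrder MatrixOrder
open Vale.Agent.P371M

variable {m n : ℕ}

/-! ### Scalar facts -/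

theorem scalar_bound {γ B D c : ℝ} (hγ : 1 < γ) (hB : 0 < B) (hD : 0 < D) (hc : 0 ≤ c) :
    D * c - B * c ^ γ ≤ (γ - 1) * B * (D / (γ * B)) ^ (γ / (γ - 1)) := by
  have hd : 0 < γ - 1 := by linarith
  set z := (D / (γ * B)) ^ (1 / (γ - 1)) with hz
  have hq : 0 < D / (γ * B) := by positivity
  have hz0 : 0 < z := Real.rpow_pos_of_pos hq _
  have e1 : γ * B * z ^ (γ - 1) = D := by
    rw [hz, ← Real.rpow_mul hq.le, one_div_mul_cancel hd.ne', Real.rpow_one]
    field_simp
  have e2 : z ^ γ = (D / (γ * B)) ^ (γ / (γ - 1)) := by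
    rw [hz, ← Real.rpow_mul hq.le, one_div_mul_eq_div]
  have h := one_add_mul_self_le_rpow_one_add (s := c / z - 1)
    (by linarith [div_nonneg hc hz0.le]) hγ.le
  rw [add_sub_cancel, Real.div_rpow hc hz0.le, le_div_iff₀ (Real.rpow_pos_of_pos hz0 _)] at h
  have e3 : γ * B * (z ^ γ * (c / z)) = D * c := by
    rw [← e1, Real.rpow_sub_one hz0.ne']
    field_simp
  rw [← e2]
  nlinarith [mul_le_mul_of_nonneg_left h hB.le]

theorem kinConst_eq {γ d : ℝ} (hγ : 1 < γ) (hd : 0 < d) :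
    (γ - 1) * beta0 γ * ((1 / 2) ^ 2 * d / (γ * beta0 γ)) ^ (γ / (γ - 1)) =
      kinConst γ * d ^ (γ / (γ - 1)) := by
  have hb := beta0_pos (by linarith : 1 / 2 < γ)
  have hg : 0 < γ - 1 := by linarith
  rw [show (1 / 2) ^ 2 * d / (γ * beta0 γ) = 1 / (4 * γ * beta0 γ) * d by ring,
    Real.mul_rpow (by positivity) hd.le,
    show γ / (γ - 1) = 1 / (γ - 1) + 1 by field_simp; ring,
    Real.rpow_add (x := 1 / (4 * γ * beta0 γ)) (by positivity), Real.rpow_one, kinConst]
  field_simp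

theorem gval_le_flow {α t c : ℝ} (hα : α ∈ Ioc (0 : ℝ) 1) (ht : 0 ≤ t) (hc : t ≤ c) :
    gval α t c ≤ t * (1 + 2 * t * c) := by
  refine mul_le_mul_of_nonneg_left ?_ ht
  have h1 : (∫ θ in (0 : ℝ)..1, (θ * t * (2 * c - θ * t)) ^ α) ≤
      ∫ _ in (0 : ℝ)..1, (1 + 2 * t * c) := by
    refine intervalIntegral.integral_mono_on zero_le_one
      (((Real.continuous_rpow_const hα.1.le).comp (by fun_prop)).intervalIntegrable _ _)
      intervalIntegrable_const fun θ hθ => ?_
    have h2 : θ * t ≤ t := mul_le_of_le_one_left ht hθ.2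
    have h0 : 0 ≤ θ * t * (2 * c - θ * t) := mul_nonneg (mul_nonneg hθ.1 ht) (by linarith)
    have hle : θ * t * (2 * c - θ * t) ≤ 2 * t * c := by
      nlinarith [mul_le_mul_of_nonneg_right h2 (by linarith : 0 ≤ 2 * c), sq_nonneg (θ * t)]
    rcases le_total (θ * t * (2 * c - θ * t)) 1 with h | h
    · exact (Real.rpow_le_one h0 h hα.1.le).trans (by nlinarith [mul_nonneg ht (ht.trans hc)])
    · exact ((Real.rpow_le_rpow_of_exponent_le h hα.2).trans_eq (Real.rpow_one _)).trans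
        (by linarith)
  simpa using h1

theorem le_gval {γ a k : ℝ} (hγ : 1 / 2 < γ) (ha : 0 < a) (hk : 1 / 2 ≤ k) :
    beta0 γ * a ^ (2 * γ) ≤ gval (γ - 1 / 2) a (k * a) := by
  have hα : 0 ≤ γ - 1 / 2 := by linarith
  have e : a ^ (2 * γ) = a * (a ^ 2) ^ (γ - 1 / 2) := by
    rw [← Real.rpow_natCast a 2, ← Real.rpow_mul ha.le,
      ← Real.rpow_one_add' ha.le (by push_cast; linarith)]
    congr 1
    push_cast; ring
  rw [e, gval, mul_comm, mul_assoc, beta0, ← intervalIntegral.integral_const_mul]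
  refine mul_le_mul_of_nonneg_left (intervalIntegral.integral_mono_on zero_le_one
    (Continuous.intervalIntegrable (continuous_const.mul
      ((Real.continuous_rpow_const hα).comp (by fun_prop))) _ _)
    (((Real.continuous_rpow_const hα).comp (by fun_prop)).intervalIntegrable _ _) fun θ hθ => ?_)
    ha.le
  have h0 : 0 ≤ θ * (1 - θ) := mul_nonneg hθ.1 (by linarith [hθ.2])
  rw [← Real.mul_rpow (sq_nonneg a) h0]
  refine Real.rpow_le_rpow (by positivity) ?_ hα
  nlinarith [mul_nonneg (mul_nonneg hθ.1 (sq_nonneg a)) (by linarith : 0 ≤ 2 * k - 1)]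

/-! ### Matrix facts -/

theorem eig_smul_one {t : ℝ} (h : (t • (1 : Mat n)).IsHermitian) (i : Fin n) :
    h.eigenvalues i = t := le_antisymm (eig_le h le_rfl i) (le_eig h le_rfl i)

theorem lndet_smul_one (t : ℝ) : lndet (t • (1 : Mat n)) = n * Real.log t := by
  rw [lndet, rtr_fc (smul_one_herm t)]
  simp [eig_smul_one]

theorem smul_one_posDef {t : ℝ} (ht : 0 < t) : (t • (1 : Mat n)).PosDef :=
  posDef_eig (smul_one_herm t) fun i => by rw [eig_smul_one]; exact ht

theorem le_rtr_smul_one {X : Mat n} (h : 0 ≤ X) : X ≤ rtr X • (1 : Mat n) :=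
  le_smul_one_of_eig h.posSemidef.1 (eigenvalues_le_trace h.posSemidef)

theorem rtr_mul_le_rtr {R X : Mat n} (hR : 0 ≤ R) (hX : 0 ≤ X) :
    rtr (R * X) ≤ rtr X * rtr R := by
  refine (rtr_mul_le_left hR (le_rtr_smul_one hX)).trans_eq ?_
  rw [Matrix.mul_smul, Matrix.mul_one, rtr_smul]

theorem two_rtr_le {M : Mat n} (hM : M.IsHermitian) : 2 * rtr M ≤ n + rtr (M * M) := by
  have h := rtr_nonneg (posSemidef_conjTranspose_mul_self (M - 1)).nonneg
  rw [(hM.sub Matrix.isHermitian_one).eq] at h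
  simp only [Matrix.sub_mul, Matrix.mul_sub, Matrix.mul_one, Matrix.one_mul, rtr_sub, rtr_one] at h
  linarith

theorem gram_psd {A : ℝ → Matrix (Fin m) (Fin n) ℂ} (hA : ∀ i j, Continuous fun x => A x i j)
    {a b : ℝ} (hab : a ≤ b) :
    (Matrix.of fun i j => ∫ x in a..b, Rmat (A x) i j).PosSemidef := by
  have hc : ∀ i j, Continuous fun x => Rmat (A x) i j := by
    intro i j
    simp only [Rmat, Matrix.mul_apply, Matrix.conjTranspose_apply]
    exact continuous_finsetSum _ fun p _ => (hA p i).star.mul (hA p j)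
  refine PosSemidef.of_dotProduct_mulVec_nonneg ?_ fun v => ?_
  · ext i j
    simp only [Matrix.conjTranspose_apply, Matrix.of_apply, RCLike.star_def,
      intervalIntegral.integral_of_le hab, ← integral_conj]
    exact integral_congr_ae (Eventually.of_forall fun x =>
      (posSemidef_conjTranspose_mul_self (A x)).1.apply i j)
  · have h0 : ∀ x, 0 ≤ star v ⬝ᵥ (Rmat (A x) *ᵥ v) := fun x =>
      (posSemidef_conjTranspose_mul_self (A x)).dotProduct_mulVec_nonneg v
    have e : star v ⬝ᵥ ((Matrix.of fun i j => ∫ x in a..b, Rmat (A x) i j) *ᵥ v)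
        = ∫ x in a..b, (((star v ⬝ᵥ (Rmat (A x) *ᵥ v)).re : ℝ) : ℂ) := by
      refine Eq.trans ?_ (intervalIntegral.integral_congr (f := fun x =>
        star v ⬝ᵥ (Rmat (A x) *ᵥ v)) fun x _ =>
          Complex.ext rfl (by simpa using (Complex.nonneg_iff.1 (h0 x)).2.symm))
      have hcc : ∀ i j, Continuous fun x => star v i * (Rmat (A x) i j * v j) := fun i j =>
        continuous_const.mul ((hc i j).mul continuous_const)
      simp only [dotProduct, mulVec, Finset.mul_sum, Matrix.of_apply]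
      rw [intervalIntegral.integral_finsetSum fun i _ => (continuous_finsetSum _ fun j _ =>
        hcc i j).intervalIntegrable _ _]
      refine Finset.sum_congr rfl fun i _ => ?_
      rw [intervalIntegral.integral_finsetSum fun j _ => (hcc i j).intervalIntegrable _ _]
      exact Finset.sum_congr rfl fun j _ => by
        rw [intervalIntegral.integral_const_mul, intervalIntegral.integral_mul_const]
    rw [e, intervalIntegral.integral_ofReal]
    exact Complex.zero_le_real.2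
      (intervalIntegral.integral_nonneg hab fun x _ => (Complex.nonneg_iff.1 (h0 x)).1)

/-! ### The flow -/

theorem cross_le (A A' : Matrix (Fin m) (Fin n) ℂ) {N : Mat n} (hN : N.IsHermitian) :
    rtr ((A'ᴴ * A + Aᴴ * A') * N) ≤ (trace (A'ᴴ * A')).re + rtr (Aᴴ * A * (N * N)) := by
  have h : 0 ≤ rtr ((A' - A * N)ᴴ * (A' - A * N)) :=
    rtr_nonneg (posSemidef_conjTranspose_mul_self _).nonneg
  simp only [Matrix.conjTranspose_sub, Matrix.conjTranspose_mul, hN.eq, Matrix.mul_sub,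
    Matrix.sub_mul, rtr_sub] at h
  have e1 : rtr (N * Aᴴ * A') = rtr (Aᴴ * A' * N) := by
    rw [Matrix.mul_assoc, rtr_mul_comm]
  have e2 : rtr (N * Aᴴ * (A * N)) = rtr (Aᴴ * A * (N * N)) := by
    rw [Matrix.mul_assoc, rtr_mul_comm]
    simp only [Matrix.mul_assoc]
  have e3 : A'ᴴ * (A * N) = A'ᴴ * A * N := (Matrix.mul_assoc _ _ _).symm
  have e4 : rtr (A'ᴴ * A') = (trace (A'ᴴ * A')).re := rfl
  rw [Matrix.add_mul, rtr_add]
  rw [e1, e2, e3, e4] at h
  linarith

/-- The drift along the interval. -/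
theorem flow_le {γ : ℝ} (hγ : γ ∈ Set.Ioo (1 : ℝ) (3 / 2)) (hΨ : PsiAPI (γ - 1 / 2))
    {ε δ : ℝ} (hε : 0 < ε) (hδ : 0 < δ) {A A' : ℝ → Matrix (Fin m) (Fin n) ℂ}
    (hAd : ∀ i j x, HasDerivAt (fun u => A u i j) (A' x i j) x)
    (hA' : ∀ i j, Continuous fun u => A' u i j) {a b : ℝ} (hab : a ≤ b) :
    (∫ x in a..b, qTr ((γ + 1 / 2) / (γ - 1 / 2)) (A x)) ≤ (∫ x in a..b, frobSq (A' x))
      + Sval (γ - 1 / 2) ε (Rmat (A a)) (δ • (1 : Mat n))
      - Sval (γ - 1 / 2) ε (Rmat (A b))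
          ((Matrix.of fun i j => ∫ x in a..b, Rmat (A x) i j) + (δ + ε * (b - a)) • (1 : Mat n))
      + ε * n * (b - a) := by
  have hα : γ - 1 / 2 ∈ Set.Ioo (1 / 2 : ℝ) 1 := ⟨by linarith [hγ.1], by linarith [hγ.2]⟩
  have hα0 : 0 < γ - 1 / 2 := by linarith [hα.1]
  set q := (γ + 1 / 2) / (γ - 1 / 2) with hq
  have hqe : q = 1 + 1 / (γ - 1 / 2) := by rw [hq, one_add_div hα0.ne']; congr 1; ring
  have hq0 : 0 ≤ q := by rw [hqe]; positivity
  have hA : ∀ i j, Continuous fun u => A u i j := fun i j =>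
    continuous_iff_continuousAt.2 fun x => (hAd i j x).continuousAt
  have hRc : ∀ i j, Continuous fun x => Rmat (A x) i j := fun i j => by
    simp only [Rmat, Matrix.mul_apply, Matrix.conjTranspose_apply]
    exact continuous_finsetSum _ fun p _ => (hA p i).star.mul (hA p j)
  have hR0 : ∀ x, 0 ≤ Rmat (A x) := fun x => (posSemidef_conjTranspose_mul_self _).nonneg
  set Xp : ℝ → Mat n := fun y =>
    (Matrix.of fun i j => ∫ x in a..y, Rmat (A x) i j) + (δ + ε * (y - a)) • (1 : Mat n) with hXp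
  have hXle : ∀ y, a ≤ y → (δ • (1 : Mat n)) ≤ Xp y := fun y hy => by
    rw [← sub_nonneg]
    refine (add_nonneg (gram_psd hA hy).nonneg
      (smul_nonneg (mul_nonneg hε.le (sub_nonneg.2 hy)) zero_le_one)).trans_eq ?_
    simp only [hXp]; module
  have hXd : ∀ x i j, HasDerivAt (fun y => Xp y i j) ((Rmat (A x) + ε • (1 : Mat n)) i j) x := by
    intro x i j
    simp only [hXp, Matrix.add_apply, Matrix.smul_apply, Matrix.of_apply]
    have h2 := ((((hasDerivAt_id x).sub_const a).const_mul ε).const_add δ).smul_const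
      ((1 : Mat n) i j)
    exact (((hRc i j).integral_hasStrictDerivAt a x).hasDerivAt).add (by simpa using h2)
  have hXc : ∀ i j, Continuous fun y => Xp y i j := fun i j =>
    continuous_iff_continuousAt.2 fun x => (hXd x i j).continuousAt
  have hXh : ∀ y, (Xp y).IsHermitian := fun y => by
    rcases le_total a y with hy | hy
    · exact herm_of_le (smul_one_herm δ) (hXle y hy)
    · refine IsHermitian.add ?_ (smul_one_herm _)
      have := ((gram_psd hA hy).1).neg
      convert this using 1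
      ext i j
      simp [intervalIntegral.integral_symm a y]
  have hev : ∀ x ∈ Set.Ico a b, ∀ᶠ y in 𝓝 x, 0 ≤ Rmat (A y) ∧ (Xp y).PosDef := by
    intro x hx
    have hz : Tendsto (fun y => ∑ i, ∑ j, ‖(Xp x - Xp y) i j‖) (𝓝 x) (𝓝 0) := by
      have := ((continuous_finsetSum Finset.univ fun i _ => continuous_finsetSum Finset.univ
        fun j _ => ((continuous_const (y := Xp x i j)).sub (hXc i j)).norm)).tendsto x
      simpa using this
    filter_upwards [hz.eventually (eventually_le_nhds (half_pos hδ))] with y hy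
    refine ⟨hR0 y, posDef_of_le (half_pos hδ) ?_⟩
    have h1 := (posSemidef_smul_one_sub ((hXh x).sub (hXh y)) hy).nonneg
    have h2 := sub_nonneg.2 (hXle x hx.1)
    rw [← sub_nonneg]
    refine (add_nonneg h1 h2).trans_eq ?_
    rw [Complex.coe_smul]
    module
  have hIcc : ∀ y ∈ Set.Icc a b, 0 ≤ Rmat (A y) ∧ (Xp y).PosDef := fun y hy =>
    ⟨hR0 y, posDef_of_le hδ (hXle y hy.1)⟩
  set S : ℝ → ℝ := fun y => Sval (γ - 1 / 2) ε (Rmat (A y)) (Xp y) with hS
  have hT : Continuous fun x => frobSq (A' x) :=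
    continuous_comp_matrix (by unfold frobSq; fun_prop) hA'
  have hP : Continuous fun x => qTr q (A x) := continuous_comp_matrix (qTr_continuous hq0) hA
  set B : ℝ → ℝ := fun x => S a + (∫ y in a..x, (frobSq (A' y) - qTr q (A y)))
    + ε * n * (x - a) with hB
  have hBd : ∀ x, HasDerivAt B (frobSq (A' x) - qTr q (A x) + ε * n) x := fun x => by
    have h1 := ((hT.sub hP).integral_hasStrictDerivAt a x).hasDerivAt.const_add (S a)
    have h2 := ((hasDerivAt_id x).sub_const a).const_mul (ε * n : ℝ)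
    simpa [hB] using h1.fun_add h2
  have hmain : S b ≤ B b := by
    refine image_le_of_liminf_slope_right_le_deriv_boundary
      (Sval_continuousOn hα hΨ hε hIcc (fun i j => (hRc i j).continuousOn)
        fun i j => (hXc i j).continuousOn)
      (by simp [hB, hS]) (fun x _ => (hBd x).continuousAt.continuousWithinAt)
      (fun x _ => (hBd x).hasDerivWithinAt) (fun x hx r hr => ?_) (right_mem_Icc.2 hab)
    have hxI : x ∈ Set.Icc a b := Ico_subset_Icc_self hx
    obtain ⟨Aσ, M, hmax, hval⟩ := exists_saddle hα hΨ hε (hR0 x) (hIcc x hxI).2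
    have hM := (Dom.adm hmax.1).posDef
    have hineq := saddle_ineq hα hΨ hε (hR0 x) (hIcc x hxI).2 hmax hval
    refine Sval_slope hα hΨ hε (R' := (A' x)ᴴ * A x + (A x)ᴴ * A' x)
      (X' := Rmat (A x) + ε • (1 : Mat n)) (hev x hx) (fun i j => ?_) (hXd x) hmax hval ?_
    · simp only [Rmat, Matrix.mul_apply, Matrix.conjTranspose_apply, Matrix.add_apply,
        ← Finset.sum_add_distrib]
      exact HasDerivAt.fun_sum fun p _ => (hAd p i x).star.fun_mul (hAd p j x)
    · have hc := cross_le (A x) (A' x) (hM.1.sub hmax.1.1.1)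
      have hm2 : rtr (M * M * (Rmat (A x) + ε • (1 : Mat n)))
          = rtr (M * M * Rmat (A x)) + ε * rtr (M * M) := by
        rw [Matrix.mul_add, rtr_add, Matrix.mul_smul, Matrix.mul_one, rtr_smul]
      have hP' : qTr q (A x) = rtr (fc (fun y => y ^ (1 + 1 / (γ - 1 / 2))) (Rmat (A x))) := by
        rw [qTr, ← hqe, rtr_fc (hR0 x).posSemidef.1,
          trPow_eq (posSemidef_conjTranspose_mul_self (A x)).1]
        rfl
      have h2 := mul_le_mul_of_nonneg_left (two_rtr_le hM.1) hε.le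
      have hT' : frobSq (A' x) = (trace ((A' x)ᴴ * A' x)).re := rfl
      simp only [Rmat] at hineq hm2 hP' hc ⊢
      linarith
  have hsub : (∫ y in a..b, (frobSq (A' y) - qTr q (A y))) =
      (∫ y in a..b, frobSq (A' y)) - ∫ y in a..b, qTr q (A y) :=
    intervalIntegral.integral_sub (hT.intervalIntegrable _ _) (hP.intervalIntegrable _ _)
  have ha : Xp a = δ • (1 : Mat n) := by
    ext i j
    simp [hXp]
  simp only [hB, hS, hsub, ha] at hmain
  simp only [hXp] at hmain
  linarith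

/-! ### The endpoint values -/

theorem start_bound {γ : ℝ} (hγ : γ ∈ Set.Ioo (1 : ℝ) (3 / 2)) (hΨ : PsiAPI (γ - 1 / 2))
    {ε δ ρ t : ℝ} (hε : 0 < ε) (hδ : 0 < δ) (ht : 0 < t) (ht1 : t ≤ 1)
    (hbud : ρ / 2 + n * t ^ 2 + ε ≤ δ) {R : Mat n} (hR : 0 ≤ R) (hRρ : rtr R ≤ ρ) :
    Sval (γ - 1 / 2) ε R (δ • (1 : Mat n)) ≤
      ρ * n / 2 + 4 * n * t + ε * n * |Real.log t| := by
  have hα : γ - 1 / 2 ∈ Set.Ioo (1 / 2 : ℝ) 1 := ⟨by linarith [hγ.1], by linarith [hγ.2]⟩
  have hT := smul_one_posDef (n := n) ht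
  obtain ⟨M, hM⟩ := exists_isMax hα hΨ hε hR (smul_one_posDef hδ) hT
  refine (Sval_le hα hΨ hε hR (smul_one_posDef hδ) hM).trans ?_
  have hAdm := Dom.adm hM.1
  set s2 := rtr (M * M) with hs2
  have hMM : 0 ≤ M * M := by
    have := (posSemidef_conjTranspose_mul_self M).nonneg
    rwa [hAdm.posDef.1.eq] at this
  have hs0 : 0 ≤ s2 := rtr_nonneg hMM
  have htrM : 2 * rtr M ≤ n + s2 := two_rtr_le hAdm.posDef.1
  have hM0 : 0 ≤ rtr M := rtr_nonneg hAdm.posDef.posSemidef.nonneg
  have hR00 : 0 ≤ rtr R := rtr_nonneg hR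
  have h1 : rtr (R * (M - t • (1 : Mat n))) ≤ ρ * (n + s2) / 2 := by
    have e1 := rtr_mul_le_rtr hR hAdm.posDef.posSemidef.nonneg
    have e2 : rtr M * rtr R ≤ (n + s2) / 2 * ρ :=
      mul_le_mul (by linarith) hRρ hR00 (by linarith)
    rw [Matrix.mul_sub, rtr_sub, Matrix.mul_smul, Matrix.mul_one, rtr_smul]
    nlinarith [mul_nonneg ht.le hR00]
  have h2 : rtr (M * M * (δ • (1 : Mat n))) = δ * s2 := by
    rw [Matrix.mul_smul, Matrix.mul_one, rtr_smul]
  set c := Real.sqrt s2 + t with hc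
  have hcs : 2 * Real.sqrt s2 ≤ 1 + s2 := by
    nlinarith [sq_nonneg (Real.sqrt s2 - 1), Real.sq_sqrt hs0]
  have hct : t ≤ c := by linarith [Real.sqrt_nonneg s2]
  have hc0 : 0 < c := by linarith
  have h3 : Psi (γ - 1 / 2) (t • (1 : Mat n)) M ≤ n * (t * (1 + 2 * t * c)) := by
    have hAc : Adm (t • (1 : Mat n)) (c • (1 : Mat n)) := by
      refine ⟨hT.posSemidef.nonneg, ?_, smul_one_posDef hc0⟩
      rw [smul_smul, ← sub_nonneg, ← sub_smul]
      exact smul_nonneg (by linarith) zero_le_one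
    have hle : M * M + M * M ≤ (2 : ℝ) • ((c • (1 : Mat n)) * (c • (1 : Mat n))) := by
      rw [Matrix.smul_mul, Matrix.one_mul, smul_smul c c, ← two_smul ℝ (M * M)]
      refine smul_le_smul_of_nonneg_left ((le_rtr_smul_one hMM).trans ?_) (by norm_num)
      rw [← sub_nonneg, ← sub_smul]
      refine smul_nonneg ?_ zero_le_one
      nlinarith [Real.sq_sqrt hs0, mul_nonneg ht.le (Real.sqrt_nonneg s2), mul_nonneg ht.le ht.le]
    have h := hΨ.midpoint hT hAc hAdm hAdm hle
    have hcomm := hΨ.comm hT.1 (fun _ => c) hT.posSemidef.nonneg (fun _ => hc0)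
      (fun i => by rw [eig_smul_one]; linarith)
    rw [fc_const hT.1] at hcomm
    rw [hcomm] at h
    simp only [eig_smul_one, Finset.sum_const, Finset.card_univ, Fintype.card_fin,
      nsmul_eq_mul] at h
    have hg := mul_le_mul_of_nonneg_left
      (gval_le_flow (α := γ - 1 / 2) ⟨by linarith [hα.1], hα.2.le⟩ ht.le hct)
      (Nat.cast_nonneg n : (0 : ℝ) ≤ n)
    linarith
  have h4 : lndet ((2 : ℝ) • M - t • (1 : Mat n)) ≤ s2 := by
    refine (lndet_le_tangent hM.1.2 Matrix.PosDef.one).trans ?_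
    have e : lndet (1 : Mat n) = 0 := by
      simpa using lndet_smul_one (n := n) 1
    rw [e, inv_one, Matrix.mul_one, rtr_sub, rtr_sub, rtr_smul, rtr_smul, rtr_one]
    nlinarith [mul_nonneg ht.le (Nat.cast_nonneg n : (0 : ℝ) ≤ n)]
  rw [fpot, lndet_smul_one, h2]
  have h5 : ε * (lndet ((2 : ℝ) • M - t • (1 : Mat n)) - n * Real.log t)
      ≤ ε * s2 + ε * n * |Real.log t| := by
    have e1 := mul_le_mul_of_nonneg_left h4 hε.le
    have e2 := mul_le_mul_of_nonneg_left (neg_le_abs (Real.log t))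
      (by positivity : 0 ≤ ε * n)
    nlinarith
  have h6 : n * (t * (1 + 2 * t * c)) ≤ 4 * n * t + n * t ^ 2 * s2 := by
    have e : t * (1 + 2 * t * c) ≤ 4 * t + t ^ 2 * s2 := by
      have e1 : 2 * c ≤ 1 + s2 + 2 * t := by linarith
      have e2 := mul_le_mul_of_nonneg_left e1 (sq_nonneg t)
      have e3 : t ^ 2 ≤ t := by nlinarith
      have e4 : t ^ 2 * t ≤ t := by nlinarith
      nlinarith
    nlinarith [mul_le_mul_of_nonneg_left e (Nat.cast_nonneg n : (0 : ℝ) ≤ n)]
  have h7 := mul_le_mul_of_nonneg_right hbud hs0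
  nlinarith

theorem end_bound {γ : ℝ} (hγ : γ ∈ Set.Ioo (1 : ℝ) (3 / 2)) (hΨ : PsiAPI (γ - 1 / 2))
    {ε ρ u : ℝ} (hε : 0 < ε) (hu : 0 < u) (huβ : u < beta0 γ) (hρ : ρ ≤ 2 * u)
    {d : Fin n → ℝ} (hd : ∀ i, 0 < d i) {R X : Mat n} (hR : 0 ≤ R)
    (hRρ : rtr R ≤ ρ) (hX : X.PosDef) (hXd : X ≤ diagonal fun i => (d i : ℂ)) :
    -((γ - 1) * (beta0 γ - u) *
        ∑ i, (((1 + u) / 2) ^ 2 * d i / (γ * (beta0 γ - u))) ^ (γ / (γ - 1)))
      - ρ * n / 2 - ε * n * |Real.log u| ≤ Sval (γ - 1 / 2) ε R X := by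
  have hα : γ - 1 / 2 ∈ Set.Ioo (1 / 2 : ℝ) 1 := ⟨by linarith [hγ.1], by linarith [hγ.2]⟩
  obtain ⟨A, M, hmax, hval⟩ := exists_saddle hα hΨ hε hR hX
  rw [hval]
  set k := (1 + u) / 2 with hk
  have hA : A.PosDef := hmax.1.1
  have hAh : A.IsHermitian := hA.1
  have heig := hA.eigenvalues_pos
  have hη : (2 : ℝ) • (k • A) - A = u • A := by
    rw [smul_smul, hk, show (2 : ℝ) * ((1 + u) / 2) = 1 + u by ring, add_smul, one_smul]
    abel
  have hdom : Dom A (k • A) := ⟨hA, by rw [hη]; exact hA.smul hu⟩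
  refine le_trans ?_ (hmax.2 _ hdom)
  have hΨ' : beta0 γ * ∑ i, hAh.eigenvalues i ^ (2 * γ) ≤ Psi (γ - 1 / 2) A (k • A) := by
    have hcomm := hΨ.comm hAh (fun x => k * x) hA.posSemidef.nonneg
      (fun i => mul_pos (by linarith) (heig i))
      (fun i => by nlinarith [heig i, mul_pos hu (heig i)])
    rw [show fc (fun x => k * x) A = k • A by rw [← fc_smul, fc_id hAh]] at hcomm
    rw [hcomm, Finset.mul_sum]
    exact Finset.sum_le_sum fun i _ =>
      le_gval (by linarith [hγ.1]) (heig i) (by linarith)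
  have hld : lndet ((2 : ℝ) • (k • A) - A) = n * Real.log u + lndet A := by
    have e : (2 : ℝ) • (k • A) - A = fc (fun x => u * x) A := by
      rw [hη, ← fc_smul, fc_id hAh]
    rw [e, lndet, lndet, fc_comp hAh, rtr_fc hAh, rtr_fc hAh,
      Finset.sum_congr rfl fun i _ => Real.log_mul hu.ne' (heig i).ne']
    rw [Finset.sum_add_distrib, Finset.sum_const, Finset.card_univ, Fintype.card_fin, nsmul_eq_mul]
  set C := A * A with hC
  have hC0 : C.PosSemidef := by
    have := posSemidef_conjTranspose_mul_self A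
    rwa [hAh.eq] at this
  have hpow : ∑ i, hAh.eigenvalues i ^ (2 * γ) = ∑ i, hC0.1.eigenvalues i ^ γ := by
    have e : C = fc (fun x => x * x) A := by rw [← fc_mul, fc_id hAh]
    rw [← rtr_fc hC0.1 (fun x => x ^ γ)]
    conv_rhs => rw [e, fc_comp hAh, rtr_fc hAh]
    refine Finset.sum_congr rfl fun i _ => ?_
    rw [Real.rpow_mul (heig i).le, Real.rpow_two, sq]
  have hdiag : rtr (C * diagonal fun i => (d i : ℂ)) = ∑ i, d i * (C i i).re := by
    rw [rtr, Matrix.trace, Complex.re_sum]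
    refine Finset.sum_congr rfl fun i _ => ?_
    rw [Matrix.diag_apply, Matrix.mul_diagonal, mul_comm, Complex.re_ofReal_mul]
  have hquad : rtr ((k • A) * (k • A) * X) ≤ ∑ i, k ^ 2 * d i * (C i i).re := by
    have := (rtr_mul_le_left hC0.nonneg hXd).trans_eq hdiag
    rw [Matrix.smul_mul, Matrix.mul_smul, smul_smul, Matrix.smul_mul, rtr_smul, ← hC, ← sq]
    refine (mul_le_mul_of_nonneg_left this (sq_nonneg k)).trans_eq ?_
    rw [Finset.mul_sum]
    exact Finset.sum_congr rfl fun i _ => by ring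
  have hlin : -(ρ / 2 * (n + ∑ i, hAh.eigenvalues i ^ (2 * γ))) ≤ rtr (R * (k • A - A)) := by
    have e0 : k • A - A = (k - 1) • A := by rw [sub_smul, one_smul]
    have e1 : rtr (R * A) ≤ rtr A * rtr R := rtr_mul_le_rtr hR hA.posSemidef.nonneg
    have e2 : rtr A ≤ n + ∑ i, hAh.eigenvalues i ^ (2 * γ) := by
      have e : rtr A = ∑ i, hAh.eigenvalues i := by
        conv_lhs => rw [← fc_id hAh]
        exact rtr_fc hAh _
      have h : ∀ i, hAh.eigenvalues i ≤ 1 + hAh.eigenvalues i ^ (2 * γ) := fun i => by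
        rcases le_total (hAh.eigenvalues i) 1 with h | h
        · linarith [Real.rpow_nonneg (heig i).le (2 * γ)]
        · linarith [Real.self_le_rpow_of_one_le h (by linarith [hγ.1] : 1 ≤ 2 * γ)]
      rw [e]
      refine (Finset.sum_le_sum fun i _ => h i).trans_eq ?_
      simp [Finset.sum_add_distrib]
    have e3 : 0 ≤ rtr (R * A) := rtr_mul_nonneg hR hA.posSemidef.nonneg
    have e4 : rtr A * rtr R ≤ (n + ∑ i, hAh.eigenvalues i ^ (2 * γ)) * ρ :=
      mul_le_mul e2 hRρ (rtr_nonneg hR)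
        ((rtr_nonneg hA.posSemidef.nonneg).trans e2)
    rw [e0, Matrix.mul_smul, rtr_smul]
    have e5 := mul_le_mul_of_nonneg_right (by linarith : -(1 / 2) ≤ k - 1) e3
    linarith
  have hSC : ∑ i, (C i i).re ^ γ ≤ ∑ i, hC0.1.eigenvalues i ^ γ :=
    sum_diag_rpow_le hC0 hγ.1.le
  have hsc : ∑ i, (k ^ 2 * d i * (C i i).re - (beta0 γ - u) * (C i i).re ^ γ) ≤
      ∑ i, (γ - 1) * (beta0 γ - u) *
        (k ^ 2 * d i / (γ * (beta0 γ - u))) ^ (γ / (γ - 1)) :=
    Finset.sum_le_sum fun i _ => scalar_bound hγ.1 (by linarith)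
      (mul_pos (pow_pos (by linarith) 2) (hd i)) (Complex.nonneg_iff.1 hC0.diag_nonneg).1
  rw [Finset.sum_sub_distrib, ← Finset.mul_sum, ← Finset.mul_sum] at hsc
  have hSge : 0 ≤ ∑ i, (C i i).re ^ γ := Finset.sum_nonneg fun i _ =>
    Real.rpow_nonneg (Complex.nonneg_iff.1 hC0.diag_nonneg).1 _
  have h7 : (beta0 γ - u) * ∑ i, (C i i).re ^ γ ≤
      (beta0 γ - ρ / 2) * ∑ i, hAh.eigenvalues i ^ (2 * γ) := by
    rw [hpow]
    exact mul_le_mul (by linarith) hSC hSge (by linarith)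
  have h8 := mul_le_mul_of_nonneg_left (neg_abs_le (Real.log u))
    (by positivity : 0 ≤ ε * n)
  rw [fpot, hld]
  nlinarith

/-! ### The kinetic inequality -/

theorem kineticInterval_of_api {γ : ℝ} (hγ : γ ∈ Set.Ioo (1 : ℝ) (3 / 2))
    (hΨ : PsiAPI (γ - 1 / 2)) : KineticInterval γ := by
  intro n d hd τ hτ
  have hγ1 : 1 < γ := hγ.1
  have hb := beta0_pos (by linarith : 1 / 2 < γ)
  set r := γ / (γ - 1) with hr
  set F := fun u : ℝ => (γ - 1) * (beta0 γ - u) *
    ∑ i, (((1 + u) / 2) ^ 2 * (d i + u) / (γ * (beta0 γ - u))) ^ r with hF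
  have hF0 : F 0 = kinConst γ * ∑ i, d i ^ r := by
    simp only [hF, sub_zero, add_zero, Finset.mul_sum]
    exact Finset.sum_congr rfl fun i _ => kinConst_eq hγ1 (hd i)
  have hFc : ContinuousAt F 0 := by
    refine ContinuousAt.mul (by fun_prop) (tendsto_finsetSum _ fun i _ => ?_)
    refine ContinuousAt.rpow_const (ContinuousAt.div (by fun_prop) (by fun_prop) ?_)
      (Or.inr (div_pos (by linarith) (by linarith)).le)
    simp only [sub_zero]
    positivity
  obtain ⟨u, ⟨hu0, hFu⟩, hu1, huβ⟩ : ∃ u, (0 < u ∧ F u < F 0 + τ / 4) ∧ u ≤ 1 ∧ u < beta0 γ := by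
    have e : ∀ᶠ u in 𝓝[>] (0 : ℝ), (0 < u ∧ F u < F 0 + τ / 4) ∧ u ≤ 1 ∧ u < beta0 γ := by
      filter_upwards [self_mem_nhdsWithin,
        (hFc.tendsto.mono_left nhdsWithin_le_nhds).eventually
          (eventually_lt_nhds (by linarith : F 0 < F 0 + τ / 4)),
        nhdsWithin_le_nhds (eventually_le_nhds (zero_lt_one' ℝ)),
        nhdsWithin_le_nhds (eventually_lt_nhds hb)] with u a b c e
      exact ⟨⟨a, b⟩, c, e⟩
    exact e.exists
  set δ := u / 2 with hδd
  have hδ : 0 < δ := half_pos hu0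
  have hn : (0 : ℝ) ≤ n := Nat.cast_nonneg n
  set t := min 1 (min (δ / (2 * (n + 1))) (τ / (16 * (n + 1)))) with htd
  have ht : 0 < t := lt_min one_pos (lt_min (by positivity) (by positivity))
  set ρ := min (δ / 2) (τ / (4 * (n + 1))) with hρd
  have hρ : 0 < ρ := lt_min (by positivity) (by positivity)
  refine ⟨ρ, hρ, fun m A A' hAd hA' a b hab ha hb' hgram => ?_⟩
  have hba : 0 ≤ b - a := sub_nonneg.2 hab
  set K := |Real.log t| + |Real.log u| + (b - a) with hK
  have hK0 : 0 ≤ K := by positivity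
  set ε := min (δ / 4) (min (u / 2 / (b - a + 1)) (τ / (4 * (n * K + 1)))) with hεd
  have hε : 0 < ε := lt_min (by positivity) (lt_min (by positivity) (by positivity))
  have ht1 : t ≤ 1 := min_le_left _ _
  have htδ : t ≤ δ / (2 * (n + 1)) := (min_le_right _ _).trans (min_le_left _ _)
  have htτ : t ≤ τ / (16 * (n + 1)) := (min_le_right _ _).trans (min_le_right _ _)
  rw [le_div_iff₀ (by positivity)] at htδ htτ
  have hρδ : ρ ≤ δ / 2 := min_le_left _ _
  have hρτ : ρ ≤ τ / (4 * (n + 1)) := min_le_right _ _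
  rw [le_div_iff₀ (by positivity)] at hρτ
  have hεδ : ε ≤ δ / 4 := min_le_left _ _
  have hεu : ε ≤ u / 2 / (b - a + 1) := (min_le_right _ _).trans (min_le_left _ _)
  have hετ : ε ≤ τ / (4 * (n * K + 1)) := (min_le_right _ _).trans (min_le_right _ _)
  rw [le_div_iff₀ (by positivity)] at hεu hετ
  have hsq : n * t ^ 2 ≤ n * t := mul_le_mul_of_nonneg_left (by nlinarith) hn
  have hflow := flow_le hγ hΨ hε hδ hAd hA' hab
  have hstart := start_bound (n := n) hγ hΨ (ρ := ρ) hε hδ ht ht1 (by linarith)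
    (posSemidef_conjTranspose_mul_self (A a)).nonneg (by exact ha)
  set G : Mat n := Matrix.of fun i j => ∫ x in a..b, Rmat (A x) i j with hG
  have hA : ∀ i j, Continuous fun x => A x i j := fun i j =>
    continuous_iff_continuousAt.2 fun x => (hAd i j x).continuousAt
  have hXpos : (G + (δ + ε * (b - a)) • (1 : Mat n)).PosDef := by
    refine posDef_of_le (r := δ + ε * (b - a)) (by positivity) ?_
    exact le_add_of_nonneg_left (gram_psd hA hab).nonneg
  have hXd : G + (δ + ε * (b - a)) • (1 : Mat n) ≤ diagonal fun i => ((d i + u : ℝ) : ℂ) := by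
    have hg : 0 ≤ diagonal (fun i => (d i : ℂ)) - G := hgram.nonneg
    have hsl : 0 ≤ u - (δ + ε * (b - a)) := by linarith
    rw [← sub_nonneg]
    refine (add_nonneg hg (smul_nonneg hsl (zero_le_one' (Mat n)))).trans_eq ?_
    ext i j
    by_cases hij : i = j
    · subst hij; simp; ring
    · simp [hij]
  have hend := end_bound (ρ := ρ) hγ hΨ hε hu0 huβ (by linarith)
    (fun i => by linarith [hd i] : ∀ i, 0 < d i + u)
    (posSemidef_conjTranspose_mul_self (A b)).nonneg (by exact hb') hXpos hXd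
  rw [← hr] at hend
  change -F u - _ - _ ≤ _ at hend
  rw [hF0] at hFu
  have hεsum : ε * n * |Real.log t| + ε * n * |Real.log u| + ε * n * (b - a) = ε * (n * K) := by
    rw [hK]; ring
  simp only [qTr, frobSq, Rmat] at hflow hstart hend ⊢
  linarith

end Vale.Agent.P371G
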