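import Vale.Agent.P371G.LowDefs
import Vale.Agent.P371G.Flow

/-! # Critical points and first order estimates for `gpot` -/

namespace Vale.Agent.P371G

open Matrix Filter Topology MeasureTheory
open scoped ComplexOrder MatrixOrder Matrix.Norms.L2Operator
open Vale.Agent.P371M

variable {m n : ℕ} {α ε : ℝ}

/-! ### Positive part and projection -/

theorem mpos_nonneg {X : Mat n} (hX : X.IsHermitian) : 0 ≤ mpos X :=
  fc_nonneg hX fun _ => le_max_right _ _

theorem mpos_sub_nonneg {X : Mat n} (hX : X.IsHermitian) : 0 ≤ mpos X - X := by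
  conv_rhs => enter [2]; rw [← fc_id hX]
  rw [mpos, fc_sub]
  exact fc_nonneg hX fun i => sub_nonneg.2 (le_max_left _ _)

theorem mpos_sub_mul {X : Mat n} (hX : X.IsHermitian) : (mpos X - X) * mpos X = 0 := by
  conv_lhs => enter [1, 2]; rw [← fc_id hX]
  rw [mpos, fc_sub, fc_mul, ← zero_smul ℝ (1 : Mat n), ← fc_const hX]
  refine fc_congr hX fun i => ?_
  rcases le_total (hX.eigenvalues i) 0 with h | h
  · simp [max_eq_right h]
  · simp [max_eq_left h]

/-- The projected gradient direction decreases the value to first order. -/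
theorem proj_ineq {A G : Mat n} (hA : 0 ≤ A) (hG : G.IsHermitian) :
    rtr (G * (mpos (A - G) - A)) ≤ -rtr ((mpos (A - G) - A) * (mpos (A - G) - A)) := by
  have hY : (A - G).IsHermitian := (herm_of_nonneg hA).sub hG
  set P := mpos (A - G) with hP
  have h1 := rtr_mul_nonneg (mpos_sub_nonneg hY) hA
  have h2 : rtr ((P - (A - G)) * P) = 0 := by rw [mpos_sub_mul hY, rtr_zero]
  have e : rtr (G * (P - A)) + rtr ((P - A) * (P - A))
      = rtr ((P - (A - G)) * P) - rtr ((P - (A - G)) * A) := by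
    rw [← rtr_add, ← rtr_sub, ← Matrix.add_mul, ← Matrix.mul_sub]
    congr 2
    abel
  linarith

theorem crit_of_proj {A G : Mat n} (hA : 0 ≤ A) (hG : G.IsHermitian)
    (h : mpos (A - G) = A) : 0 ≤ G ∧ G * A = 0 := by
  have hY : (A - G).IsHermitian := (herm_of_nonneg hA).sub hG
  have h1 := mpos_sub_nonneg hY
  have h2 := mpos_sub_mul hY
  rw [h, sub_sub_cancel] at h1 h2
  exact ⟨h1, h2⟩

/-! ### Square roots and the weighted family -/

theorem msqrt_herm (D : Mat n) : (msqrt D).IsHermitian := fc_herm _ _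

theorem msqrt_mul_self {D : Mat n} (hD : 0 ≤ D) : msqrt D * msqrt D = D := by
  have hDh := herm_of_nonneg hD
  conv_rhs => rw [← fc_id hDh]
  rw [msqrt, fc_mul]
  exact fc_congr hDh fun i => Real.mul_self_sqrt (hD.posSemidef.eigenvalues_nonneg i)

theorem wFam_gram (D : Mat n) (a : Matrix (Fin m) (Fin n) ℂ) :
    (a * msqrt D)ᴴ * (a * msqrt D) = wDen D a := by
  rw [Matrix.conjTranspose_mul, (msqrt_herm D).eq, wDen]
  simp only [Matrix.mul_assoc]

theorem wDen_nonneg (D : Mat n) (a : Matrix (Fin m) (Fin n) ℂ) : 0 ≤ wDen D a := by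
  rw [← wFam_gram]; exact (posSemidef_conjTranspose_mul_self _).nonneg

theorem wKin_eq {D : Mat n} (hD : 0 ≤ D) (a : Matrix (Fin m) (Fin n) ℂ) :
    wKin D a = rtr (wDen D a) := by
  rw [wDen, rtr_mul_comm, ← Matrix.mul_assoc, msqrt_mul_self hD, wKin]

/-- The derivative of the weighted density. -/
noncomputable def wDen' (D : Mat n) (a a' : Matrix (Fin m) (Fin n) ℂ) : Mat n :=
  msqrt D * (a'ᴴ * a + aᴴ * a') * msqrt D

theorem wDen'_eq (D : Mat n) (a a' : Matrix (Fin m) (Fin n) ℂ) :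
    wDen' D a a' = (a' * msqrt D)ᴴ * (a * msqrt D) + (a * msqrt D)ᴴ * (a' * msqrt D) := by
  simp only [wDen', Matrix.conjTranspose_mul, (msqrt_herm D).eq, Matrix.mul_add, Matrix.add_mul,
    Matrix.mul_assoc]

theorem wPow_eq {γ : ℝ} (D : Mat n) (a : Matrix (Fin m) (Fin n) ℂ) :
    wPow γ D a = rtr (fc (fun x => x ^ ((γ + 1 / 2) / (γ - 1 / 2))) (wDen D a)) := by
  have h := (wDen_nonneg D a).posSemidef.1
  rw [wPow, trPow_eq h, rtr_fc h]

/-! ### The gradient -/

theorem pen_conjT {A M : Mat n} (hA : A.IsHermitian) (hB : ((2 : ℝ) • M - A).PosDef) :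
    (((2 : ℝ) • M - A)⁻¹ * A)ᴴ = A * ((2 : ℝ) • M - A)⁻¹ := by
  rw [Matrix.conjTranspose_mul, hA.eq, hB.inv.1.eq]

theorem neg_one_le_penGrad {A M : Mat n} (hA : A.IsHermitian) (hB : ((2 : ℝ) • M - A).PosDef) :
    -1 ≤ penGrad A M := by
  rw [← sub_nonneg]
  have h := (posSemidef_conjTranspose_mul_self ((((2 : ℝ) • M - A)⁻¹ * A)ᴴ + 1)).nonneg
  refine h.trans_eq ?_
  rw [Matrix.conjTranspose_add, Matrix.conjTranspose_conjTranspose, Matrix.conjTranspose_one,
    pen_conjT hA hB, penGrad]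
  simp only [Matrix.add_mul, Matrix.mul_add, Matrix.one_mul, Matrix.mul_one, Matrix.mul_assoc]
  abel

theorem penGrad_herm {A M : Mat n} (hA : A.IsHermitian) (hB : ((2 : ℝ) • M - A).PosDef) :
    (penGrad A M).IsHermitian := by
  have h : penGrad A M = ((((2 : ℝ) • M - A)⁻¹ * A) + (((2 : ℝ) • M - A)⁻¹ * A)ᴴ)
      + (((2 : ℝ) • M - A)⁻¹ * A) * (((2 : ℝ) • M - A)⁻¹ * A)ᴴ := by
    rw [pen_conjT hA hB, penGrad]
    simp only [Matrix.mul_assoc]
  rw [h]
  exact (isHermitian_add_transpose_self _).add (isHermitian_mul_conjTranspose_self _)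

theorem ggrad_herm {R A M : Mat n} (hR : R.IsHermitian) (hA : A.IsHermitian)
    (hB : ((2 : ℝ) • M - A).PosDef) : (ggrad α ε R A M).IsHermitian :=
  (Rhat_herm.sub hR).sub (smul_herm (penGrad_herm hA hB) ε)

/-- Convexity of `pen` in `A` at fixed `M`. -/
theorem pen_gradient_le {A M V : Mat n} (hA : A.IsHermitian) (hV : V.IsHermitian)
    (hB : ((2 : ℝ) • M - A).PosDef) (hB' : ((2 : ℝ) • M - (A + V)).PosDef) :
    pen A M + rtr (V * penGrad A M) ≤ pen (A + V) M := by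
  set B := (2 : ℝ) • M - A with hBdef
  set B' := (2 : ℝ) • M - (A + V) with hB'def
  have hBV : B' = B - V := by rw [hBdef, hB'def]; abel
  set S := B'⁻¹ * (A + V) - B⁻¹ * A with hS
  have h0 : 0 ≤ rtr (Sᴴ * B' * S) :=
    rtr_nonneg (hB'.posSemidef.conjTranspose_mul_mul_same S).nonneg
  have eS : Sᴴ = (A + V) * B'⁻¹ - A * B⁻¹ := by
    rw [hS, Matrix.conjTranspose_sub, Matrix.conjTranspose_mul, Matrix.conjTranspose_mul,
      hB'.inv.1.eq, hB.inv.1.eq, hA.eq, (hA.add hV).eq]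
  have e1 : ((A + V) * B'⁻¹ - A * B⁻¹) * B' = (A + V) - A * B⁻¹ * B' := by
    rw [Matrix.sub_mul, Matrix.mul_assoc, posDef_inv_mul hB', Matrix.mul_one]
  have e2 : B' * (B'⁻¹ * (A + V)) = A + V := by
    rw [← Matrix.mul_assoc, posDef_mul_inv hB', Matrix.one_mul]
  have e3 : A * B⁻¹ * B' * (B'⁻¹ * (A + V)) = A * B⁻¹ * (A + V) := by
    rw [Matrix.mul_assoc, e2]
  have e4 : A * B⁻¹ * B' * (B⁻¹ * A) = A * B⁻¹ * A - A * B⁻¹ * V * B⁻¹ * A := by
    rw [hBV, Matrix.mul_sub, Matrix.sub_mul, Matrix.mul_assoc A B⁻¹ B, posDef_inv_mul hB,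
      Matrix.mul_one]
    simp only [Matrix.mul_assoc]
  rw [eS, e1, Matrix.sub_mul, Matrix.mul_sub, Matrix.mul_sub, e3, e4] at h0
  simp only [rtr_sub] at h0
  have c1 : rtr (A * B⁻¹ * (A + V)) = rtr (A * B⁻¹ * A) + rtr (V * (A * B⁻¹)) := by
    rw [Matrix.mul_add, rtr_add, rtr_mul_comm (A * B⁻¹) V]
  have c2 : rtr ((A + V) * (B⁻¹ * A)) = rtr (A * B⁻¹ * A) + rtr (V * (B⁻¹ * A)) := by
    rw [Matrix.add_mul, rtr_add, ← Matrix.mul_assoc A B⁻¹ A]
  have c3 : rtr (A * B⁻¹ * V * B⁻¹ * A) = rtr (V * (B⁻¹ * A * A * B⁻¹)) := by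
    rw [Matrix.mul_assoc (A * B⁻¹ * V) B⁻¹ A, Matrix.mul_assoc (A * B⁻¹) V, rtr_mul_comm,
      Matrix.mul_assoc]
    simp only [Matrix.mul_assoc]
  have c4 : rtr ((A + V) * (B'⁻¹ * (A + V))) = pen (A + V) M := by
    rw [← Matrix.mul_assoc, pen, ← hB'def]
  rw [c4, c1, c2, c3] at h0
  rw [pen, ← hBdef, penGrad, ← hBdef]
  simp only [Matrix.mul_add, rtr_add]
  linarith

/-! ### `Ψ` along a segment -/

/-- The mean value theorem for `Ψ`, valid up to singular `A`. -/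
theorem psi_segment (hα : α ∈ Set.Ioo (0 : ℝ) 1) {A M V : Mat n} (h0 : GDom A M)
    (h1 : GDom (A + V) M) (hV : V.IsHermitian) :
    ∃ s ∈ Set.Icc (0 : ℝ) 1, Psi α (A + V) M - Psi α A M = rtr (V * Rhat α (A + s • V) M) := by
  set B := (2 : ℝ) • M - A with hB
  obtain ⟨d0, hd0, hle0⟩ := exists_smul_one_le h0.2
  obtain ⟨d1, hd1, hle1⟩ := exists_smul_one_le h1.2
  set d := min d0 d1 with hd
  have hdp : 0 < d := lt_min hd0 hd1
  set η : ℕ → ℝ := fun k => d / (k + 2) with hη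
  have hη0 : ∀ k, 0 < η k := fun k => by positivity
  have hηd : ∀ k, η k < d := fun k => by
    rw [hη, div_lt_iff₀ (by positivity)]
    nlinarith [mul_nonneg hdp.le (Nat.cast_nonneg k : (0 : ℝ) ≤ k)]
  set As : ℕ → ℝ → Mat n := fun k s => A + η k • (1 : Mat n) + s • V with hAs
  have hpd : ∀ k, ∀ s ∈ Set.Icc (0 : ℝ) 1,
      (As k s).PosDef ∧ ((2 : ℝ) • M - As k s).PosDef := by
    intro k s hs
    have hs' : 0 ≤ 1 - s := by linarith [hs.2]
    constructor
    · refine posDef_of_le (hη0 k) ?_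
      rw [← sub_nonneg]
      refine (add_nonneg (smul_nonneg hs.1 h1.1) (smul_nonneg hs' h0.1)).trans_eq ?_
      simp only [hAs]; module
    · refine posDef_of_le (sub_pos.2 (hηd k)) ?_
      rw [← sub_nonneg]
      refine (add_nonneg (smul_nonneg hs.1 (sub_nonneg.2
        ((smul_one_mono (min_le_right d0 d1)).trans hle1)))
        (smul_nonneg hs' (sub_nonneg.2
        ((smul_one_mono (min_le_left d0 d1)).trans hle0)))).trans_eq ?_
      simp only [hAs, ← hd]; module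
  have hder : ∀ k, ∀ s ∈ Set.Icc (0 : ℝ) 1,
      HasDerivAt (fun u => Psi α (As k u) M) (rtr (V * Rhat α (As k s) M)) s := by
    intro k s hs
    have hd := (psiAPI hα).deriv (hpd k s hs).1 (hpd k s hs).2 hV
    rw [← sub_self s] at hd
    refine (hd.comp_sub_const s s).congr_of_eventuallyEq (Eventually.of_forall fun u => ?_)
    show Psi α (As k u) M = Psi α (As k s + (u - s) • V) M
    congr 1
    simp only [hAs]; module
  have hmvt : ∀ k, ∃ s ∈ Set.Icc (0 : ℝ) 1,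
      Psi α (As k 1) M - Psi α (As k 0) M = rtr (V * Rhat α (As k s) M) := by
    intro k
    obtain ⟨s, hs, hs'⟩ := exists_hasDerivAt_eq_slope (fun u => Psi α (As k u) M)
      (fun u => rtr (V * Rhat α (As k u) M)) zero_lt_one
      (fun u hu => (hder k u hu).continuousAt.continuousWithinAt)
      (fun u hu => hder k u (Set.Ioo_subset_Icc_self hu))
    exact ⟨s, Set.Ioo_subset_Icc_self hs, by rw [hs']; ring⟩
  choose σ hσ hσ' using hmvt
  obtain ⟨s₀, hs₀, φ, hφ, hlim⟩ := isCompact_Icc.tendsto_subseq hσ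
  have hηt : Tendsto (fun k => η (φ k)) atTop (𝓝 0) := by
    have h2 : Tendsto η atTop (𝓝 0) := tendsto_const_nhds.div_atTop
      (tendsto_atTop_add_const_right _ _ tendsto_natCast_atTop_atTop)
    exact h2.comp hφ.tendsto_atTop
  have hAt : ∀ {u : ℕ → ℝ} {u₀ : ℝ}, Tendsto u atTop (𝓝 u₀) →
      Tendsto (fun k => As (φ k) (u k)) atTop (𝓝 (A + u₀ • V)) := by
    intro u u₀ hu
    simpa [hAs] using ((hηt.smul_const (1 : Mat n)).const_add A).add (hu.smul_const V)
  have hadm : ∀ k, ∀ s ∈ Set.Icc (0 : ℝ) 1, Adm (As k s) M := fun k s hs =>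
    adm_of_dom (hpd k s hs).1 (hpd k s hs).2
  have hadm0 : ∀ s ∈ Set.Icc (0 : ℝ) 1, Adm (A + s • V) M := by
    intro s hs
    have hs' : 0 ≤ 1 - s := by linarith [hs.2]
    refine ⟨?_, ?_, (hadm 0 0 ⟨le_rfl, zero_le_one⟩).posDef⟩
    · refine (add_nonneg (smul_nonneg hs.1 h1.1) (smul_nonneg hs' h0.1)).trans_eq ?_
      module
    · rw [← sub_nonneg]
      refine (add_nonneg (smul_nonneg hs.1 h1.2.posSemidef.nonneg)
        (smul_nonneg hs' h0.2.posSemidef.nonneg)).trans_eq ?_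
      module
  have h11 : (1 : ℝ) ∈ Set.Icc (0 : ℝ) 1 := ⟨zero_le_one, le_rfl⟩
  have h00 : (0 : ℝ) ∈ Set.Icc (0 : ℝ) 1 := ⟨le_rfl, zero_le_one⟩
  have l1 := (psiAPI hα).contPsi (fun k => hadm (φ k) 1 h11) (hadm0 1 h11)
    (hAt tendsto_const_nhds) tendsto_const_nhds
  have l0 := (psiAPI hα).contPsi (fun k => hadm (φ k) 0 h00) (hadm0 0 h00)
    (hAt tendsto_const_nhds) tendsto_const_nhds
  have lR := (psiAPI hα).contR (fun k => hadm (φ k) _ (hσ (φ k))) (hadm0 s₀ hs₀)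
    (hAt hlim) tendsto_const_nhds
  have l2 := tendsto_rtr_mul (A := fun _ : ℕ => V) tendsto_const_nhds lR
  have := tendsto_nhds_unique ((l1.sub l0).congr fun k => hσ' (φ k)) l2
  rw [one_smul, zero_smul, add_zero] at this
  exact ⟨s₀, hs₀, this⟩

/-! ### Bounds on the gradient -/

/-- Uniform bound for the entries of `Rhat`. -/
noncomputable def rhatW (α K : ℝ) : ℝ :=
  (K0 α)⁻¹ * ∫ s in Set.Ioi (0 : ℝ), s ^ (α - 1) * wB K s

theorem Rhat_entry_le (hα : α ∈ Set.Ioo (0 : ℝ) 1) {A M : Mat n} (h : Adm A M) {K : ℝ}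
    (hK : 1 ≤ K) (hMK : M ≤ K • (1 : Mat n)) (i j : Fin n) :
    ‖Rhat α A M i j‖ ≤ rhatW α K := by
  rw [Rhat, Matrix.of_apply, norm_mul, Complex.norm_real, Real.norm_eq_abs,
    abs_of_nonneg (K0_inv_nonneg hα), rhatW]
  refine mul_le_mul_of_nonneg_left (norm_integral_le_of_norm_le (wB_integrable hα hK) ?_)
    (K0_inv_nonneg hα)
  filter_upwards [ae_restrict_mem measurableSet_Ioi] with s hs
  rw [norm_mul, Complex.norm_real, Real.norm_eq_abs,
    abs_of_nonneg (Real.rpow_nonneg (le_of_lt hs) _)]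
  exact mul_le_mul_of_nonneg_left (Lam_entry h hK hMK hs i j) (Real.rpow_nonneg (le_of_lt hs) _)

theorem Rhat_le (hα : α ∈ Set.Ioo (0 : ℝ) 1) {A M : Mat n} (h : Adm A M) {K : ℝ}
    (hK : 1 ≤ K) (hMK : M ≤ K • (1 : Mat n)) :
    Rhat α A M ≤ (n * |rhatW α K|) • (1 : Mat n) := by
  refine (le_sqrt_smul_one Rhat_herm).trans (smul_one_mono ?_)
  rw [Real.sqrt_le_iff]
  refine ⟨by positivity, ?_⟩
  have hle : rtr (Rhat α A M * Rhat α A M) ≤ ∑ _i : Fin n, ∑ _j : Fin n, |rhatW α K| ^ 2 := by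
    rw [rtr_mul_eq]
    refine Finset.sum_le_sum fun i _ => Finset.sum_le_sum fun j _ => ?_
    refine (Complex.re_le_norm _).trans ?_
    rw [norm_mul, sq]
    exact mul_le_mul ((Rhat_entry_le hα h hK hMK i j).trans (le_abs_self _))
      ((Rhat_entry_le hα h hK hMK j i).trans (le_abs_self _)) (norm_nonneg _) (abs_nonneg _)
  refine hle.trans_eq ?_
  simp only [Finset.sum_const, Finset.card_univ, Fintype.card_fin, nsmul_eq_mul]
  ring

theorem rpow_add_sub_le {q y e K : ℝ} (hq : 1 ≤ q) (hy : 0 ≤ y) (he : 0 ≤ e) (hK : y + e ≤ K) :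
    (y + e) ^ q ≤ y ^ q + q * K ^ (q - 1) * e := by
  rcases eq_or_lt_of_le (add_nonneg hy he) with h | h
  · rw [← h, Real.zero_rpow (by linarith)]
    have : 0 ≤ K := by linarith
    positivity
  have hb := one_add_mul_self_le_rpow_one_add (s := -e / (y + e))
    (by rw [le_div_iff₀ h]; linarith) hq
  have e1 : 1 + -e / (y + e) = y / (y + e) := by field_simp; ring
  rw [e1, Real.div_rpow hy h.le, le_div_iff₀ (Real.rpow_pos_of_pos h _)] at hb
  have e2 : (-e / (y + e)) * (y + e) ^ q = -e * (y + e) ^ (q - 1) := by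
    rw [Real.rpow_sub_one h.ne']; field_simp
  have e3 : (y + e) ^ (q - 1) ≤ K ^ (q - 1) := Real.rpow_le_rpow h.le hK (by linarith)
  have e4 := mul_le_mul_of_nonneg_left e3 (mul_nonneg (by linarith : 0 ≤ q) he)
  nlinarith

/-! ### The critical point inequality -/

theorem penGrad_Cm {A M : Mat n} (hA : A.IsHermitian) (hM : M.IsHermitian)
    (hB : ((2 : ℝ) • M - A).PosDef) :
    rtr (penGrad A M * Cm A M)
      = rtr ((((2 : ℝ) • M - A)⁻¹ * A) * ((2 : ℝ) • Cm A M + A * A)) := by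
  set B := (2 : ℝ) • M - A with hBdef
  have hMB : M = (1 / 2 : ℝ) • (A + B) := by rw [hBdef]; module
  have hC : Cm A M = (1 / 2 : ℝ) • (A * B + B * A) := by
    rw [Cm, hMB]
    simp only [Matrix.sub_mul, Matrix.mul_sub, Matrix.smul_mul, Matrix.mul_smul, Matrix.add_mul,
      Matrix.mul_add]
    module
  have hCh : (Cm A M).IsHermitian := by
    have hMM : (M * M).IsHermitian := by
      have := isHermitian_conjTranspose_mul_self M; rwa [hM.eq] at this
    have hNN : ((M - A) * (M - A)).IsHermitian := by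
      have := isHermitian_conjTranspose_mul_self (M - A); rwa [(hM.sub hA).eq] at this
    exact hMM.sub hNN
  have e1 : rtr (A * B⁻¹ * Cm A M) = rtr (B⁻¹ * A * Cm A M) := by
    have h1 : (B⁻¹ * A * Cm A M)ᴴ = Cm A M * (A * B⁻¹) := by
      rw [Matrix.conjTranspose_mul, pen_conjT hA hB, hCh.eq]
    rw [rtr_mul_comm (A * B⁻¹), ← h1, rtr, Matrix.trace_conjTranspose, RCLike.star_def,
      Complex.conj_re, rtr]
  have e2 : rtr (B⁻¹ * A * A * B⁻¹ * Cm A M) = rtr (B⁻¹ * A * (A * A)) := by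
    rw [hC, Matrix.mul_smul, rtr_smul, Matrix.mul_add, rtr_add]
    have a1 : rtr (B⁻¹ * A * A * B⁻¹ * (A * B)) = rtr (B⁻¹ * A * (A * A)) := by
      rw [← Matrix.mul_assoc, rtr_mul_comm _ B]
      simp only [← Matrix.mul_assoc]
      rw [posDef_mul_inv hB, Matrix.one_mul, Matrix.mul_assoc (A * A) B⁻¹ A, rtr_mul_comm]
      simp only [Matrix.mul_assoc]
    have a2 : rtr (B⁻¹ * A * A * B⁻¹ * (B * A)) = rtr (B⁻¹ * A * (A * A)) := by
      rw [Matrix.mul_assoc _ B⁻¹, ← Matrix.mul_assoc B⁻¹ B, posDef_inv_mul hB, Matrix.one_mul]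
      simp only [Matrix.mul_assoc]
    rw [a1, a2]; ring
  rw [penGrad, ← hBdef, Matrix.add_mul, Matrix.add_mul, rtr_add, rtr_add, e1, e2, Matrix.mul_add,
    rtr_add, Matrix.mul_smul, rtr_smul]
  ring

theorem abs_rtr_mul_le_sq {P H : Mat n} (hH : H.IsHermitian) {θ : ℝ} (hθ : 0 < θ) :
    |rtr (P * H)| ≤ (θ * rtr (Pᴴ * P) + rtr (H * H) / θ) / 2 := by
  have key : ∀ c : ℝ, 0 ≤ θ * rtr (Pᴴ * P) + c * (2 * rtr (P * H)) + c ^ 2 / θ * rtr (H * H) := by
    intro c
    have h := rtr_nonneg (posSemidef_conjTranspose_mul_self (θ • P + c • H)).nonneg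
    simp only [Matrix.conjTranspose_add, Matrix.conjTranspose_smul, star_trivial, hH.eq,
      Matrix.add_mul, Matrix.mul_add, Matrix.smul_mul, Matrix.mul_smul, rtr_add, rtr_smul] at h
    have e : rtr (Pᴴ * H) = rtr (P * H) := by
      rw [← hH.eq, ← Matrix.conjTranspose_mul, rtr, Matrix.trace_conjTranspose, RCLike.star_def,
        Complex.conj_re, hH.eq, rtr_mul_comm]
      rfl
    rw [e, rtr_mul_comm H P] at h
    have h' := mul_nonneg (inv_nonneg.2 hθ.le) h
    refine h'.trans_eq ?_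
    field_simp
    ring
  rw [abs_le]
  constructor
  · have h := key 1; rw [one_pow, one_div, ← div_eq_inv_mul] at h; linarith
  · have h := key (-1); rw [neg_one_sq, one_div, ← div_eq_inv_mul] at h; linarith

/-- At a critical point the drift is almost nonpositive. -/
theorem crit_bound {γ : ℝ} (hγ : γ ∈ Set.Ioo (1 / 2 : ℝ) 1) (hε : 0 < ε) (hε1 : ε ≤ 1)
    {R A M : Mat n} (hR : 0 ≤ R) (hd : GDom A M)
    (hG : 0 ≤ ggrad (γ - 1 / 2) ε R A M) (hGA : ggrad (γ - 1 / 2) ε R A M * A = 0)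
    {Kp Kh Kr : ℝ} (hKr0 : 0 ≤ Kr) (hKr : Rhat (γ - 1 / 2) A M ≤ Kr • (1 : Mat n))
    (hp : ε * rtr (A * ((2 : ℝ) • M - A)⁻¹ * ((2 : ℝ) • M - A)⁻¹ * A) ≤ Kp)
    (hh : rtr (((2 : ℝ) • Cm A M + A * A) * ((2 : ℝ) • Cm A M + A * A)) ≤ Kh) :
    rtr (fc (fun x => x ^ ((γ + 1 / 2) / (γ - 1 / 2))) R) - rtr (R * Cm A M)
      ≤ Real.sqrt ε * (Kp + Kh) / 2
        + n * ((γ + 1 / 2) / (γ - 1 / 2) * (Kr + 1) ^ ((γ + 1 / 2) / (γ - 1 / 2) - 1) * ε) := by
  set α := γ - 1 / 2 with hαd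
  have hα : α ∈ Set.Ioo (0 : ℝ) 1 := ⟨by linarith [hγ.1], by linarith [hγ.2]⟩
  have hqe : (γ + 1 / 2) / α = 1 + 1 / α := by
    rw [one_add_div hα.1.ne']; congr 1; rw [hαd]; ring
  rw [hqe]
  set q := 1 + 1 / α with hq
  have hq1 : 1 ≤ q := le_add_of_nonneg_right (one_div_nonneg.2 hα.1.le)
  have hA := hd.1
  have hAh := herm_of_nonneg hA
  have hB := hd.2
  set B := (2 : ℝ) • M - A with hBdef
  have hMB : M = (1 / 2 : ℝ) • (A + B) := by rw [hBdef]; module
  have hMh : M.IsHermitian := by rw [hMB]; exact smul_herm (hAh.add hB.1) _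
  have hMp : M.PosDef := by
    rw [hMB]
    exact (PosDef.posSemidef_add hA.posSemidef hB).smul (by norm_num)
  have hadm : Adm A M := ⟨hA, sub_nonneg.1 hB.posSemidef.nonneg, hMp⟩
  set G := ggrad α ε R A M with hGdef
  have hAG : A * G = 0 := by
    have := congrArg Matrix.conjTranspose hGA
    rwa [Matrix.conjTranspose_mul, hAh.eq, (herm_of_nonneg hG).eq, Matrix.conjTranspose_zero]
      at this
  set Rh := Rhat α A M with hRh
  have hRhh : Rh.IsHermitian := Rhat_herm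
  have hRle : R ≤ fc (fun x => max x 0 + ε) Rh := by
    have h1 : R ≤ Rh + ε • (1 : Mat n) := by
      rw [← sub_nonneg]
      refine (add_nonneg hG (smul_nonneg hε.le
        (sub_nonneg.2 (neg_one_le_penGrad hAh hB)))).trans_eq ?_
      rw [hGdef, ggrad]; module
    refine h1.trans ?_
    conv_lhs => rw [← fc_id hRhh, ← fc_const hRhh ε, fc_add]
    exact fc_mono hRhh fun i => by linarith [le_max_left (hRhh.eigenvalues i) 0]
  have hmono := rtr_fc_mono_convex (herm_of_nonneg hR) (fc_herm _ _) hRle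
    (convexOn_rpow hq1) (fun x hx y _ hxy =>
      Real.rpow_le_rpow hx hxy (le_trans zero_le_one hq1)) hR
  have hsum : rtr (fc (fun x => x ^ q) (fc (fun x => max x 0 + ε) Rh))
      ≤ rtr (fc (fun x => max x 0 ^ q) Rh) + n * (q * (Kr + 1) ^ (q - 1) * ε) := by
    rw [fc_comp hRhh, rtr_fc hRhh, rtr_fc hRhh]
    refine (Finset.sum_le_sum fun i _ => rpow_add_sub_le (K := Kr + 1) hq1 (le_max_right _ _)
      hε.le ?_).trans_eq ?_
    · have := max_le (eig_le hRhh hKr i) hKr0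
      linarith
    · simp [Finset.sum_add_distrib]
  have hkey : rtr (fc (fun x => max x 0 ^ q) Rh) ≤ rtr (Rh * Cm A M) :=
    key_inequality_pos hα hadm
  have hGC : rtr (G * Cm A M) = 0 := by
    have e : Cm A M = M * A + A * M - A * A := by
      rw [Cm]; simp only [Matrix.mul_sub, Matrix.sub_mul]; abel
    rw [e, Matrix.mul_sub, Matrix.mul_add, rtr_sub, rtr_add]
    have e1 : rtr (G * (M * A)) = 0 := by
      rw [← Matrix.mul_assoc, rtr_mul_comm, ← Matrix.mul_assoc, hAG, Matrix.zero_mul, rtr_zero]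
    have e2 : rtr (G * (A * M)) = 0 := by
      rw [← Matrix.mul_assoc, hGA, Matrix.zero_mul, rtr_zero]
    have e3 : rtr (G * (A * A)) = 0 := by
      rw [← Matrix.mul_assoc, hGA, Matrix.zero_mul, rtr_zero]
    rw [e1, e2, e3]; ring
  have hRC : rtr (R * Cm A M) = rtr (Rh * Cm A M) - ε * rtr (penGrad A M * Cm A M) := by
    have e : R = Rh - ε • penGrad A M - G := by rw [hGdef, ggrad]; abel
    conv_lhs => rw [e, Matrix.sub_mul, Matrix.sub_mul, rtr_sub, rtr_sub, Matrix.smul_mul, rtr_smul]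
    rw [hGC, sub_zero]
  have hCh : (Cm A M).IsHermitian := by
    have hMM : (M * M).IsHermitian := by
      have := isHermitian_conjTranspose_mul_self M; rwa [hMh.eq] at this
    have hNN : ((M - A) * (M - A)).IsHermitian := by
      have := isHermitian_conjTranspose_mul_self (M - A); rwa [(hMh.sub hAh).eq] at this
    exact hMM.sub hNN
  have hAA : (A * A).IsHermitian := by
    have := isHermitian_conjTranspose_mul_self A; rwa [hAh.eq] at this
  have hs : 0 < Real.sqrt ε := Real.sqrt_pos.2 hε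
  have habs := abs_rtr_mul_le_sq (P := B⁻¹ * A) ((smul_herm hCh 2).add hAA) hs
  rw [← penGrad_Cm hAh hMh hB, pen_conjT hAh hB] at habs
  rw [show rtr (A * B⁻¹ * (B⁻¹ * A)) = rtr (A * B⁻¹ * B⁻¹ * A) by rw [← Matrix.mul_assoc]] at habs
  have h5 : ε * |rtr (penGrad A M * Cm A M)| ≤ Real.sqrt ε * (Kp + Kh) / 2 := by
    have hm := mul_le_mul_of_nonneg_left habs hε.le
    have hse : Real.sqrt ε * Real.sqrt ε = ε := Real.mul_self_sqrt hε.le
    refine hm.trans ?_
    set u := rtr (A * B⁻¹ * B⁻¹ * A)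
    set v := rtr (((2 : ℝ) • Cm A M + A * A) * ((2 : ℝ) • Cm A M + A * A))
    have e1 : ε * ((Real.sqrt ε * u + v / Real.sqrt ε) / 2)
        = Real.sqrt ε * (ε * u + v) / 2 := by
      field_simp
      rw [sq, hse]
    rw [e1]
    gcongr
  have h6 := mul_le_mul_of_nonneg_left (le_abs_self (rtr (penGrad A M * Cm A M))) hε.le
  linarith

/-- The drift is controlled by `R^q - R C`. -/
theorem drift_le {γ : ℝ} {D : Mat n} (hD : 0 ≤ D) (a a' : Matrix (Fin m) (Fin n) ℂ) {A M : Mat n}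
    (hN : (M - A).IsHermitian) :
    rtr (wDen' D a a' * (M - A)) - rtr (M * M * wDen D a) - wKin D a' + wPow γ D a
      ≤ rtr (fc (fun x => x ^ ((γ + 1 / 2) / (γ - 1 / 2))) (wDen D a))
        - rtr (wDen D a * Cm A M) := by
  have hc := cross_le (a * msqrt D) (a' * msqrt D) hN
  rw [← wDen'_eq, wFam_gram, wFam_gram] at hc
  have hT : (trace (wDen D a')).re = wKin D a' := by rw [wKin_eq hD]; rfl
  rw [hT] at hc
  rw [wPow_eq]
  have e : rtr (wDen D a * Cm A M)
      = rtr (M * M * wDen D a) - rtr (wDen D a * ((M - A) * (M - A))) := by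
    rw [Cm, Matrix.mul_sub, rtr_sub, rtr_mul_comm (wDen D a) (M * M)]
  linarith

end Vale.Agent.P371G
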