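import Mathlib
import Vale.Agent.P371M.Defs

/-! # Shared definitions for the sharp bound `L_γ(m) = L^{(1)}_γ`, `1 < γ < 3/2`.

`q` is the exponent conjugate to `p = γ + 1/2`, i.e. `q = (γ + 1/2) / (γ - 1/2)`. -/

namespace Vale.Agent.P371G

open MeasureTheory Matrix
open scoped ComplexOrder
open Vale.Agent.P371M

/-- The one-bound-state constant `2 ((γ-1/2)/(γ+1/2))^(γ-1/2) L^cl_γ`. -/
noncomputable def LOne (γ : ℝ) : ℝ :=
  2 * ((γ - 1 / 2) / (γ + 1 / 2)) ^ (γ - 1 / 2) *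
    (Real.Gamma (γ + 1) / (2 * Real.sqrt Real.pi * Real.Gamma (γ + 3 / 2)))

/-- `β₀(γ) = ∫₀¹ (θ(1-θ))^(γ-1/2) dθ`. -/
noncomputable def beta0 (γ : ℝ) : ℝ := ∫ θ in (0 : ℝ)..1, (θ * (1 - θ)) ^ (γ - 1 / 2)

/-- `c₀(γ) = sup_a (a²/4 - β₀ a^(2γ))`, the constant of the kinetic inequality. -/
noncomputable def kinConst (γ : ℝ) : ℝ :=
  1 / 4 * (1 - 1 / γ) * (1 / (4 * γ * beta0 γ)) ^ (1 / (γ - 1))

/-- The kinetic inequality on intervals, for continuously differentiable families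
`A : ℝ → Matrix m n` with small boundary values and with Gram matrix below `diagonal d`:
`∫ tr (A*A)^q ≤ ∫ ‖A'‖² + c₀ ∑ dᵢ^(γ/(γ-1))` up to an arbitrarily small error. -/
def KineticInterval (γ : ℝ) : Prop :=
  ∀ (n : ℕ) (d : Fin n → ℝ), (∀ i, 0 < d i) → ∀ τ > (0 : ℝ), ∃ ρ > (0 : ℝ),
    ∀ (m : ℕ) (A A' : ℝ → Matrix (Fin m) (Fin n) ℂ),
      (∀ i j x, HasDerivAt (fun u => A u i j) (A' x i j) x) →
      (∀ i j, Continuous fun u => A' u i j) →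
      ∀ a b : ℝ, a ≤ b →
      (Matrix.trace ((A a)ᴴ * A a)).re ≤ ρ → (Matrix.trace ((A b)ᴴ * A b)).re ≤ ρ →
      (Matrix.diagonal (fun i => (d i : ℂ))
        - Matrix.of fun i j => ∫ x in a..b, ((A x)ᴴ * A x) i j).PosSemidef →
      (∫ x in a..b, trPow ((γ + 1 / 2) / (γ - 1 / 2)) ((A x)ᴴ * A x))
        ≤ (∫ x in a..b, (Matrix.trace ((A' x)ᴴ * A' x)).re)
          + kinConst γ * (∑ i, d i ^ (γ / (γ - 1))) + τ

end Vale.Agent.P371G
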