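import Vale.Agent.P371G.MinimaxBounds

/-! # The minimax argument: maximisers, saddles, the saddle inequality, slope and continuity -/

namespace Vale.Agent.P371G

open Matrix Filter Topology
open scoped ComplexOrder MatrixOrder Matrix.Norms.L2Operator

variable {n : ℕ} {α ε : ℝ}

theorem Dom.posDef {A M : Mat n} (h : Dom A M) : M.PosDef := by
  have := (h.2.add h.1).smul (show (0:ℝ) < 1 / 2 by norm_num)
  convert this using 1
  module

theorem Dom.adm {A M : Mat n} (h : Dom A M) : Adm A M :=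
  ⟨h.1.posSemidef.nonneg, sub_nonneg.1 h.2.posSemidef.nonneg, h.posDef⟩

theorem dom_self {A : Mat n} (hA : A.PosDef) : Dom A A :=
  ⟨hA, by convert hA using 1; module⟩

theorem dom_half {A : Mat n} (hA : A.PosDef) : Dom A ((1 / 2 : ℝ) • (A + 1)) :=
  ⟨hA, by convert (PosDef.one : (1 : Mat n).PosDef) using 1; module⟩

theorem fpot_tendsto (hΨ : PsiAPI α) (ε : ℝ) {R Xp A M : ℕ → Mat n} {R₀ X₀ A₀ M₀ : Mat n}
    (hd : ∀ᶠ k in atTop, Dom (A k) (M k)) (hd₀ : Dom A₀ M₀) (hR : Tendsto R atTop (𝓝 R₀))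
    (hX : Tendsto Xp atTop (𝓝 X₀)) (hA : Tendsto A atTop (𝓝 A₀))
    (hM : Tendsto M atTop (𝓝 M₀)) :
    Tendsto (fun k => fpot α ε (R k) (Xp k) (A k) (M k)) atTop
      (𝓝 (fpot α ε R₀ X₀ A₀ M₀)) := by
  have hP : Tendsto (fun k => Psi α (A k) (M k)) atTop (𝓝 (Psi α A₀ M₀)) := by
    obtain ⟨N, hN⟩ := eventually_atTop.1 hd
    rw [← tendsto_add_atTop_iff_nat N]
    exact hΨ.contPsi (fun k => (hN _ (Nat.le_add_left N k)).adm) hd₀.adm
      ((tendsto_add_atTop_iff_nat N).2 hA) ((tendsto_add_atTop_iff_nat N).2 hM)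
  exact ((((tendsto_rtr_mul hR (hM.sub hA)).sub (tendsto_rtr_mul (hM.mul hM) hX)).add hP).add
    (((lndet_tendsto hd₀.2 (hd.mono fun k h => h.2) ((hM.const_smul (2:ℝ)).sub hA)).sub
      (lndet_tendsto hd₀.1 (hd.mono fun k h => h.1) hA)).const_mul ε))

theorem fpot_sub (R₁ X₁ R₂ X₂ A M : Mat n) :
    fpot α ε R₂ X₂ A M - fpot α ε R₁ X₁ A M
      = rtr ((R₂ - R₁) * (M - A)) - rtr (M * M * (X₂ - X₁)) := by
  simp only [fpot, Matrix.sub_mul, Matrix.mul_sub, rtr_sub]
  ring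

section bounds

variable (hα : α ∈ Set.Ioo (1 / 2 : ℝ) 1) (hΨ : PsiAPI α) (hε : 0 < ε)

theorem dom_le_smul {A M : Mat n} (h : Dom A M) {t : ℝ}
    (ht : Real.sqrt (rtr (M * M)) ≤ t) : M - A ≤ t • (1 : Mat n) ∧ rtr M ≤ n * t := by
  have hMt : M ≤ t • (1 : Mat n) := (le_sqrt_smul_one h.posDef.1).trans (by
    rw [← sub_nonneg, ← sub_smul]; exact smul_nonneg (by linarith) zero_le_one)
  refine ⟨(sub_le_self M h.1.posSemidef.nonneg).trans hMt, ?_⟩
  have := rtr_mono hMt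
  rwa [rtr_smul, rtr_one, mul_comm] at this

include hα hΨ in
/-- The potential is at most linear in the size of `M`. -/
theorem psi_le {A M : Mat n} (h : Dom A M) {t : ℝ} (ht0 : 0 < t)
    (ht : Real.sqrt (rtr (M * M)) ≤ t) :
    Psi α A M ≤ rtr A * (n + 2 * rtr A * t * n) := by
  have hM := h.posDef
  have hs := Real.sqrt_nonneg (rtr (M * M))
  have hMt : M ≤ t • (1 : Mat n) := (le_sqrt_smul_one hM.1).trans (by
    rw [← sub_nonneg, ← sub_smul]; exact smul_nonneg (by linarith) zero_le_one)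
  have hsq : M * M ≤ (t * t) • (1 : Mat n) := sq_le_smul_one hM.1 (by
    nlinarith [Real.sq_sqrt (rtr_sq_nonneg hM.1)])
  have hA := h.1
  have hA2 : A ≤ (2 * t) • (1 : Mat n) := h.adm.le_two.trans (by
    rw [mul_smul]
    exact smul_le_smul_of_nonneg_left hMt (by norm_num))
  have hpd : (t • (1 : Mat n)).PosDef := PosDef.one.smul ht0
  have hadm : Adm A (t • (1 : Mat n)) :=
    ⟨hA.posSemidef.nonneg, by rwa [smul_smul], hpd⟩
  have hmid := hΨ.midpoint hA hadm h.adm h.adm (by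
    rw [← two_smul ℝ (M * M)]
    refine smul_le_smul_of_nonneg_left ?_ (by norm_num)
    rwa [Matrix.smul_mul, Matrix.mul_smul, Matrix.one_mul, smul_smul])
  have hcomm := hΨ.comm hA.1 (fun _ => t) hA.posSemidef.nonneg (fun _ => ht0)
    fun i => eig_le hA.1 hA2 i
  rw [fc_const hA.1] at hcomm
  have hb : ∀ i, hA.1.eigenvalues i ≤ rtr A := fun i => by
    rw [rtr_eq_sum_eig hA.1]
    exact Finset.single_le_sum (fun j _ => (hA.eigenvalues_pos j).le) (Finset.mem_univ i)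
  have hsum : (∑ i, gval α (hA.1.eigenvalues i) t) ≤ rtr A * (n + 2 * rtr A * t * n) := by
    refine (Finset.sum_le_sum fun i _ => ?_).trans_eq
      (show (∑ _i : Fin n, rtr A * (1 + 2 * rtr A * t)) = _ by simp; ring)
    have hp := (hA.eigenvalues_pos i).le
    refine (gval_le_lin hα hp (eig_le hA.1 hA2 i)).trans
      (mul_le_mul (hb i) ?_ (by positivity) (hp.trans (hb i)))
    nlinarith [hb i]
  linarith

theorem lndet_diff_le {A M : Mat n} (h : Dom A M) {t : ℝ} (ht : Real.sqrt (rtr (M * M)) ≤ t) :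
    lndet ((2 : ℝ) • M - A) ≤ 2 * n * t ∧ rtr ((2 : ℝ) • M - A) ≤ 2 * n * t := by
  have h5 := (dom_le_smul h ht).2
  have hb : rtr ((2 : ℝ) • M - A) ≤ 2 * n * t := by
    rw [rtr_sub, rtr_smul]; linarith [rtr_nonneg h.1.posSemidef.nonneg]
  exact ⟨(lndet_le_rtr h.2).trans (by linarith [(Nat.cast_nonneg n : (0:ℝ) ≤ n)]), hb⟩

theorem rtr_R_le {R A M : Mat n} (hR : 0 ≤ R) (h : Dom A M) {t : ℝ}
    (ht : Real.sqrt (rtr (M * M)) ≤ t) : rtr (R * (M - A)) ≤ rtr R * t := by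
  have := rtr_mul_le_left hR (dom_le_smul h ht).1
  rwa [Matrix.mul_smul, Matrix.mul_one, rtr_smul, mul_comm t] at this

theorem sq_nonneg_herm {M : Mat n} (hM : M.IsHermitian) : 0 ≤ M * M := by
  have := (posSemidef_conjTranspose_mul_self M).nonneg
  rwa [hM.eq] at this

include hα hΨ hε in
/-- The objective is bounded by a concave quadratic in the size of `M`. -/
theorem fpot_le_quad {R Xp A M : Mat n} (hR : 0 ≤ R) {δ : ℝ} (hδ : δ • (1 : Mat n) ≤ Xp)
    (h : Dom A M) {t : ℝ} (ht0 : 0 < t) (ht : Real.sqrt (rtr (M * M)) ≤ t) :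
    fpot α ε R Xp A M + δ * rtr (M * M) + ε * lndet A
      ≤ rtr R * t + rtr A * (n + 2 * rtr A * t * n) + ε * (2 * n * t) := by
  have h1 := rtr_R_le hR h ht
  have h2 := rtr_mul_le_left (sq_nonneg_herm h.posDef.1) hδ
  rw [Matrix.mul_smul, Matrix.mul_one, rtr_smul] at h2
  have h3 := mul_le_mul_of_nonneg_left (lndet_diff_le h ht).1 hε.le
  have h4 := psi_le hα hΨ h ht0 ht
  simp only [fpot]
  linarith

include hα hΨ in
/-- Lower bound from the trial point `M = A`. -/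
theorem fpot_self_ge (K : ℝ) : ∃ C, ∀ {R Xp A : Mat n}, rtr Xp ≤ K → 0 ≤ Xp → A.PosDef →
    rtr (A * A) - C ≤ fpot α ε R Xp A A := by
  obtain ⟨C, hC⟩ := coercive hα K
  refine ⟨n * C, fun {R Xp A} hK hX hA => ?_⟩
  have hc := hΨ.comm hA.1 (fun x => x) hA.posSemidef.nonneg hA.eigenvalues_pos
    fun i => by linarith [hA.eigenvalues_pos i]
  rw [fc_id hA.1] at hc
  have hXK : Xp ≤ K • (1 : Mat n) := le_smul_one_of_eig hX.posSemidef.1 fun i => by
    refine le_trans ?_ hK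
    rw [rtr_eq_sum_eig hX.posSemidef.1]
    exact Finset.single_le_sum (fun j _ => hX.posSemidef.eigenvalues_nonneg j) (Finset.mem_univ i)
  have hAA : 0 ≤ A * A := by simpa [hA.1.eq] using (posSemidef_conjTranspose_mul_self A).nonneg
  have h2 := rtr_mul_le_left hAA hXK
  rw [Matrix.mul_smul, Matrix.mul_one, rtr_smul] at h2
  rw [fpot, sub_self, Matrix.mul_zero, rtr_zero, hc, show (2:ℝ) • A - A = A by module, sub_self,
    mul_zero, add_zero, zero_sub]
  rw [rtr_sq_eq hA.1] at h2 ⊢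
  calc (∑ i, hA.1.eigenvalues i ^ 2) - (n:ℝ) * C
      = ∑ i, (hA.1.eigenvalues i ^ 2 - C) := by simp
    _ ≤ ∑ i, (hA.1.eigenvalues i ^ (2 * α + 1) / 2 - K * hA.1.eigenvalues i ^ 2) :=
        Finset.sum_le_sum fun i _ => hC _ (hA.eigenvalues_pos i)
    _ ≤ ∑ i, gval α (hA.1.eigenvalues i) (hA.1.eigenvalues i)
          - K * ∑ i, hA.1.eigenvalues i ^ 2 := by
        rw [Finset.sum_sub_distrib, ← Finset.mul_sum]
        gcongr with i
        exact gval_diag_ge hα (hA.eigenvalues_pos i)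
    _ ≤ _ := by linarith

include hΨ in
/-- Lower bound from the trial point `2M = A + 1`. -/
theorem fpot_half_ge {R Xp A : Mat n} (hR : 0 ≤ R) (hX : 0 ≤ Xp) (hA : A.PosDef) :
    -(rtr R * (Real.sqrt (rtr (A * A)) + 1)) - rtr Xp * (Real.sqrt (rtr (A * A)) + 1) ^ 2
        - ε * lndet A
      ≤ fpot α ε R Xp A ((1 / 2 : ℝ) • (A + 1)) := by
  set s := Real.sqrt (rtr (A * A)) + 1 with hs
  have hs0 : 0 < s := by positivity
  have hd := dom_half hA
  set M := (1 / 2 : ℝ) • (A + 1) with hM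
  have e : fc (fun x => 1 / 2 * (x + 1)) A = M := by
    rw [hM, ← fc_smul, ← fc_add, fc_id hA.1, fc_one hA.1]
  have hc := hΨ.comm hA.1 (fun x => 1 / 2 * (x + 1)) hA.posSemidef.nonneg
    (fun i => by linarith [hA.eigenvalues_pos i]) fun i => by linarith
  rw [e] at hc
  have hΨ0 : 0 ≤ Psi α A M := by
    rw [hc]
    exact Finset.sum_nonneg fun i _ => gval_nonneg (hA.eigenvalues_pos i).le (by linarith)
  have hle : A ≤ s • (1 : Mat n) := (le_sqrt_smul_one hA.1).trans (by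
    rw [← sub_nonneg, ← sub_smul]; exact smul_nonneg (by linarith) zero_le_one)
  have hMA : (-s) • (1 : Mat n) ≤ M - A := by
    rw [← sub_nonneg]
    refine (add_nonneg (smul_nonneg (show (0:ℝ) ≤ 1 / 2 by norm_num) (sub_nonneg.2 hle))
      (smul_nonneg (show (0:ℝ) ≤ (s + 1) / 2 by linarith) (zero_le_one (α := Mat n)))).trans_eq ?_
    rw [hM]; module
  have h1 := rtr_mul_le_left hR hMA
  rw [Matrix.mul_smul, Matrix.mul_one, rtr_smul] at h1
  have hM2 : M * M ≤ (s * s) • (1 : Mat n) := by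
    rw [← e, fc_mul, ← fc_const hA.1 (s * s)]
    refine fc_mono hA.1 fun i => ?_
    have h4 := (le_abs_self _).trans (abs_eig_le_sqrt hA.1 i)
    have h5 := hA.eigenvalues_pos i
    nlinarith [Real.sqrt_nonneg (rtr (A * A))]
  have h2 := rtr_mul_le_left hX hM2
  rw [Matrix.mul_smul Xp (s * s) (1 : Mat n), Matrix.mul_one, rtr_smul, rtr_mul_comm] at h2
  rw [fpot, show (2:ℝ) • M - A = 1 by rw [hM]; module, lndet_one]
  nlinarith

include hα hΨ hε

/-- Compactness of superlevel sets in `M`, along converging data. -/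
theorem subseq_M {R Xp A M : ℕ → Mat n} {R₀ X₀ A₀ : Mat n} (hR0 : ∀ᶠ k in atTop, 0 ≤ R k)
    (hR : Tendsto R atTop (𝓝 R₀)) (hXh : ∀ k, (Xp k).IsHermitian)
    (hX : Tendsto Xp atTop (𝓝 X₀)) (hX₀ : X₀.PosDef) (hA : Tendsto A atTop (𝓝 A₀))
    (hA₀ : A₀.PosDef) (hd : ∀ᶠ k in atTop, Dom (A k) (M k)) {c : ℝ}
    (hc : ∀ᶠ k in atTop, c ≤ fpot α ε (R k) (Xp k) (A k) (M k)) :
    ∃ M₀ : Mat n, ∃ φ : ℕ → ℕ, Dom A₀ M₀ ∧ StrictMono φ ∧ Tendsto (M ∘ φ) atTop (𝓝 M₀) := by
  obtain ⟨δ, hδ, hδev⟩ := eventually_smul_one_le hX₀ hXh hX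
  have e1 := ((rtr_continuous.tendsto _).comp hR).eventually (eventually_le_nhds (lt_add_one _))
  have e2 := ((rtr_continuous.tendsto _).comp hA).eventually (eventually_le_nhds (lt_add_one _))
  have e3 := (lndet_tendsto hA₀ (hd.mono fun k h => h.1) hA).eventually
    (eventually_ge_nhds (sub_one_lt _))
  set a := rtr A₀ + 1
  set r := rtr R₀ + 1
  set l := lndet A₀ - 1
  set P := max (r + a * (2 * a * n) + ε * (2 * n)) 0 with hP
  set Q := max (r + a * (n + 2 * a * n) + ε * (2 * n) - c - ε * l) 0 with hQ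
  set T := (P + Q + δ) / δ + 1 with hT
  have key : ∀ᶠ k in atTop, ((2:ℝ) • M k - A k).PosDef ∧
      rtr ((2:ℝ) • M k - A k) ≤ 2 * n * T ∧
      (c + ε * l - r * T - a * (n + 2 * a * T * n)) / ε ≤ lndet ((2:ℝ) • M k - A k) := by
    filter_upwards [hd, hR0, hδev, e1, e2, e3, hc] with k hd hR0 hδk (e1 : rtr (R k) ≤ r)
      (e2 : rtr (A k) ≤ a) e3 hc
    have hM := hd.posDef
    set s := Real.sqrt (rtr (M k * M k)) with hs
    have hs0 : 0 ≤ s := Real.sqrt_nonneg _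
    have hAn := rtr_nonneg hd.1.posSemidef.nonneg
    have hn : (0:ℝ) ≤ n := Nat.cast_nonneg n
    have hl := mul_le_mul_of_nonneg_left e3 hε.le
    have hmono : ∀ u, 0 ≤ u →
        rtr (A k) * (n + 2 * rtr (A k) * u * n) ≤ a * (n + 2 * a * u * n) := fun u hu =>
      mul_le_mul e2 (by gcongr) (by positivity) (hAn.trans e2)
    have hq := fpot_le_quad hα hΨ hε hR0 hδk hd (t := s + 1) (by linarith) (by linarith)
    rw [show rtr (M k * M k) = s ^ 2 from (Real.sq_sqrt (rtr_sq_nonneg hM.1)).symm] at hq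
    have hb1 : rtr (R k) * (s + 1) ≤ r * (s + 1) := mul_le_mul_of_nonneg_right e1 (by linarith)
    have hb2 := hmono (s + 1) (by linarith)
    have hsT : s + 1 ≤ T := by
      have hP0 : 0 ≤ P := le_max_right _ _
      have hQ0 : 0 ≤ Q := le_max_right _ _
      have hP1 := mul_le_mul_of_nonneg_right
        (le_max_left (r + a * (2 * a * n) + ε * (2 * n)) 0) hs0
      have hQ1 := le_max_left (r + a * (n + 2 * a * n) + ε * (2 * n) - c - ε * l) 0
      rw [← hP] at hP1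
      rw [← hQ] at hQ1
      have hquad : δ * s ^ 2 ≤ P * s + Q := by linarith
      by_contra hlt
      push Not at hlt
      have h5 : P + Q + δ = (T - 1) * δ := by rw [hT]; field_simp; ring
      have h6 : P + Q + δ ≤ s * δ := h5.trans_le (mul_le_mul_of_nonneg_right (by linarith) hδ.le)
      have h7 : 1 ≤ s := by
        rw [hT] at hlt
        linarith [div_nonneg (add_nonneg (add_nonneg hP0 hQ0) hδ.le) hδ.le,
          (one_le_div hδ).2 (show δ ≤ P + Q + δ by linarith)]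
      nlinarith [mul_le_mul_of_nonneg_left h7 hQ0]
    have hTs : Real.sqrt (rtr (M k * M k)) ≤ T := by rw [← hs]; linarith
    have hT0 : 0 < T := by linarith
    refine ⟨hd.2, (lndet_diff_le hd hTs).2, ?_⟩
    rw [div_le_iff₀ hε]
    have h1 := (rtr_R_le hR0 hd hTs).trans (mul_le_mul_of_nonneg_right e1 hT0.le)
    have h2 : 0 ≤ rtr (M k * M k * Xp k) := rtr_mul_nonneg (sq_nonneg_herm hM.1)
      ((smul_nonneg hδ.le zero_le_one).trans hδk)
    have h3 := (psi_le hα hΨ hd hT0 hTs).trans (hmono T hT0.le)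
    simp only [fpot] at hc
    linarith
  obtain ⟨B, φ, hB, hφ, hlim⟩ := exists_subseq_posDef key
  refine ⟨(1 / 2 : ℝ) • (B + A₀), φ, ⟨hA₀, by convert hB using 1; module⟩, hφ, ?_⟩
  have := (hlim.add (hA.comp hφ.tendsto_atTop)).const_smul (1 / 2 : ℝ)
  convert this using 2 with k
  simp only [Function.comp_apply]
  module

/-- Compactness of sublevel sets in `A`, along converging data. -/
theorem subseq_A {R Xp A M : ℕ → Mat n} {R₀ X₀ : Mat n} (hR0 : ∀ᶠ k in atTop, 0 ≤ R k)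
    (hR : Tendsto R atTop (𝓝 R₀)) (hXh : ∀ᶠ k in atTop, (Xp k).PosDef)
    (hX : Tendsto Xp atTop (𝓝 X₀))
    (hm : ∀ᶠ k in atTop, IsMaxAt α ε (R k) (Xp k) (A k) (M k)) {c : ℝ}
    (hc : ∀ᶠ k in atTop, fpot α ε (R k) (Xp k) (A k) (M k) ≤ c) :
    ∃ A₀ : Mat n, ∃ φ : ℕ → ℕ, A₀.PosDef ∧ StrictMono φ ∧ Tendsto (A ∘ φ) atTop (𝓝 A₀) := by
  have e1 := ((rtr_continuous.tendsto _).comp hR).eventually (eventually_le_nhds (lt_add_one _))
  have e2 := ((rtr_continuous.tendsto _).comp hX).eventually (eventually_le_nhds (lt_add_one _))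
  set r := rtr R₀ + 1
  set K := rtr X₀ + 1
  obtain ⟨C, hC⟩ := fpot_self_ge hα hΨ (ε := ε) (n := n) K
  set S := Real.sqrt (max (c + C) 0) + 1 with hS
  refine exists_subseq_posDef (T := n * S) (c := (-(r * S) - K * S ^ 2 - c) / ε) ?_
  filter_upwards [hR0, hXh, hm, hc, e1, e2] with k hR0 hXk hm hc (e1 : rtr (R k) ≤ r)
    (e2 : rtr (Xp k) ≤ K)
  have hA := hm.1.1
  have h1 := (hC e2 hXk.posSemidef.nonneg hA).trans ((hm.2 _ (dom_self hA)).trans hc)
  have h2 : Real.sqrt (rtr (A k * A k)) + 1 ≤ S := by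
    rw [hS]
    gcongr
    exact le_max_of_le_left (by linarith)
  have hs0 : 0 ≤ Real.sqrt (rtr (A k * A k)) + 1 := by positivity
  refine ⟨hA, ?_, ?_⟩
  · have h3 := rtr_mono (le_sqrt_smul_one hA.1)
    rw [rtr_smul, rtr_one] at h3
    nlinarith [(Nat.cast_nonneg n : (0:ℝ) ≤ n)]
  · have h4 := (fpot_half_ge (ε := ε) hΨ hR0 hXk.posSemidef.nonneg hA).trans
      ((hm.2 _ (dom_half hA)).trans hc)
    have h5 := mul_le_mul e1 h2 hs0 ((rtr_nonneg hR0).trans e1)
    have h6 := mul_le_mul e2 (pow_le_pow_left₀ hs0 h2 2) (by positivity)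
      ((rtr_nonneg hXk.posSemidef.nonneg).trans e2)
    rw [div_le_iff₀ hε]
    linarith

end bounds

section minimax

variable (hα : α ∈ Set.Ioo (1 / 2 : ℝ) 1) (hΨ : PsiAPI α) (hε : 0 < ε)
include hα hΨ hε

/-- (a) A maximiser exists. -/
theorem exists_isMax {R Xp A : Mat n} (hR : 0 ≤ R) (hX : Xp.PosDef) (hA : A.PosDef) :
    ∃ M, IsMaxAt α ε R Xp A M := by
  set V : Set ℝ := {v | ∃ M, Dom A M ∧ v = fpot α ε R Xp A M}
  have hne : V.Nonempty := ⟨_, A, dom_self hA, rfl⟩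
  have hbdd : BddAbove V := by
    by_contra hb
    rw [not_bddAbove_iff] at hb
    choose v hv hlt using fun k : ℕ => hb (k : ℝ)
    choose M hM hMv using hv
    obtain ⟨M₀, φ, hd, hφ, hlim⟩ := subseq_M hα hΨ hε (R := fun _ => R) (Xp := fun _ => Xp)
      (A := fun _ => A) (M := M) (Eventually.of_forall fun _ => hR) tendsto_const_nhds
      (fun _ => hX.1) tendsto_const_nhds hX tendsto_const_nhds hA
      (Eventually.of_forall hM) (c := 0) (Eventually.of_forall fun k => by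
        rw [← hMv]; exact (Nat.cast_nonneg k).trans (hlt k).le)
    have ht := fpot_tendsto hΨ ε (R := fun _ => R) (Xp := fun _ => Xp) (A := fun _ => A)
      (Eventually.of_forall fun k => hM (φ k)) hd tendsto_const_nhds tendsto_const_nhds
      tendsto_const_nhds hlim
    refine not_tendsto_atTop_of_tendsto_nhds ht (tendsto_atTop_mono (fun k => ?_)
      (tendsto_natCast_atTop_atTop.comp hφ.tendsto_atTop))
    simp only [Function.comp_apply]
    rw [← hMv]
    exact (hlt _).le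
  obtain ⟨v, hv, hvt, hvm⟩ := exists_seq_tendsto_sSup hne hbdd
  choose M hM hMv using hvm
  obtain ⟨M₀, φ, hd, hφ, hlim⟩ := subseq_M hα hΨ hε (R := fun _ => R) (Xp := fun _ => Xp)
    (A := fun _ => A) (M := M) (Eventually.of_forall fun _ => hR) tendsto_const_nhds
    (fun _ => hX.1) tendsto_const_nhds hX tendsto_const_nhds hA
    (Eventually.of_forall hM) (c := v 0) (Eventually.of_forall fun k => by
      rw [← hMv]; exact hv (Nat.zero_le k))
  refine ⟨M₀, hd, fun M' hM' => le_of_le_of_eq (le_csSup hbdd ⟨M', hM', rfl⟩) ?_⟩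
  refine tendsto_nhds_unique (hvt.comp hφ.tendsto_atTop) ?_
  have ht := fpot_tendsto hΨ ε (R := fun _ => R) (Xp := fun _ => Xp) (A := fun _ => A)
      (Eventually.of_forall fun k => hM (φ k)) hd tendsto_const_nhds tendsto_const_nhds
      tendsto_const_nhds hlim
  simpa only [Function.comp_def, ← hMv] using ht

omit hα in
/-- (b) The maximiser is unique. -/
theorem isMax_unique {R Xp A M₀ M₁ : Mat n} (hR : 0 ≤ R) (h₀ : IsMaxAt α ε R Xp A M₀)
    (h₁ : IsMaxAt α ε R Xp A M₁) : M₀ = M₁ := by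
  have hA := h₀.1.1
  have hp₀ := h₀.1.posDef
  have hp₁ := h₁.1.posDef
  set S := (1 / 2 : ℝ) • (M₀ * M₀ + M₁ * M₁) with hS
  have hSh : S.IsHermitian := herm_of_nonneg
    (smul_nonneg (by norm_num) (add_nonneg (sq_nonneg_herm hp₀.1) (sq_nonneg_herm hp₁.1)))
  have hS0 : 0 ≤ S :=
    smul_nonneg (by norm_num) (add_nonneg (sq_nonneg_herm hp₀.1) (sq_nonneg_herm hp₁.1))
  set M := fc Real.sqrt S with hM
  have hMM : M * M = S := by
    rw [hM, fc_mul]
    conv_rhs => rw [← fc_id hSh]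
    exact fc_congr hSh fun i => Real.mul_self_sqrt (hS0.posSemidef.eigenvalues_nonneg i)
  have hMh : M.IsHermitian := fc_herm _ _
  have hM0 : 0 ≤ M := fc_nonneg hSh fun i => Real.sqrt_nonneg _
  set Q := (1 / 2 : ℝ) • (M₀ + M₁) with hQ
  have hQp : Q.PosDef := (hp₀.add hp₁).smul (by norm_num)
  have hQM : Q ≤ M := by
    refine le_of_sq_le hQp.1 hMh (by
      simpa [add_comm] using hQp.add_posSemidef hM0.posSemidef) ?_
    rw [hMM, ← sub_nonneg]
    have hd := smul_nonneg (show (0:ℝ) ≤ 1 / 4 by norm_num) (sq_nonneg_herm (hp₀.1.sub hp₁.1))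
    refine hd.trans_eq ?_
    rw [hS, hQ]
    simp only [Matrix.smul_mul, Matrix.mul_smul, Matrix.add_mul, Matrix.mul_add,
      Matrix.sub_mul, Matrix.mul_sub]
    module
  have hle : ((2:ℝ) • M₀ - A) + ((2:ℝ) • M₁ - A) ≤ (2:ℝ) • ((2:ℝ) • M - A) := by
    rw [← sub_nonneg]
    refine (smul_nonneg (show (0:ℝ) ≤ 4 by norm_num) (sub_nonneg.2 hQM)).trans_eq ?_
    rw [hQ]; module
  have hB : ((2:ℝ) • M - A).PosDef := by
    have h := (posDef_mono (h₀.1.2.add h₁.1.2) hle).smul (show (0:ℝ) < 1 / 2 by norm_num)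
    convert h using 1
    module
  have hd : Dom A M := ⟨hA, hB⟩
  have hmid := hΨ.midpoint hA hd.adm h₀.1.adm h₁.1.adm (le_of_eq (by
    rw [hMM, hS]; module))
  obtain ⟨hl, heq⟩ := lndet_midpoint hB h₀.1.2 h₁.1.2 hle
  have hlin := rtr_mul_le_left hR (show (M₀ - A) + (M₁ - A) ≤ (2:ℝ) • (M - A) by
    rw [← sub_nonneg]
    refine (smul_nonneg (show (0:ℝ) ≤ 2 by norm_num) (sub_nonneg.2 hQM)).trans_eq ?_
    rw [hQ]; module)
  rw [Matrix.mul_add, rtr_add, Matrix.mul_smul, rtr_smul] at hlin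
  have hq : rtr (M₀ * M₀ * Xp) + rtr (M₁ * M₁ * Xp) = 2 * rtr (M * M * Xp) := by
    rw [← rtr_add, ← Matrix.add_mul, ← rtr_smul, ← Matrix.smul_mul, hMM, hS, smul_smul]
    norm_num
  have a₀ := h₀.2 M hd
  have a₁ := h₁.2 M hd
  simp only [fpot] at a₀ a₁
  have hgap : lndet ((2:ℝ) • M₀ - A) + lndet ((2:ℝ) • M₁ - A)
      = 2 * lndet ((2:ℝ) • M - A) := by nlinarith
  have h2 := congrArg (fun Z => (1 / 2 : ℝ) • (Z + A)) (heq hgap)
  simpa [smul_smul] using h2

/-- Maximisers depend continuously on the data. -/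
theorem max_tendsto {R Xp A M : ℕ → Mat n} {R₀ X₀ A₀ M₀ : Mat n}
    (hR0 : ∀ᶠ k in atTop, 0 ≤ R k) (hR : Tendsto R atTop (𝓝 R₀)) (hR₀ : 0 ≤ R₀)
    (hXh : ∀ k, (Xp k).IsHermitian) (hX : Tendsto Xp atTop (𝓝 X₀)) (hX₀ : X₀.PosDef)
    (hA : Tendsto A atTop (𝓝 A₀)) (hAh : ∀ k, (A k).IsHermitian) (hA₀ : A₀.PosDef)
    (hm : ∀ᶠ k in atTop, IsMaxAt α ε (R k) (Xp k) (A k) (M k))
    (hm₀ : IsMaxAt α ε R₀ X₀ A₀ M₀) : Tendsto M atTop (𝓝 M₀) := by
  refine tendsto_of_subseq_tendsto fun ns hns => ?_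
  have hself : ∀ᶠ k in atTop, Dom (A k) (A k) :=
    (eventually_posDef_seq hA₀ hAh hA).mono fun k hk => dom_self hk
  have hl := fpot_tendsto hΨ ε hself (dom_self hA₀) hR hX hA hA
  have hev : ∀ᶠ k in atTop,
      fpot α ε R₀ X₀ A₀ A₀ - 1 ≤ fpot α ε (R k) (Xp k) (A k) (M k) := by
    filter_upwards [hm, hself, hl.eventually (eventually_ge_nhds (sub_one_lt _))] with k hk hs hge
    exact hge.trans (hk.2 _ hs)
  obtain ⟨M', φ, hd, hφ, hlim⟩ := subseq_M hα hΨ hε (M := M ∘ ns) (hns.eventually hR0)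
    (hR.comp hns) (fun k => hXh (ns k)) (hX.comp hns) hX₀ (hA.comp hns) hA₀
    ((hns.eventually hm).mono fun k hk => hk.1) (hns.eventually hev)
  refine ⟨φ, ?_⟩
  have hψ : Tendsto (ns ∘ φ) atTop atTop := hns.comp hφ.tendsto_atTop
  have hlim' : Tendsto (fun k => M (ns (φ k))) atTop (𝓝 M') := hlim
  suffices IsMaxAt α ε R₀ X₀ A₀ M' by rwa [isMax_unique hΨ hε hR₀ hm₀ this]
  refine ⟨hd, fun M₂ hM₂ => ?_⟩
  have hM2h : ∀ k, ((2:ℝ) • M₂ - A k).IsHermitian := fun k =>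
    IsHermitian.sub (smul_herm hM₂.posDef.1 2) (hAh k)
  have hd2 : ∀ᶠ k in atTop, Dom (A k) M₂ :=
    ((eventually_posDef_seq hA₀ hAh hA).and
      (eventually_posDef_seq hM₂.2 hM2h (tendsto_const_nhds.sub hA))).mono fun k hk => hk
  have t1 := fpot_tendsto hΨ ε (M := fun _ => M₂) (hψ.eventually hd2) hM₂ (hR.comp hψ)
    (hX.comp hψ) (hA.comp hψ) tendsto_const_nhds
  have t2 := fpot_tendsto hΨ ε ((hψ.eventually hm).mono fun k hk => hk.1) hd (hR.comp hψ)
    (hX.comp hψ) (hA.comp hψ) hlim'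
  refine le_of_tendsto_of_tendsto t1 t2 ?_
  filter_upwards [hψ.eventually hm, hψ.eventually hd2] with k hk hk2
  exact hk.2 _ hk2

omit hε in
theorem bddBelow_values {R Xp : Mat n} (hX : 0 ≤ Xp) :
    BddBelow {v | ∃ A M : Mat n, IsMaxAt α ε R Xp A M ∧ v = fpot α ε R Xp A M} := by
  obtain ⟨C, hC⟩ := fpot_self_ge hα hΨ (ε := ε) (n := n) (rtr Xp)
  refine ⟨-C, ?_⟩
  rintro v ⟨A, M, hm, rfl⟩
  have := (hC (R := R) le_rfl hX hm.1.1).trans (hm.2 _ (dom_self hm.1.1))
  linarith [rtr_sq_nonneg hm.1.1.1]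

include hε in
set_option linter.unusedSectionVars false in
theorem Sval_le {R Xp A M : Mat n} (_hR : 0 ≤ R) (hX : Xp.PosDef) (h : IsMaxAt α ε R Xp A M) :
    Sval α ε R Xp ≤ fpot α ε R Xp A M :=
  csInf_le (bddBelow_values hα hΨ hX.posSemidef.nonneg) ⟨A, M, h, rfl⟩

/-- (c) A saddle exists. -/
theorem exists_saddle {R Xp : Mat n} (hR : 0 ≤ R) (hX : Xp.PosDef) :
    ∃ A M, IsMaxAt α ε R Xp A M ∧ Sval α ε R Xp = fpot α ε R Xp A M := by
  set V : Set ℝ := {v | ∃ A M : Mat n, IsMaxAt α ε R Xp A M ∧ v = fpot α ε R Xp A M}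
  obtain ⟨M1, hM1⟩ := exists_isMax hα hΨ hε hR hX (PosDef.one : (1 : Mat n).PosDef)
  have hbdd : BddBelow V := bddBelow_values hα hΨ hX.posSemidef.nonneg
  obtain ⟨v, hv, hvt, hvm⟩ := exists_seq_tendsto_sInf (S := V) ⟨_, 1, M1, hM1, rfl⟩ hbdd
  choose A M hM hMv using hvm
  obtain ⟨A₀, φ, hA₀, hφ, hlim⟩ := subseq_A hα hΨ hε (R := fun _ => R) (Xp := fun _ => Xp)
    (A := A) (M := M) (Eventually.of_forall fun _ => hR) tendsto_const_nhds
    (Eventually.of_forall fun _ => hX) tendsto_const_nhds (Eventually.of_forall hM) (c := v 0)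
    (Eventually.of_forall fun k => by rw [← hMv]; exact hv (Nat.zero_le k))
  obtain ⟨M₀, hM₀⟩ := exists_isMax hα hΨ hε hR hX hA₀
  have hMt := max_tendsto hα hΨ hε (R := fun _ => R) (Xp := fun _ => Xp) (A := A ∘ φ) (M := M ∘ φ)
    (Eventually.of_forall fun _ => hR) tendsto_const_nhds hR (fun _ => hX.1) tendsto_const_nhds hX
    hlim (fun k => (hM (φ k)).1.1.1) hA₀ (Eventually.of_forall fun k => hM (φ k)) hM₀
  refine ⟨A₀, M₀, hM₀, tendsto_nhds_unique (hvt.comp hφ.tendsto_atTop) ?_⟩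
  have ht := fpot_tendsto hΨ ε (R := fun _ => R) (Xp := fun _ => Xp)
    (Eventually.of_forall fun k => (hM (φ k)).1) hM₀.1 tendsto_const_nhds tendsto_const_nhds
    hlim hMt
  simpa only [Function.comp_def, ← hMv] using ht

omit hα hΨ hε in
theorem hasDerivAt_lndet {X V : Mat n} (hX : X.PosDef) (hV : V.IsHermitian) :
    HasDerivAt (fun t : ℝ => lndet (X + t • V)) (rtr (V * X⁻¹)) 0 := by
  set D := rtr (V * X⁻¹) with hD
  have hc : Tendsto (fun t : ℝ => rtr (V * (X + t • V)⁻¹)) (𝓝 0) (𝓝 D) := by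
    have h1 : Continuous fun t : ℝ => X + t • V := by fun_prop
    have h2 : ContinuousAt Ring.inverse X.det := by
      rw [Ring.inverse_eq_inv']
      exact continuousAt_inv₀ ((Matrix.isUnit_iff_isUnit_det X).1 hX.isUnit).ne_zero
    have h3 : Tendsto (fun t : ℝ => (X + t • V)⁻¹) (𝓝 0) (𝓝 X⁻¹) :=
      (continuousAt_matrix_inv X h2).tendsto.comp (by simpa using h1.tendsto 0)
    exact (rtr_continuous.tendsto _).comp (tendsto_const_nhds.mul h3)
  refine hasDerivAt_iff_isLittleO.2 ?_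
  rw [Asymptotics.isLittleO_iff]
  intro c hcpos
  filter_upwards [eventually_posDef hX hV, Metric.tendsto_nhds.1 hc c hcpos] with t ht htc
  simp only [zero_smul, add_zero, sub_zero, smul_eq_mul]
  have l1 := lndet_le_tangent ht hX
  have l2 := lndet_le_tangent hX ht
  rw [show X + t • V - X = t • V by abel, Matrix.smul_mul, rtr_smul] at l1
  rw [show X - (X + t • V) = (-t) • V by rw [neg_smul]; abel, Matrix.smul_mul, rtr_smul] at l2
  rw [Real.dist_eq] at htc
  simp only [Real.norm_eq_abs]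
  rw [abs_le]
  have h5 := le_abs_self (t * (D - rtr (V * (X + t • V)⁻¹)))
  rw [abs_mul, abs_sub_comm] at h5
  have hb := mul_le_mul_of_nonneg_left htc.le (abs_nonneg t)
  constructor <;> nlinarith [mul_nonneg hcpos.le (abs_nonneg t)]

/-- (d) Stationarity and the saddle inequality. -/
theorem saddle_ineq {R Xp A M : Mat n} (hR : 0 ≤ R) (hX : Xp.PosDef)
    (h : IsMaxAt α ε R Xp A M) (hS : Sval α ε R Xp = fpot α ε R Xp A M) :
    rtr (R * ((M - A) * (M - A))) - rtr (M * M * R) + rtr (fc (fun x => x ^ (1 + 1 / α)) R)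
      ≤ 2 * ε * rtr M := by
  have hA := h.1.1
  have hB := h.1.2
  set G := Rhat α A M - R - ε • A⁻¹ - ε • ((2:ℝ) • M - A)⁻¹ with hG
  have hGh : G.IsHermitian := IsHermitian.sub (IsHermitian.sub (IsHermitian.sub
    (hΨ.herm h.1.adm) (herm_of_nonneg hR)) (smul_herm hA.inv.1 ε)) (smul_herm hB.inv.1 ε)
  have main : ∀ V : Mat n, V.IsHermitian → 0 ≤ rtr (V * G) := by
    intro V hV
    have htt : Tendsto (fun k : ℕ => 1 / ((k:ℝ) + 1)) atTop (𝓝 0) :=
      tendsto_one_div_add_atTop_nhds_zero_nat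
    set τ : ℕ → ℝ := fun k => 1 / ((k:ℝ) + 1)
    have hpath : Continuous fun t : ℝ => A + t • V := by fun_prop
    have hAt : Tendsto (fun k => A + τ k • V) atTop (𝓝 A) := by
      simpa [Function.comp_def] using (hpath.tendsto 0).comp htt
    have hAh : ∀ t : ℝ, (A + t • V).IsHermitian := fun t => hA.1.add (smul_herm hV t)
    have hex : ∀ k, ∃ N, (A + τ k • V).PosDef → IsMaxAt α ε R Xp (A + τ k • V) N := by
      intro k
      by_cases hp : (A + τ k • V).PosDef
      · obtain ⟨N, hN⟩ := exists_isMax hα hΨ hε hR hX hp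
        exact ⟨N, fun _ => hN⟩
      · exact ⟨A, fun h' => absurd h' hp⟩
    choose N hN using hex
    have hpd := eventually_posDef_seq hA (fun k => hAh (τ k)) hAt
    have hNt : Tendsto N atTop (𝓝 M) := max_tendsto hα hΨ hε (R := fun _ => R)
      (Xp := fun _ => Xp) (Eventually.of_forall fun _ => hR) tendsto_const_nhds hR
      (fun _ => hX.1) tendsto_const_nhds hX hAt (fun k => hAh (τ k)) hA
      (hpd.mono fun k hk => hN k hk) h
    set Φ := fun (k : ℕ) (s : ℝ) => fpot α ε R Xp (A + s • V) (N k)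
    set Φ' := fun (k : ℕ) (s : ℝ) => -rtr (R * V) + rtr (V * Rhat α (A + s • V) (N k))
      + ε * (-rtr (V * ((2:ℝ) • N k - (A + s • V))⁻¹) - rtr (V * (A + s • V)⁻¹))
    have hder : ∀ k s, (A + s • V).PosDef → ((2:ℝ) • N k - (A + s • V)).PosDef →
        HasDerivAt (Φ k) (Φ' k s) s := by
      intro k s hp hq
      have d0 : HasDerivAt (fun u : ℝ => rtr (R * (N k - (A + s • V) - u • V))) (-rtr (R * V)) 0 := by
        simp only [Matrix.mul_sub, Matrix.mul_smul, rtr_sub, rtr_smul]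
        simpa using ((hasDerivAt_id (0:ℝ)).mul_const (rtr (R * V))).const_sub
          (rtr (R * N k) - rtr (R * (A + s • V)))
      have d1 := hΨ.deriv hp hq hV
      have d2 := hasDerivAt_lndet hp hV
      have d3 := hasDerivAt_lndet hq hV.neg
      have d := ((d0.sub_const (rtr (N k * N k * Xp))).add d1).add ((d3.sub d2).const_mul ε)
      have d' : HasDerivAt (fun u : ℝ => Φ k (s + u)) (Φ' k s) 0 := by
        refine (d.congr_of_eventuallyEq (Eventually.of_forall fun u => ?_)).congr_deriv ?_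
        · simp only [Φ, fpot, Pi.add_apply, Pi.sub_apply, add_smul, smul_neg, ← add_assoc,
            sub_add_eq_sub_sub, ← sub_eq_add_neg]
        · simp only [Φ', Matrix.neg_mul, rtr_neg]
      have h0 : HasDerivAt (fun u : ℝ => Φ k (s + u)) (Φ' k s) (s - s) := by rwa [sub_self]
      simpa using h0.comp_sub_const s s
    have hNh : ∀ᶠ k in atTop, (N k).IsHermitian :=
      hpd.mono fun k hk => (hN k hk).1.posDef.1
    obtain ⟨δA, hδA, hle⟩ := exists_smul_one_le hA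
    obtain ⟨δB, hδB, hleB⟩ := exists_smul_one_le hB
    have hsmall : ∀ᶠ k in atTop, ∀ s ∈ Set.Icc 0 (τ k),
        (A + s • V).PosDef ∧ ((2:ℝ) • N k - (A + s • V)).PosDef := by
      have e0 : Tendsto (fun k => τ k * Real.sqrt (rtr (V * V))) atTop (𝓝 0) := by
        simpa using htt.mul_const (Real.sqrt (rtr (V * V)))
      have eB : ∀ᶠ k in atTop, (δB / 2) • (1 : Mat n) ≤ (2:ℝ) • N k - A := by
        have hd : Tendsto (fun k => Real.sqrt (rtr (((2:ℝ) • N k - (2:ℝ) • M) *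
            ((2:ℝ) • N k - (2:ℝ) • M)))) atTop (𝓝 0) := by
          have h' := (hNt.const_smul (2:ℝ)).sub_const ((2:ℝ) • M)
          simpa [rtr_zero] using (tendsto_rtr_mul h' h').sqrt
        filter_upwards [hd.eventually (eventually_le_nhds (half_pos hδB)), hNh] with k hk hkh
        have h1 := neg_sqrt_smul_one_le ((smul_herm hkh 2).sub (smul_herm h.1.posDef.1 2))
        rw [← sub_nonneg]
        refine (add_nonneg (add_nonneg (sub_nonneg.2 h1) (sub_nonneg.2 hleB))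
          (smul_nonneg (sub_nonneg.2 hk) (zero_le_one (α := Mat n)))).trans_eq ?_
        module
      filter_upwards [e0.eventually (eventually_le_nhds (half_pos (lt_min hδA (half_pos hδB)))),
        eB] with k hk hkB s hs
      have hs1 : s * Real.sqrt (rtr (V * V)) ≤ min δA (δB / 2) / 2 :=
        (mul_le_mul_of_nonneg_right hs.2 (Real.sqrt_nonneg _)).trans hk
      have hV1 := sub_nonneg.2 (smul_le_smul_of_nonneg_left (neg_sqrt_smul_one_le hV) hs.1)
      have hV2 := sub_nonneg.2 (smul_le_smul_of_nonneg_left (le_sqrt_smul_one hV) hs.1)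
      constructor
      · refine posDef_of_le (half_pos hδA) (sub_nonneg.1 ?_)
        refine (add_nonneg (add_nonneg hV1 (sub_nonneg.2 hle))
          (smul_nonneg (show 0 ≤ δA / 2 - s * Real.sqrt (rtr (V * V)) by
            linarith [min_le_left δA (δB / 2)]) (zero_le_one (α := Mat n)))).trans_eq ?_
        module
      · refine posDef_of_le (half_pos (half_pos hδB)) (sub_nonneg.1 ?_)
        refine (add_nonneg (add_nonneg hV2 (sub_nonneg.2 hkB))
          (smul_nonneg (show 0 ≤ δB / 2 / 2 - s * Real.sqrt (rtr (V * V)) by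
            linarith [min_le_right δA (δB / 2)]) (zero_le_one (α := Mat n)))).trans_eq ?_
        module
    have hmvt : ∀ᶠ k in atTop, ∃ s ∈ Set.Icc 0 (τ k), 0 ≤ Φ' k s := by
      filter_upwards [hsmall, hpd] with k hk hp
      have hτ : 0 < τ k := by positivity
      have hk0 := hk 0 (Set.left_mem_Icc.2 hτ.le)
      have e1 : Φ k 0 ≤ Φ k (τ k) := by
        refine le_trans ?_ ((hS.ge).trans (Sval_le hα hΨ hε hR hX (hN k hp)))
        simp only [Φ, zero_smul, add_zero] at hk0 ⊢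
        exact h.2 _ hk0
      obtain ⟨s, hs, hs'⟩ := exists_hasDerivAt_eq_slope (Φ k) (Φ' k) hτ
        (fun u hu => (hder k u (hk u hu).1 (hk u hu).2).continuousAt.continuousWithinAt)
        (fun u hu => hder k u (hk u (Set.Ioo_subset_Icc_self hu)).1
          (hk u (Set.Ioo_subset_Icc_self hu)).2)
      refine ⟨s, Set.Ioo_subset_Icc_self hs, hs' ▸ div_nonneg (sub_nonneg.2 e1) (by linarith)⟩
    obtain ⟨K, hK⟩ := eventually_atTop.1 (hmvt.and hsmall)
    choose σ hσ hσ' using fun k => (hK (k + K) (Nat.le_add_left K k)).1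
    have hd : ∀ k, Dom (A + σ k • V) (N (k + K)) := fun k =>
      (hK (k + K) (Nat.le_add_left K k)).2 _ (hσ k)
    have hσ0 : Tendsto σ atTop (𝓝 0) :=
      squeeze_zero (fun k => (hσ k).1) (fun k => (hσ k).2) ((tendsto_add_atTop_iff_nat K).2 htt)
    have hA1 : Tendsto (fun k => A + σ k • V) atTop (𝓝 A) := by
      simpa [Function.comp_def] using (hpath.tendsto 0).comp hσ0
    have hN1 := (tendsto_add_atTop_iff_nat K).2 hNt
    have hinv : ∀ {P : ℕ → Mat n} {P₀ : Mat n}, P₀.PosDef → Tendsto P atTop (𝓝 P₀) →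
        Tendsto (fun k => rtr (V * (P k)⁻¹)) atTop (𝓝 (rtr (V * P₀⁻¹))) := by
      intro P P₀ hP0 hP
      have h2 : ContinuousAt Ring.inverse P₀.det := by
        rw [Ring.inverse_eq_inv']
        exact continuousAt_inv₀ ((Matrix.isUnit_iff_isUnit_det P₀).1 hP0.isUnit).ne_zero
      exact tendsto_rtr_mul tendsto_const_nhds ((continuousAt_matrix_inv P₀ h2).tendsto.comp hP)
    have hlim : Tendsto (fun k => Φ' (k + K) (σ k)) atTop (𝓝 (rtr (V * G))) := by
      have h1 := tendsto_rtr_mul (A := fun _ : ℕ => V) tendsto_const_nhds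
        (hΨ.contR (fun k => (hd k).adm) h.1.adm hA1 hN1)
      have h2 := hinv hB ((hN1.const_smul (2:ℝ)).sub hA1)
      have h3 := hinv hA hA1
      have := ((tendsto_const_nhds (x := -rtr (R * V))).add h1).add ((h2.neg.sub h3).const_mul ε)
      convert this using 2
      simp only [hG, Matrix.mul_sub, Matrix.mul_smul, rtr_sub, rtr_smul, rtr_mul_comm V R]
      ring
    exact ge_of_tendsto' hlim hσ'
  have hG0 : G = 0 := by
    have h1 := main (-G) hGh.neg
    rw [Matrix.neg_mul, rtr_neg] at h1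
    ext i j
    have h2 := norm_entry_le hGh i j
    rw [show rtr (G * G) = 0 by linarith [rtr_sq_nonneg hGh], Real.sqrt_zero,
      norm_le_zero_iff] at h2
    simpa using h2
  set B := (2:ℝ) • M - A with hBdef
  have hR' : Rhat α A M = R + ε • A⁻¹ + ε • B⁻¹ := by
    rw [← sub_eq_zero, ← hG0, hG]; abel
  have hAi : 0 ≤ ε • A⁻¹ := smul_nonneg hε.le hA.inv.posSemidef.nonneg
  have hBi : 0 ≤ ε • B⁻¹ := smul_nonneg hε.le hB.inv.posSemidef.nonneg
  have hle : R ≤ Rhat α A M := by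
    rw [hR', add_assoc]; exact le_add_of_nonneg_right (add_nonneg hAi hBi)
  have hkey := hΨ.key hA hB (hR.trans hle)
  have hexp : 1 ≤ 1 + 1 / α := le_add_of_nonneg_right (one_div_nonneg.2 (by linarith [hα.1]))
  have hmono := rtr_fc_mono_convex (herm_of_nonneg hR) (hΨ.herm h.1.adm) hle
    (convexOn_rpow hexp) (fun x hx y _ hxy =>
      Real.rpow_le_rpow hx hxy (le_trans zero_le_one hexp)) hR
  have hMB : M = (1 / 2 : ℝ) • (A + B) := by rw [hBdef]; module
  set C := M * M - (M - A) * (M - A) with hCdef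
  have hC : C = (1 / 2 : ℝ) • (A * B + B * A) := by
    rw [hCdef, hMB]
    simp only [Matrix.sub_mul, Matrix.mul_sub, Matrix.smul_mul, Matrix.mul_smul, Matrix.add_mul,
      Matrix.mul_add]
    module
  have eA : rtr (A⁻¹ * C) = rtr B := by
    rw [hC, Matrix.mul_smul, Matrix.mul_add, ← Matrix.mul_assoc, posDef_inv_mul hA,
      Matrix.one_mul, rtr_smul, rtr_add, rtr_mul_comm A⁻¹ (B * A), Matrix.mul_assoc,
      posDef_mul_inv hA, Matrix.mul_one]
    ring
  have eB : rtr (B⁻¹ * C) = rtr A := by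
    rw [hC, Matrix.mul_smul, Matrix.mul_add, rtr_smul, rtr_add, rtr_mul_comm B⁻¹ (A * B), Matrix.mul_assoc, posDef_mul_inv hB,
      Matrix.mul_one, ← Matrix.mul_assoc, posDef_inv_mul hB, Matrix.one_mul]
    ring
  have eM : rtr A + rtr B = 2 * rtr M := by
    rw [hBdef, rtr_sub, rtr_smul]; ring
  rw [hR', Matrix.add_mul, Matrix.add_mul, rtr_add, rtr_add, Matrix.smul_mul, Matrix.smul_mul,
    rtr_smul, rtr_smul, eA, eB, ← hR', hCdef, Matrix.mul_sub, rtr_sub,
    rtr_mul_comm R (M * M)] at hkey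
  have : ε * rtr B + ε * rtr A = 2 * ε * rtr M := by rw [← mul_add, add_comm, eM]; ring
  linarith

/-- (e) The upper right slope of the value. -/
theorem Sval_slope {R Xp : ℝ → Mat n} {x : ℝ}
    (h0 : ∀ᶠ y in 𝓝 x, 0 ≤ R y ∧ (Xp y).PosDef)
    {R' X' : Mat n} (hR' : ∀ i j, HasDerivAt (fun y => R y i j) (R' i j) x)
    (hX' : ∀ i j, HasDerivAt (fun y => Xp y i j) (X' i j) x) {A M : Mat n}
    (h : IsMaxAt α ε (R x) (Xp x) A M)
    (hS : Sval α ε (R x) (Xp x) = fpot α ε (R x) (Xp x) A M) {r : ℝ}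
    (hr : rtr (R' * (M - A)) - rtr (M * M * X') < r) :
    ∃ᶠ y in 𝓝[>] x, slope (fun y => Sval α ε (R y) (Xp y)) x y < r := by
  have hA := h.1.1
  have hx := h0.self_of_nhds
  have hy0 : Tendsto (fun k : ℕ => x + 1 / ((k:ℝ) + 1)) atTop (𝓝 x) := by
    simpa using tendsto_one_div_add_atTop_nhds_zero_nat.const_add x
  obtain ⟨K, hK⟩ := eventually_atTop.1 (hy0.eventually h0)
  have hex : ∀ y, ∃ N, (0 ≤ R y ∧ (Xp y).PosDef) → IsMaxAt α ε (R y) (Xp y) A N := fun y => by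
    by_cases hp : 0 ≤ R y ∧ (Xp y).PosDef
    · obtain ⟨N, hN⟩ := exists_isMax hα hΨ hε hp.1 hp.2 hA
      exact ⟨N, fun _ => hN⟩
    · exact ⟨A, fun h' => absurd h' hp⟩
  choose N hN' using hex
  set y : ℕ → ℝ := fun k => x + 1 / (((k + K : ℕ) : ℝ) + 1)
  have hR : ∀ k, 0 ≤ R (y k) := fun k => (hK _ (Nat.le_add_left K k)).1
  have hX : ∀ k, (Xp (y k)).PosDef := fun k => (hK _ (Nat.le_add_left K k)).2
  have hN : ∀ k, IsMaxAt α ε (R (y k)) (Xp (y k)) A (N (y k)) :=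
    fun k => hN' _ ⟨hR k, hX k⟩
  have hy : Tendsto y atTop (𝓝[>] x) := by
    refine tendsto_nhdsWithin_iff.2 ⟨?_, Eventually.of_forall fun k => ?_⟩
    · exact hy0.comp ((tendsto_add_atTop_iff_nat K).2 tendsto_id)
    · simp only [Set.mem_Ioi, y, lt_add_iff_pos_right]; positivity
  have hy' : Tendsto y atTop (𝓝 x) := hy.mono_right nhdsWithin_le_nhds
  refine hy.frequently (Eventually.frequently ?_)
  have hcont : ∀ {Z : ℝ → Mat n} {Z' : Mat n},
      (∀ i j, HasDerivAt (fun y => Z y i j) (Z' i j) x) →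
      Tendsto (fun k => Z (y k)) atTop (𝓝 (Z x)) ∧
      Tendsto (fun k => (y k - x)⁻¹ • (Z (y k) - Z x)) atTop (𝓝 Z') := by
    intro Z Z' hZ
    constructor
    · exact tendsto_pi_nhds.2 fun i => tendsto_pi_nhds.2 fun j =>
        (hZ i j).continuousAt.tendsto.comp hy'
    · refine tendsto_pi_nhds.2 fun i => tendsto_pi_nhds.2 fun j => ?_
      exact (hasDerivAt_iff_tendsto_slope.1 (hZ i j)).comp
        (hy.mono_right (nhdsWithin_mono x fun z hz => ne_of_gt hz))
  obtain ⟨hRt, hRs⟩ := hcont hR'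
  obtain ⟨hXt, hXs⟩ := hcont hX'
  have hNt : Tendsto (fun k => N (y k)) atTop (𝓝 M) := max_tendsto hα hΨ hε
    (Eventually.of_forall hR) hRt hx.1 (fun k => (hX k).1) hXt hx.2
    tendsto_const_nhds (fun _ => hA.1) hA (Eventually.of_forall hN) h
  have hlim := (tendsto_rtr_mul hRs (hNt.sub_const A)).sub (tendsto_rtr_mul (hNt.mul hNt) hXs)
  filter_upwards [hlim.eventually (eventually_lt_nhds hr)] with k hk
  refine lt_of_le_of_lt ?_ hk
  have hpos : 0 < y k - x := by simp only [y, add_sub_cancel_left]; positivity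
  have h1 := Sval_le hα hΨ hε (hR k) (hX k) (hN k)
  have h2 := h.2 _ (hN k).1
  have h3 := fpot_sub (α := α) (ε := ε) (R x) (Xp x) (R (y k)) (Xp (y k)) A (N (y k))
  rw [slope_def_field, Matrix.smul_mul, Matrix.mul_smul, rtr_smul, rtr_smul, ← mul_sub,
    div_eq_inv_mul]
  exact mul_le_mul_of_nonneg_left (by rw [hS]; linarith) (inv_nonneg.2 hpos.le)

/-- (f) Continuity of the value along continuous paths. -/
theorem Sval_continuousOn {R Xp : ℝ → Mat n} {a b : ℝ}
    (hpos : ∀ y ∈ Set.Icc a b, 0 ≤ R y ∧ (Xp y).PosDef)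
    (hRe : ∀ i j, ContinuousOn (fun y => R y i j) (Set.Icc a b))
    (hXe : ∀ i j, ContinuousOn (fun y => Xp y i j) (Set.Icc a b)) :
    ContinuousOn (fun y => Sval α ε (R y) (Xp y)) (Set.Icc a b) := by
  set s := Set.Icc a b
  have hR : ContinuousOn R s := continuousOn_pi.2 fun i => continuousOn_pi.2 fun j => hRe i j
  have hX : ContinuousOn Xp s := continuousOn_pi.2 fun i => continuousOn_pi.2 fun j => hXe i j
  have hR0 : ∀ y ∈ s, 0 ≤ R y := fun y hy => (hpos y hy).1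
  have hX0 : ∀ y ∈ s, (Xp y).PosDef := fun y hy => (hpos y hy).2
  intro x hx
  refine tendsto_iff_seq_tendsto.2 fun y hy => ?_
  obtain ⟨hy1, hy2⟩ := tendsto_nhdsWithin_iff.1 hy
  refine tendsto_of_subseq_tendsto fun ns hns => ?_
  obtain ⟨K, hK⟩ := eventually_atTop.1 (hns.eventually hy2)
  set z : ℕ → ℝ := fun k => y (ns (k + K))
  have hz : ∀ k, z k ∈ s := fun k => hK _ (Nat.le_add_left K k)
  have hzx : Tendsto z atTop (𝓝[s] x) :=
    hy.comp (hns.comp ((tendsto_add_atTop_iff_nat K).2 tendsto_id))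
  have hRt : Tendsto (fun k => R (z k)) atTop (𝓝 (R x)) := (hR x hx).tendsto.comp hzx
  have hXt : Tendsto (fun k => Xp (z k)) atTop (𝓝 (Xp x)) := (hX x hx).tendsto.comp hzx
  obtain ⟨As, Ms, hs, hSx⟩ := exists_saddle hα hΨ hε (hR0 x hx) (hX0 x hx)
  choose A M hAM hval using fun k => exists_saddle hα hΨ hε (hR0 _ (hz k)) (hX0 _ (hz k))
  choose N hN using fun k => exists_isMax hα hΨ hε (hR0 _ (hz k)) (hX0 _ (hz k)) hs.1.1
  have hNt := max_tendsto hα hΨ hε (M := N) (Eventually.of_forall fun k => hR0 _ (hz k)) hRt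
    (hR0 x hx) (fun k => (hX0 _ (hz k)).1) hXt (hX0 x hx) tendsto_const_nhds (fun _ => hs.1.1.1)
    hs.1.1 (Eventually.of_forall hN) hs
  have hup := fpot_tendsto hΨ ε (Eventually.of_forall fun k => (hN k).1) hs.1 hRt hXt
    tendsto_const_nhds hNt
  rw [← hSx] at hup
  have hle : ∀ k, fpot α ε (R (z k)) (Xp (z k)) (A k) (M k)
      ≤ fpot α ε (R (z k)) (Xp (z k)) As (N k) := fun k =>
    (hval k).symm.trans_le (Sval_le hα hΨ hε (hR0 _ (hz k)) (hX0 _ (hz k)) (hN k))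
  obtain ⟨A₀, φ, hA₀, hφ, hlim⟩ := subseq_A hα hΨ hε
    (Eventually.of_forall fun k => hR0 _ (hz k)) hRt
    (Eventually.of_forall fun k => hX0 _ (hz k)) hXt (Eventually.of_forall hAM)
    (c := Sval α ε (R x) (Xp x) + 1)
    ((hup.eventually (eventually_le_nhds (lt_add_one _))).mono fun k hk => (hle k).trans hk)
  obtain ⟨M₀, hM₀⟩ := exists_isMax hα hΨ hε (hR0 x hx) (hX0 x hx) hA₀
  have hφt := hφ.tendsto_atTop
  have hMt := max_tendsto hα hΨ hε (M := M ∘ φ) (Eventually.of_forall fun k => hR0 _ (hz (φ k)))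
    (hRt.comp hφt) (hR0 x hx) (fun k => (hX0 _ (hz (φ k))).1) (hXt.comp hφt) (hX0 x hx) hlim
    (fun k => (hAM (φ k)).1.1.1) hA₀ (Eventually.of_forall fun k => hAM (φ k)) hM₀
  have hlo := fpot_tendsto hΨ ε (Eventually.of_forall fun k => (hAM (φ k)).1) hM₀.1
    (hRt.comp hφt) (hXt.comp hφt) hlim hMt
  have h1 : fpot α ε (R x) (Xp x) A₀ M₀ ≤ Sval α ε (R x) (Xp x) :=
    le_of_tendsto_of_tendsto' hlo (hup.comp hφt) fun k => hle (φ k)
  rw [le_antisymm h1 (Sval_le hα hΨ hε (hR0 x hx) (hX0 x hx) hM₀)] at hlo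
  refine ⟨fun k => φ k + K, hlo.congr fun k => ?_⟩
  simp only [Function.comp_apply]
  exact (hval (φ k)).symm

end minimax

end Vale.Agent.P371G
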