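import Vale.Agent.P371G.ScalarInt

/-! # Properties of `Ψ_α` -/

namespace Vale.Agent.P371G

open Matrix MeasureTheory Set Filter Topology
open scoped ComplexOrder MatrixOrder Matrix.Norms.L2Operator

variable {n : ℕ} {α : ℝ}

theorem eig_le_rtr {M : Mat n} (hM : 0 ≤ M) : M ≤ rtr M • (1 : Mat n) := by
  have hH := herm_of_nonneg hM
  refine le_smul_one_of_eig hH fun i => ?_
  have e : rtr M = ∑ j, hH.eigenvalues j := by
    conv_lhs => rw [← fc_id hH]
    exact rtr_fc hH _
  rw [e]
  exact Finset.single_le_sum (fun j _ => hM.posSemidef.eigenvalues_nonneg j) (Finset.mem_univ i)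

/-- A dominating level for an admissible pair. -/
theorem Adm.le_level {A M : Mat n} (h : Adm A M) :
    M ≤ (1 + rtr M) • (1 : Mat n) ∧ 1 ≤ 1 + rtr M := by
  have h0 := rtr_nonneg h.posDef.posSemidef.nonneg
  exact ⟨(eig_le_rtr h.posDef.posSemidef.nonneg).trans (smul_one_mono (by linarith)), by linarith⟩

theorem rtr_mul_eq (V X : Mat n) : rtr (V * X) = ∑ i, ∑ j, (V i j * X j i).re := by
  simp [rtr, Matrix.trace, Matrix.mul_apply, Complex.re_sum]

theorem abs_rtr_mul_entry {V X : Mat n} {w : ℝ} (h : ∀ i j, ‖X i j‖ ≤ w) :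
    |rtr (V * X)| ≤ (∑ i, ∑ j, ‖V i j‖) * w := by
  rw [rtr_mul_eq, Finset.sum_mul]
  refine (Finset.abs_sum_le_sum_abs _ _).trans (Finset.sum_le_sum fun i _ => ?_)
  rw [Finset.sum_mul]
  refine (Finset.abs_sum_le_sum_abs _ _).trans (Finset.sum_le_sum fun j _ => ?_)
  refine (Complex.abs_re_le_norm _).trans ?_
  rw [norm_mul]
  exact mul_le_mul_of_nonneg_left (h j i) (norm_nonneg _)

section integrable

variable (hα : α ∈ Ioo (0 : ℝ) 1) {A M : Mat n} (h : Adm A M)
include hα h

theorem HH_integrable : IntegrableOn (fun s => s ^ (α - 1) * HH s A M) (Ioi 0) := by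
  obtain ⟨hMK, hK⟩ := h.le_level
  refine ((wB_integrable hα hK).mul_const (rtr A)).mono' ?_ ?_
  · refine ContinuousOn.aestronglyMeasurable ?_ measurableSet_Ioi
    exact (continuousOn_id.rpow_const fun s hs => Or.inl (ne_of_gt hs)).mul
      (continuousOn_HH continuousOn_id continuousOn_const continuousOn_const (fun s hs => hs)
        fun _ _ => h)
  · filter_upwards [ae_restrict_mem measurableSet_Ioi] with s hs
    rw [Real.norm_eq_abs, abs_mul, abs_of_nonneg (Real.rpow_nonneg (le_of_lt hs) _), mul_assoc]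
    exact mul_le_mul_of_nonneg_left (HH_bound h hK hMK hs) (Real.rpow_nonneg (le_of_lt hs) _)

theorem Lam_integrable (i j : Fin n) :
    IntegrableOn (fun s => ((s ^ (α - 1) : ℝ) : ℂ) * Lam s A M i j) (Ioi 0) := by
  obtain ⟨hMK, hK⟩ := h.le_level
  refine (wB_integrable hα hK).mono' ?_ ?_
  · refine ContinuousOn.aestronglyMeasurable ?_ measurableSet_Ioi
    exact (Complex.continuous_ofReal.comp_continuousOn
      (continuousOn_id.rpow_const fun s hs => Or.inl (ne_of_gt hs))).mul
      ((by fun_prop : Continuous fun X : Mat n => X i j).comp_continuousOn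
        (continuousOn_Lam continuousOn_id continuousOn_const continuousOn_const (fun s hs => hs)
          fun _ _ => h))
  · filter_upwards [ae_restrict_mem measurableSet_Ioi] with s hs
    rw [norm_mul, Complex.norm_real, Real.norm_eq_abs,
      abs_of_nonneg (Real.rpow_nonneg (le_of_lt hs) _)]
    exact mul_le_mul_of_nonneg_left (Lam_entry h hK hMK hs i j) (Real.rpow_nonneg (le_of_lt hs) _)

theorem rtr_Lam_integrable (V : Mat n) :
    IntegrableOn (fun s => s ^ (α - 1) * rtr (V * Lam s A M)) (Ioi 0) := by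
  simp only [rtr_mul_eq, Finset.mul_sum]
  refine integrable_finsetSum _ fun i _ => integrable_finsetSum _ fun j _ => ?_
  refine (((Lam_integrable hα h j i).const_mul (V i j)).re).congr (Eventually.of_forall fun s => ?_)
  simp only [RCLike.re_to_complex, mul_left_comm (V i j), Complex.re_ofReal_mul]

theorem rtr_mul_Rhat (V : Mat n) : rtr (V * Rhat α A M)
    = (K0 α)⁻¹ * ∫ s in Ioi (0 : ℝ), s ^ (α - 1) * rtr (V * Lam s A M) := by
  simp only [rtr_mul_eq, Finset.mul_sum, Rhat, Matrix.of_apply]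
  have hi : ∀ i j, IntegrableOn (fun s => s ^ (α - 1) * (V i j * Lam s A M j i).re) (Ioi 0) := by
    intro i j
    refine (((Lam_integrable hα h j i).const_mul (V i j)).re).congr
      (Eventually.of_forall fun s => ?_)
    simp only [RCLike.re_to_complex, mul_left_comm (V i j), Complex.re_ofReal_mul]
  rw [integral_finsetSum _ fun i _ => integrable_finsetSum _ fun j _ => hi i j, Finset.mul_sum]
  refine Finset.sum_congr rfl fun i _ => ?_
  rw [integral_finsetSum _ fun j _ => hi i j, Finset.mul_sum]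
  refine Finset.sum_congr rfl fun j _ => ?_
  rw [mul_left_comm, Complex.re_ofReal_mul, ← integral_const_mul]
  congr 1
  refine ((integral_re ((Lam_integrable hα h j i).const_mul (V i j))).symm).trans ?_
  refine integral_congr_ae (Eventually.of_forall fun s => ?_)
  simp only [RCLike.re_to_complex, mul_left_comm (V i j), Complex.re_ofReal_mul]

omit hα h in
theorem Rhat_herm : (Rhat α A M).IsHermitian := by
  ext i j
  simp only [Matrix.conjTranspose_apply, Rhat, Matrix.of_apply, star_mul', RCLike.star_def,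
    Complex.conj_ofReal, ← integral_conj]
  congr 1
  refine integral_congr_ae (Eventually.of_forall fun s => ?_)
  simp only [map_mul, Complex.conj_ofReal]
  rw [← RCLike.star_def, (Lam_herm s).apply i j]

end integrable

variable (hα : α ∈ Ioo (0 : ℝ) 1)
include hα

theorem K0_inv_nonneg : 0 ≤ (K0 α)⁻¹ := inv_nonneg.2 (K0_pos hα).le

theorem Psi_midpoint {A M M₀ M₁ : Mat n} (hA : A.PosDef) (h : Adm A M) (h₀ : Adm A M₀)
    (h₁ : Adm A M₁) (hsq : M₀ * M₀ + M₁ * M₁ ≤ (2 : ℝ) • (M * M)) :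
    Psi α A M₀ + Psi α A M₁ ≤ 2 * Psi α A M := by
  simp only [Psi]
  rw [← mul_add, mul_left_comm (2 : ℝ)]
  refine mul_le_mul_of_nonneg_left ?_ (K0_inv_nonneg hα)
  rw [← integral_add (HH_integrable hα h₀) (HH_integrable hα h₁), ← integral_const_mul]
  refine setIntegral_mono_on ((HH_integrable hα h₀).add (HH_integrable hα h₁))
    ((HH_integrable hα h).const_mul 2) measurableSet_Ioi fun s hs => ?_
  have := mul_le_mul_of_nonneg_left (HH_concave hs hA h h₀ h₁ hsq)
    (Real.rpow_nonneg (le_of_lt hs) (α - 1))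
  linarith

/-- Derivative of `Ψ` along an admissible segment. -/
theorem Psi_hasDerivAt {A M V : Mat n} (hV : V.IsHermitian)
    (hev : ∀ᶠ t : ℝ in 𝓝 0, Adm (A + t • V) M) :
    HasDerivAt (fun t : ℝ => Psi α (A + t • V) M) (rtr (V * Rhat α A M)) 0 := by
  obtain ⟨ρ, hρ, hball⟩ := Metric.eventually_nhds_iff_ball.1 hev
  have hA0 : Adm A M := by simpa using hball 0 (Metric.mem_ball_self hρ)
  obtain ⟨hMK, hK⟩ := hA0.le_level
  set C := ∑ i, ∑ j, ‖V i j‖
  have key := hasDerivAt_integral_of_dominated_loc_of_deriv_le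
    (μ := volume.restrict (Ioi (0:ℝ))) (F := fun t s => s ^ (α - 1) * HH s (A + t • V) M)
    (F' := fun t s => s ^ (α - 1) * rtr (V * Lam s (A + t • V) M)) (x₀ := (0:ℝ))
    (bound := fun s => C * (s ^ (α - 1) * wB (1 + rtr M) s))
    (Metric.ball_mem_nhds 0 hρ)
    (Metric.eventually_nhds_iff_ball.2 ⟨ρ, hρ, fun t ht =>
      (HH_integrable hα (hball t ht)).aestronglyMeasurable⟩)
    (by simpa [IntegrableOn] using (HH_integrable hα hA0))
    (by simpa using (rtr_Lam_integrable hα hA0 V).aestronglyMeasurable)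
    ?_ ((wB_integrable hα hK).const_mul C) ?_
  · have h2 := key.2.const_mul (K0 α)⁻¹
    simp only [zero_smul, add_zero] at h2
    rw [rtr_mul_Rhat hα hA0 V]
    exact h2
  · filter_upwards [ae_restrict_mem measurableSet_Ioi] with s hs t ht
    rw [Real.norm_eq_abs, abs_mul, abs_of_nonneg (Real.rpow_nonneg (le_of_lt hs) _),
      mul_left_comm C]
    exact mul_le_mul_of_nonneg_left
      (abs_rtr_mul_entry (Lam_entry (hball t ht) hK hMK hs)) (Real.rpow_nonneg (le_of_lt hs) _)
  · filter_upwards [ae_restrict_mem measurableSet_Ioi] with s hs t ht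
    have ht' := hball t ht
    have hd := hasDerivAt_HH (V := V) hs ht'.posDef.1 (ht'.cA hs) (ht'.dA hs) hV
    rw [← sub_self t] at hd
    have := hd.comp_sub_const t t
    refine HasDerivAt.const_mul _ (this.congr_of_eventuallyEq (Eventually.of_forall fun u => ?_))
    show HH s (A + u • V) M = HH s (A + t • V + (u - t) • V) M
    rw [add_assoc, ← add_smul, add_sub_cancel]

omit hα in
theorem tendsto_level {A M : ℕ → Mat n} {M₀ : Mat n} (h : ∀ k, Adm (A k) (M k))
    (hM : Tendsto M atTop (𝓝 M₀)) : ∃ K : ℝ, 1 ≤ K ∧ ∀ k, M k ≤ K • (1 : Mat n) := by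
  have hr : Continuous (rtr : Mat n → ℝ) := by unfold rtr; fun_prop
  obtain ⟨b, hb⟩ := ((hr.tendsto _).comp hM).bddAbove_range
  exact ⟨max 1 b, le_max_left _ _, fun k => (eig_le_rtr (h k).posDef.posSemidef.nonneg).trans
    (smul_one_mono (le_max_of_le_right (hb ⟨k, rfl⟩)))⟩

omit hα in
theorem tendsto_adm_pair {A M : ℕ → Mat n} {A₀ M₀ : Mat n} (h : ∀ k, Adm (A k) (M k))
    (hA : Tendsto A atTop (𝓝 A₀)) (hM : Tendsto M atTop (𝓝 M₀)) :
    Tendsto (fun k => (A k, M k)) atTop (𝓝[{p : Mat n × Mat n | Adm p.1 p.2}] (A₀, M₀)) :=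
  tendsto_nhdsWithin_iff.2 ⟨hA.prodMk_nhds hM, Eventually.of_forall h⟩

theorem Psi_tendsto {A M : ℕ → Mat n} {A₀ M₀ : Mat n} (h : ∀ k, Adm (A k) (M k))
    (h₀ : Adm A₀ M₀) (hA : Tendsto A atTop (𝓝 A₀)) (hM : Tendsto M atTop (𝓝 M₀)) :
    Tendsto (fun k => Psi α (A k) (M k)) atTop (𝓝 (Psi α A₀ M₀)) := by
  obtain ⟨K, hK, hMK⟩ := tendsto_level h hM
  have hr : Continuous (rtr : Mat n → ℝ) := by unfold rtr; fun_prop
  obtain ⟨a, ha⟩ := ((hr.tendsto _).comp hA).bddAbove_range
  refine Tendsto.const_mul _ (tendsto_integral_of_dominated_convergence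
    (fun s => (s ^ (α - 1) * wB K s) * max a 0)
    (fun k => (HH_integrable hα (h k)).aestronglyMeasurable)
    ((wB_integrable hα hK).mul_const _) (fun k => ?_) ?_)
  · filter_upwards [ae_restrict_mem measurableSet_Ioi] with s hs
    rw [Real.norm_eq_abs, abs_mul, abs_of_nonneg (Real.rpow_nonneg (le_of_lt hs) _), mul_assoc]
    refine mul_le_mul_of_nonneg_left ((HH_bound (h k) hK (hMK k) hs).trans ?_)
      (Real.rpow_nonneg (le_of_lt hs) _)
    exact mul_le_mul_of_nonneg_left (le_max_of_le_left (ha ⟨k, rfl⟩)) (wB_nonneg hK)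
  · filter_upwards [ae_restrict_mem measurableSet_Ioi] with s hs
    have hc := continuousOn_HH (S := {p : Mat n × Mat n | Adm p.1 p.2}) (σ := fun _ => s)
      continuousOn_const continuousOn_fst continuousOn_snd (fun _ _ => hs) fun p hp => hp
    exact ((hc (A₀, M₀) h₀).tendsto.comp (tendsto_adm_pair h hA hM)).const_mul _

theorem Rhat_tendsto {A M : ℕ → Mat n} {A₀ M₀ : Mat n} (h : ∀ k, Adm (A k) (M k))
    (h₀ : Adm A₀ M₀) (hA : Tendsto A atTop (𝓝 A₀)) (hM : Tendsto M atTop (𝓝 M₀)) :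
    Tendsto (fun k => Rhat α (A k) (M k)) atTop (𝓝 (Rhat α A₀ M₀)) := by
  obtain ⟨K, hK, hMK⟩ := tendsto_level h hM
  refine tendsto_pi_nhds.2 fun i => tendsto_pi_nhds.2 fun j => Tendsto.const_mul _
    (tendsto_integral_of_dominated_convergence (fun s => s ^ (α - 1) * wB K s)
      (fun k => (Lam_integrable hα (h k) i j).aestronglyMeasurable) (wB_integrable hα hK)
      (fun k => ?_) ?_)
  · filter_upwards [ae_restrict_mem measurableSet_Ioi] with s hs
    rw [norm_mul, Complex.norm_real, Real.norm_eq_abs,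
      abs_of_nonneg (Real.rpow_nonneg (le_of_lt hs) _)]
    exact mul_le_mul_of_nonneg_left (Lam_entry (h k) hK (hMK k) hs i j)
      (Real.rpow_nonneg (le_of_lt hs) _)
  · filter_upwards [ae_restrict_mem measurableSet_Ioi] with s hs
    have hc := continuousOn_Lam (S := {p : Mat n × Mat n | Adm p.1 p.2}) (σ := fun _ => s)
      continuousOn_const continuousOn_fst continuousOn_snd (fun _ _ => hs) fun p hp => hp
    exact (((by fun_prop : Continuous fun X : Mat n => X i j).tendsto _).comp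
      ((hc (A₀, M₀) h₀).tendsto.comp (tendsto_adm_pair h hA hM))).const_mul _

omit hα in
/-- `Λ` on a commuting pair. -/
theorem Lam_comm {A : Mat n} (hA : A.IsHermitian) (m : ℝ → ℝ) (θ : ℝ) {s : ℝ} (hs : 0 < s)
    (hθ : θ ∈ Icc (0:ℝ) 1) (ha : ∀ i, 0 ≤ hA.eigenvalues i)
    (hm0 : ∀ i, 0 < m (hA.eigenvalues i))
    (hm : ∀ i, hA.eigenvalues i ≤ 2 * m (hA.eigenvalues i)) :
    Lam s (θ • A) (fc m A)
      = fc (fun x => Real.log (1 + θ * x * (2 * m x - θ * x) / s)) A := by
  have hθA : θ • A = fc (fun x => θ * x) A := by rw [← fc_smul, fc_id hA]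
  have hM : (fc m A).IsHermitian := fc_herm m A
  rw [Lam, cM_eq hM, dM_eq hM, fc_comp hA, fc_comp hA, hθA, fc_add, fc_sub, fc_comp hA,
    fc_comp hA, fc_add, ← fc_const hA (Real.log s), fc_sub]
  refine fc_congr hA fun i => ?_
  set a := hA.eigenvalues i
  set b := m a
  have hb : 0 < b := hm0 i
  have hab : θ * a ≤ 2 * b := (mul_le_of_le_one_left (ha i) hθ.2).trans (hm i)
  have h1 := sqrt_gt hs b
  rw [abs_of_pos hb] at h1
  have hp1 : 0 < Real.sqrt (b ^ 2 + s) - b + θ * a := by nlinarith [ha i, hθ.1]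
  have hp2 : 0 < Real.sqrt (b ^ 2 + s) + b - θ * a := by linarith
  rw [← Real.log_mul hp1.ne' hp2.ne', ← Real.log_div (mul_pos hp1 hp2).ne' hs.ne']
  congr 1
  field_simp
  linear_combination Real.mul_self_sqrt (by positivity : (0:ℝ) ≤ b ^ 2 + s)

theorem Psi_comm {A : Mat n} (hA : A.IsHermitian) (m : ℝ → ℝ) (hA0 : 0 ≤ A)
    (hm0 : ∀ i, 0 < m (hA.eigenvalues i))
    (hm : ∀ i, hA.eigenvalues i ≤ 2 * m (hA.eigenvalues i)) :
    Psi α A (fc m A) = ∑ i, gval α (hA.eigenvalues i) (m (hA.eigenvalues i)) := by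
  have ha : ∀ i, 0 ≤ hA.eigenvalues i := fun i => hA0.posSemidef.eigenvalues_nonneg i
  set M := fc m A with hMdef
  have hAdm : Adm A M := by
    refine ⟨hA0, ?_, fc_posDef hA hm0⟩
    rw [hMdef, fc_smul]
    exact (fc_id hA).symm.trans_le (fc_mono hA hm)
  set C : Fin n → ℝ → ℝ := fun i θ =>
    θ * hA.eigenvalues i * (2 * m (hA.eigenvalues i) - θ * hA.eigenvalues i) with hC
  have hC0 : ∀ i, ∀ θ ∈ Icc (0:ℝ) 1, 0 ≤ C i θ := fun i θ hθ =>
    mul_nonneg (mul_nonneg hθ.1 (ha i))
      (by linarith [(mul_le_of_le_one_left (ha i) hθ.2).trans (hm i)])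
  have hR : ∀ θ ∈ Icc (0:ℝ) 1, rtr (A * Rhat α (θ • A) M)
      = ∑ i, hA.eigenvalues i * C i θ ^ α := by
    intro θ hθ
    have e : ∀ s ∈ Ioi (0:ℝ), s ^ (α - 1) * rtr (A * Lam s (θ • A) M)
        = ∑ i, hA.eigenvalues i * (s ^ (α - 1) * Real.log (1 + C i θ / s)) := fun s hs => by
      rw [hMdef, Lam_comm hA m θ hs hθ ha hm0 hm]
      conv_lhs => enter [2, 1, 1]; rw [← fc_id hA]
      rw [fc_mul, rtr_fc hA, Finset.mul_sum]
      exact Finset.sum_congr rfl fun i _ => by simp only [hC]; ring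
    rw [rtr_mul_Rhat hα (hAdm.scale hθ), setIntegral_congr_fun measurableSet_Ioi e,
      integral_finsetSum _ fun i _ => (log_integral hα (hC0 i θ hθ)).1.const_mul _, Finset.mul_sum]
    refine Finset.sum_congr rfl fun i _ => ?_
    rw [integral_const_mul, (log_integral hα (hC0 i θ hθ)).2]
    field_simp [(K0_pos hα).ne']
  have hint : ∀ i, IntervalIntegrable (fun θ => hA.eigenvalues i * C i θ ^ α) volume 0 1 :=
    fun i => (Continuous.intervalIntegrable
      (continuous_const.mul ((by simp only [hC]; fun_prop : Continuous (C i)).rpow_const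
        fun _ => Or.inr hα.1.le)) _ _)
  have hderiv : ∀ θ ∈ Ioo (0:ℝ) 1,
      HasDerivAt (fun t : ℝ => Psi α (t • A) M) (∑ i, hA.eigenvalues i * C i θ ^ α) θ := by
    intro θ hθ
    have hev : ∀ᶠ t : ℝ in 𝓝 0, Adm (θ • A + t • A) M := by
      have hc : Tendsto (fun t : ℝ => θ + t) (𝓝 0) (𝓝 θ) := by
        simpa using (tendsto_id (x := 𝓝 (0:ℝ))).const_add θ
      filter_upwards [hc (Icc_mem_nhds hθ.1 hθ.2)] with t ht
      rw [← add_smul]; exact hAdm.scale ht
    have hd := Psi_hasDerivAt hα hA hev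
    rw [hR θ (Ioo_subset_Icc_self hθ), ← sub_self θ] at hd
    refine (hd.comp_sub_const θ θ).congr_of_eventuallyEq (Eventually.of_forall fun t => ?_)
    show Psi α (t • A) M = Psi α (θ • A + (t - θ) • A) M
    rw [← add_smul, add_sub_cancel]
  have hcont : ContinuousOn (fun t : ℝ => Psi α (t • A) M) (Icc 0 1) := by
    intro θ hθ
    refine tendsto_of_seq_tendsto fun u hu => ?_
    obtain ⟨hu1, hu2⟩ := tendsto_nhdsWithin_iff.1 hu
    classical
    set v := fun k => if u k ∈ Icc (0:ℝ) 1 then u k else θ with hv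
    have hvm : ∀ k, v k ∈ Icc (0:ℝ) 1 := fun k => by
      simp only [hv]; split_ifs with hk <;> assumption
    have hve : v =ᶠ[atTop] u := hu2.mono fun k hk => if_pos hk
    have := Psi_tendsto hα (fun k => hAdm.scale (hvm k)) (hAdm.scale hθ)
      ((hu1.congr' hve.symm).smul_const A) tendsto_const_nhds
    exact this.congr' (hve.mono fun k hk => by simp [hk])
  have hftc := intervalIntegral.integral_eq_sub_of_hasDerivAt_of_le zero_le_one hcont hderiv
    (by simpa only [Finset.sum_fn] using IntervalIntegrable.sum Finset.univ fun i _ => hint i)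
  have h0 : Psi α (0 : Mat n) M = 0 := by simp [Psi, HH_zero]
  simp only [one_smul, zero_smul, h0, sub_zero] at hftc
  rw [← hftc, intervalIntegral.integral_finsetSum fun i _ => hint i]
  refine Finset.sum_congr rfl fun i _ => ?_
  rw [intervalIntegral.integral_const_mul]
  rfl

end Vale.Agent.P371G
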