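import Vale.Agent.P371G.LowDefs
import Vale.Agent.P371G.PsiProps
import Vale.Agent.P371G.Minimax

/-! # The maximisation in `M` at fixed `A`, for `1/2 < γ < 1`

Existence, uniqueness and continuity of the maximiser of `gpot`, and the bounds on the value. -/

namespace Vale.Agent.P371G

open Matrix Filter Topology
open scoped ComplexOrder MatrixOrder Matrix.Norms.L2Operator

variable {n : ℕ} {α ε : ℝ}

theorem GDom.posDef {A M : Mat n} (h : GDom A M) : M.PosDef := by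
  have := (h.2.add_posSemidef h.1.posSemidef).smul (show (0:ℝ) < 1 / 2 by norm_num)
  convert this using 1
  module

theorem GDom.adm {A M : Mat n} (h : GDom A M) : Adm A M :=
  ⟨h.1, sub_nonneg.1 h.2.posSemidef.nonneg, h.posDef⟩

theorem gdom_half {A : Mat n} (hA : 0 ≤ A) : GDom A ((1 / 2 : ℝ) • (A + 1)) :=
  ⟨hA, by convert (PosDef.one : (1 : Mat n).PosDef) using 1; module⟩

theorem pen_eq (A M : Mat n) : pen A M = rtr (A * A * ((2:ℝ) • M - A)⁻¹) := by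
  rw [pen, rtr_mul_comm, Matrix.mul_assoc]

theorem pen_nonneg {A M : Mat n} (h : GDom A M) : 0 ≤ pen A M := by
  rw [pen_eq]
  exact rtr_mul_nonneg (sq_nonneg_herm h.adm.herm) h.2.inv.posSemidef.nonneg

theorem inv_tendsto {P : ℕ → Mat n} {P₀ : Mat n} (h₀ : P₀.PosDef) (h : Tendsto P atTop (𝓝 P₀)) :
    Tendsto (fun k => (P k)⁻¹) atTop (𝓝 P₀⁻¹) := by
  have h2 : ContinuousAt Ring.inverse P₀.det := by
    rw [Ring.inverse_eq_inv']
    exact continuousAt_inv₀ ((Matrix.isUnit_iff_isUnit_det P₀).1 h₀.isUnit).ne_zero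
  exact (continuousAt_matrix_inv P₀ h2).tendsto.comp h

theorem gpot_tendsto (hα : α ∈ Set.Ioo (0 : ℝ) 1) (ε : ℝ) {R X A M : ℕ → Mat n}
    {R₀ X₀ A₀ M₀ : Mat n} (hd : ∀ᶠ k in atTop, GDom (A k) (M k)) (hd₀ : GDom A₀ M₀)
    (hR : Tendsto R atTop (𝓝 R₀)) (hX : Tendsto X atTop (𝓝 X₀)) (hA : Tendsto A atTop (𝓝 A₀))
    (hM : Tendsto M atTop (𝓝 M₀)) :
    Tendsto (fun k => gpot α ε (R k) (X k) (A k) (M k)) atTop
      (𝓝 (gpot α ε R₀ X₀ A₀ M₀)) := by
  have hP : Tendsto (fun k => Psi α (A k) (M k)) atTop (𝓝 (Psi α A₀ M₀)) := by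
    obtain ⟨N, hN⟩ := eventually_atTop.1 hd
    rw [← tendsto_add_atTop_iff_nat N]
    exact Psi_tendsto hα (fun k => (hN _ (Nat.le_add_left N k)).adm) hd₀.adm
      ((tendsto_add_atTop_iff_nat N).2 hA) ((tendsto_add_atTop_iff_nat N).2 hM)
  have hp : Tendsto (fun k => pen (A k) (M k)) atTop (𝓝 (pen A₀ M₀)) := by
    simp only [pen_eq]
    exact tendsto_rtr_mul (hA.mul hA) (inv_tendsto hd₀.2 ((hM.const_smul (2:ℝ)).sub hA))
  exact ((((tendsto_rtr_mul hR (hM.sub hA)).sub (tendsto_rtr_mul (hM.mul hM) hX)).add hP).add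
    (((lndet_tendsto hd₀.posDef (hd.mono fun k h => h.posDef) hM).sub hp).const_mul ε))

/-- Midpoint concavity of the potential in `M²`, with `A` possibly singular. -/
theorem psi_midpoint_low (hα : α ∈ Set.Ioo (0 : ℝ) 1) {A M M₀ M₁ : Mat n} (h : GDom A M)
    (h₀ : GDom A M₀) (h₁ : GDom A M₁) (hsq : M₀ * M₀ + M₁ * M₁ ≤ (2 : ℝ) • (M * M)) :
    Psi α A M₀ + Psi α A M₁ ≤ 2 * Psi α A M := by
  set η : ℕ → ℝ := fun k => 1 / ((k:ℝ) + 1)
  have hη : Tendsto η atTop (𝓝 0) := tendsto_one_div_add_atTop_nhds_zero_nat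
  have hA : Tendsto (fun k => A + η k • (1 : Mat n)) atTop (𝓝 A) := by
    simpa using (hη.smul_const (1 : Mat n)).const_add A
  have hpd : ∀ k, (A + η k • (1 : Mat n)).PosDef := fun k =>
    posDef_of_le (show 0 < η k by positivity) (le_add_of_nonneg_left h.1)
  have hev : ∀ {N : Mat n}, GDom A N → ∀ᶠ k in atTop, Adm (A + η k • (1 : Mat n)) N := by
    intro N hN
    have hl : Tendsto (fun k => (2:ℝ) • N - (A + η k • (1 : Mat n))) atTop (𝓝 ((2:ℝ) • N - A)) :=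
      tendsto_const_nhds.sub hA
    filter_upwards [eventually_posDef_seq hN.2
      (fun k => (smul_herm hN.posDef.1 2).sub (hpd k).1) hl] with k hk
    exact ⟨(hpd k).posSemidef.nonneg, sub_nonneg.1 hk.posSemidef.nonneg, hN.posDef⟩
  obtain ⟨K, hK⟩ := eventually_atTop.1 ((hev h).and ((hev h₀).and (hev h₁)))
  have hA' := (tendsto_add_atTop_iff_nat K).2 hA
  have hK' := fun k => hK (k + K) (Nat.le_add_left K k)
  exact le_of_tendsto_of_tendsto'
    ((Psi_tendsto hα (fun k => (hK' k).2.1) h₀.adm hA' tendsto_const_nhds).add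
      (Psi_tendsto hα (fun k => (hK' k).2.2) h₁.adm hA' tendsto_const_nhds))
    ((Psi_tendsto hα (fun k => (hK' k).1) h.adm hA' tendsto_const_nhds).const_mul 2)
    fun k => Psi_midpoint hα (hpd _) (hK' k).1 (hK' k).2.1 (hK' k).2.2 hsq

theorem psi_mono_low (hα : α ∈ Set.Ioo (0 : ℝ) 1) {A M M₀ : Mat n} (h : GDom A M)
    (h₀ : GDom A M₀) (hsq : M₀ * M₀ ≤ M * M) : Psi α A M₀ ≤ Psi α A M := by
  have := psi_midpoint_low hα h h₀ h₀ (by rw [two_smul]; exact add_le_add hsq hsq)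
  linarith

theorem psi_le_low (hα : α ∈ Set.Ioo (0 : ℝ) 1) {A M : Mat n} (h : GDom A M) {t : ℝ}
    (ht : Real.sqrt (rtr (M * M)) < t) : Psi α A M ≤ n * (8 * t ^ (2 * α + 1)) := by
  have hM := h.posDef
  have hs := Real.sqrt_nonneg (rtr (M * M))
  have ht0 : 0 < t := hs.trans_lt ht
  have hgap : ((t - Real.sqrt (rtr (M * M))) • (1 : Mat n)).PosDef :=
    PosDef.one.smul (sub_pos.2 ht)
  have hMt := le_sqrt_smul_one hM.1
  have hA2 := h.adm.le_two
  have hT : GDom A (t • (1 : Mat n)) := by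
    refine ⟨h.1, posDef_mono (hgap.smul (show (0:ℝ) < 2 by norm_num)) ?_⟩
    rw [← sub_nonneg]
    refine (add_nonneg (sub_nonneg.2 hA2)
      (smul_nonneg (show (0:ℝ) ≤ 2 by norm_num) (sub_nonneg.2 hMt))).trans_eq ?_
    module
  have hsq : M * M ≤ t • (1 : Mat n) * t • (1 : Mat n) := by
    rw [Matrix.smul_mul, Matrix.mul_smul, Matrix.one_mul, smul_smul]
    refine sq_le_smul_one hM.1 ?_
    nlinarith [Real.sq_sqrt (rtr_sq_nonneg hM.1)]
  refine (psi_mono_low hα hT h hsq).trans ?_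
  have hA := h.adm.herm
  have h2 : ∀ i, hA.eigenvalues i ≤ 2 * t := fun i => eig_le hA (by
    have := hT.adm.le_two; rwa [smul_smul] at this) i
  have hc := Psi_comm hα hA (fun _ => t) h.1 (fun _ => ht0) h2
  rw [fc_const hA] at hc
  rw [hc]
  refine (Finset.sum_le_card_nsmul _ _ (8 * t ^ (2 * α + 1)) fun i _ => ?_).trans_eq (by simp)
  set a := hA.eigenvalues i
  have ha : 0 ≤ a := h.1.posSemidef.eigenvalues_nonneg i
  have hc' : Continuous fun θ : ℝ => (θ * a * (2 * t - θ * a)) ^ α :=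
    Continuous.rpow_const (by fun_prop) fun θ => Or.inr hα.1.le
  have hint : (∫ θ in (0:ℝ)..1, (θ * a * (2 * t - θ * a)) ^ α) ≤ (4 * t ^ 2) ^ α := by
    refine (intervalIntegral.integral_mono_on (g := fun _ => (4 * t ^ 2) ^ α) zero_le_one
      (hc'.intervalIntegrable _ _) intervalIntegrable_const fun θ hθ => ?_).trans_eq (by simp)
    have h1 : θ * a ≤ 2 * t := (mul_le_of_le_one_left ha hθ.2).trans (h2 i)
    have h3 : 0 ≤ θ * a := mul_nonneg hθ.1 ha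
    exact Real.rpow_le_rpow (mul_nonneg h3 (by linarith)) (by nlinarith) hα.1.le
  have h4 : (4:ℝ) ^ α ≤ 4 := Real.rpow_le_self_of_one_le (by norm_num) hα.2.le
  calc gval α a t ≤ (2 * t) * (4 * t ^ 2) ^ α :=
        mul_le_mul (h2 i) hint (intervalIntegral.integral_nonneg zero_le_one fun θ hθ =>
          Real.rpow_nonneg (mul_nonneg (mul_nonneg hθ.1 ha)
            (by linarith [(mul_le_of_le_one_left ha hθ.2).trans (h2 i)])) _) (by positivity)
    _ = (4:ℝ) ^ α * (2 * t ^ (2 * α + 1)) := by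
        rw [Real.mul_rpow (by norm_num) (sq_nonneg t), Real.rpow_add_one ht0.ne',
          Real.rpow_mul ht0.le, Real.rpow_two]
        ring
    _ ≤ 4 * (2 * t ^ (2 * α + 1)) := mul_le_mul_of_nonneg_right h4 (by positivity)
    _ = 8 * t ^ (2 * α + 1) := by ring

/-- Powers below two are absorbed by the square. -/
theorem rpow_le_sq_add {p η : ℝ} (hp0 : 0 ≤ p) (hp : p < 2) (hη : 0 < η) :
    ∃ C, ∀ t : ℝ, 0 < t → t ^ p ≤ η * t ^ 2 + C := by
  set T := (1 / η) ^ (1 / (2 - p)) with hT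
  have hT0 : 0 < T := by positivity
  refine ⟨T ^ p, fun t ht => ?_⟩
  rcases le_total t T with h | h
  · exact (Real.rpow_le_rpow ht.le h hp0).trans (le_add_of_nonneg_left (by positivity))
  · have h1 : 1 / η ≤ t ^ (2 - p) := by
      have := Real.rpow_le_rpow hT0.le h (by linarith : (0:ℝ) ≤ 2 - p)
      rwa [hT, ← Real.rpow_mul (by positivity), one_div_mul_cancel (by linarith), Real.rpow_one]
        at this
    have h2 : 1 ≤ η * t ^ (2 - p) := by rwa [div_le_iff₀ hη, mul_comm] at h1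
    have h3 : t ^ (2 - p) * t ^ p = t ^ 2 := by
      rw [← Real.rpow_add ht, sub_add_cancel, Real.rpow_two]
    have h4 := mul_le_mul_of_nonneg_right h2 (Real.rpow_nonneg ht.le p)
    rw [one_mul, mul_assoc, h3] at h4
    linarith [Real.rpow_nonneg hT0.le p]

/-- The objective without barrier is bounded above, uniformly, with a quadratic margin. -/
theorem gpot_upper (hα : α ∈ Set.Ioo (0 : ℝ) (1 / 2)) {δ : ℝ} (hδ : 0 < δ) (Kr K : ℝ) :
    ∃ C, ∀ {R X A M : Mat n}, 0 ≤ R → rtr R ≤ Kr → δ • (1 : Mat n) ≤ X → GDom A M →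
      rtr (R * (M - A)) - rtr (M * M * X) + Psi α A M + K * Real.sqrt (rtr (M * M))
        + δ / 2 * rtr (M * M) ≤ C := by
  obtain ⟨C₁, hC₁⟩ := rpow_le_sq_add (p := 2 * α + 1) (η := δ / (64 * (n + 1)))
    (by linarith [hα.1]) (by linarith [hα.2]) (by positivity)
  refine ⟨(Kr + K) ^ 2 / δ + δ / 4 + n * (8 * C₁), fun {R X A M} hR hKr hX h => ?_⟩
  have hM := h.posDef
  set s := Real.sqrt (rtr (M * M))
  have hs : 0 ≤ s := Real.sqrt_nonneg _
  have hs2 : rtr (M * M) = s ^ 2 := (Real.sq_sqrt (rtr_sq_nonneg hM.1)).symm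
  have h1 := rtr_mul_le_left hR ((sub_le_self M h.1).trans (le_sqrt_smul_one hM.1))
  rw [Matrix.mul_smul, Matrix.mul_one, rtr_smul] at h1
  have h1' : s * rtr R ≤ s * Kr := mul_le_mul_of_nonneg_left hKr hs
  have h2 := rtr_mul_le_left (sq_nonneg_herm hM.1) hX
  rw [Matrix.mul_smul, Matrix.mul_one, rtr_smul] at h2
  have h3 := psi_le_low ⟨hα.1, hα.2.trans (by norm_num)⟩ h (t := s + 1) (lt_add_one s)
  have h4 : (n:ℝ) * (8 * (s + 1) ^ (2 * α + 1)) ≤ δ / 8 * (s + 1) ^ 2 + n * (8 * C₁) := by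
    have h5 := mul_le_mul_of_nonneg_left (hC₁ (s + 1) (by linarith)) (by positivity : (0:ℝ) ≤ 8 * n)
    have h6 : 8 * (n:ℝ) * (δ / (64 * (n + 1))) ≤ δ / 8 := by
      rw [← mul_div_assoc, div_le_div_iff₀ (by positivity) (by norm_num)]
      nlinarith
    nlinarith [mul_le_mul_of_nonneg_right h6 (sq_nonneg (s + 1))]
  have h7 : (Kr + K) * s ≤ δ / 4 * s ^ 2 + (Kr + K) ^ 2 / δ := by
    have : 0 ≤ (δ * s / 2 - (Kr + K)) ^ 2 / δ := by positivity
    have e : (δ * s / 2 - (Kr + K)) ^ 2 / δ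
        = δ / 4 * s ^ 2 - (Kr + K) * s + (Kr + K) ^ 2 / δ := by field_simp; ring
    linarith
  rw [hs2] at h2 ⊢
  nlinarith [mul_nonneg hδ.le (sq_nonneg (s - 1))]

theorem lndet_le_sqrt {M : Mat n} (hM : M.PosDef) :
    lndet M ≤ n * Real.sqrt (rtr (M * M)) ∧ rtr M ≤ n * Real.sqrt (rtr (M * M)) := by
  have h1 := rtr_mono (le_sqrt_smul_one hM.1)
  rw [rtr_smul, rtr_one, mul_comm] at h1
  exact ⟨(lndet_le_rtr hM).trans (by linarith [(Nat.cast_nonneg n : (0:ℝ) ≤ n)]), h1⟩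

/-- Lower bound from the trial point `2M = A + 1`. -/
theorem gpot_half_ge (hα : α ∈ Set.Ioo (0 : ℝ) 1) (hε : 0 ≤ ε) {R X A : Mat n} (hR : 0 ≤ R)
    (hX : 0 ≤ X) (hA : 0 ≤ A) :
    -(rtr R * rtr A) - rtr X * (n + rtr A) ^ 2 - ε * (n + rtr A ^ 2)
      ≤ gpot α ε R X A ((1 / 2 : ℝ) • (A + 1)) := by
  have hAh := herm_of_nonneg hA
  have ha : ∀ i, 0 ≤ hAh.eigenvalues i := fun i => hA.posSemidef.eigenvalues_nonneg i
  have hle : A ≤ rtr A • (1 : Mat n) := eig_le_rtr hA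
  set M := (1 / 2 : ℝ) • (A + 1) with hM
  have e : fc (fun x => 1 / 2 * (x + 1)) A = M := by
    rw [hM, ← fc_smul, ← fc_add, fc_id hAh, fc_one hAh]
  have hΨ0 : 0 ≤ Psi α A M := by
    rw [← e, Psi_comm hα hAh _ hA (fun i => by linarith [ha i]) (fun i => by linarith [ha i])]
    exact Finset.sum_nonneg fun i _ => gval_nonneg (ha i) (by linarith [ha i])
  have hl : -(n:ℝ) ≤ lndet M := by
    rw [lndet, ← e, fc_comp hAh, rtr_fc hAh]
    refine le_trans (by simp) (Finset.card_nsmul_le_sum _ _ (-1:ℝ) fun i _ => ?_)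
    have h1 := Real.one_sub_inv_le_log_of_pos (show 0 < 1 / 2 * (hAh.eigenvalues i + 1) by
      linarith [ha i])
    have h2 : (1 / 2 * (hAh.eigenvalues i + 1))⁻¹ ≤ 2 := by
      rw [inv_le_iff_one_le_mul₀ (by linarith [ha i])]; linarith [ha i]
    linarith
  have hp : pen A M ≤ rtr A ^ 2 := by
    rw [pen, show (2:ℝ) • M - A = 1 by rw [hM]; module, inv_one, Matrix.mul_one]
    have := rtr_mul_le_left hA hle
    rw [Matrix.mul_smul, Matrix.mul_one, rtr_smul] at this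
    exact this.trans_eq (sq _).symm
  have hMA : (-rtr A) • (1 : Mat n) ≤ M - A := by
    rw [← sub_nonneg]
    refine (add_nonneg (sub_nonneg.2 hle)
      (smul_nonneg (show (0:ℝ) ≤ 1 / 2 by norm_num) (add_nonneg hA zero_le_one))).trans_eq ?_
    rw [hM]; module
  have h1 := rtr_mul_le_left hR hMA
  rw [Matrix.mul_smul, Matrix.mul_one, rtr_smul] at h1
  have hM2 : M * M ≤ (n + rtr A) ^ 2 • (1 : Mat n) := by
    rw [← e, fc_mul, ← fc_const hAh ((n + rtr A) ^ 2)]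
    refine fc_mono hAh fun i => ?_
    have h4 := eig_le hAh hle i
    have h5 : (1:ℝ) ≤ n := by exact_mod_cast i.pos
    nlinarith [ha i]
  have h2 := rtr_mul_le_left hX hM2
  rw [Matrix.mul_smul X ((n + rtr A) ^ 2) (1 : Mat n), Matrix.mul_one, rtr_smul,
    rtr_mul_comm] at h2
  rw [gpot]
  nlinarith [mul_le_mul_of_nonneg_left hl hε, mul_le_mul_of_nonneg_left hp hε]

/-- Compactness of superlevel sets, along converging data. -/
theorem subseq_low (hα : α ∈ Set.Ioo (0 : ℝ) (1 / 2)) (hε : 0 < ε) {R X A M : ℕ → Mat n}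
    {R₀ X₀ A₀ : Mat n} (hR0 : ∀ k, 0 ≤ R k) (hR : Tendsto R atTop (𝓝 R₀))
    (hXh : ∀ k, (X k).IsHermitian) (hX : Tendsto X atTop (𝓝 X₀)) (hX₀ : X₀.PosDef)
    (hA : Tendsto A atTop (𝓝 A₀)) (hA₀ : 0 ≤ A₀) (hd : ∀ᶠ k in atTop, GDom (A k) (M k)) {c : ℝ}
    (hc : ∀ᶠ k in atTop, c ≤ gpot α ε (R k) (X k) (A k) (M k)) :
    ∃ M₀ : Mat n, ∃ φ : ℕ → ℕ, GDom A₀ M₀ ∧ StrictMono φ ∧ Tendsto (M ∘ φ) atTop (𝓝 M₀) := by
  obtain ⟨δ, hδ, hδev⟩ := eventually_smul_one_le hX₀ hXh hX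
  have e1 := ((rtr_continuous.tendsto _).comp hR).eventually (eventually_le_nhds (lt_add_one _))
  obtain ⟨C, hC⟩ := gpot_upper (n := n) hα hδ (rtr R₀ + 1) (ε * n)
  set S := Real.sqrt (max (2 * (C - c) / δ) 0)
  set L := (c - C) / ε with hL
  set η := Real.exp (L - n * (n * S))
  set W := ((-L + n * S) / 4 + n * S) / η ^ 2 + 1
  have key : ∀ᶠ k in atTop, ((M k).PosDef ∧ rtr (M k) ≤ n * S ∧ L ≤ lndet (M k)) ∧
      0 < W ∧ W⁻¹ • (1 : Mat n) ≤ (2:ℝ) • M k - A k := by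
    filter_upwards [hd, hδev, e1, hc] with k hd hδk (e1 : rtr (R k) ≤ rtr R₀ + 1) hc
    have hM := hd.posDef
    have hup := hC (hR0 k) e1 hδk hd
    obtain ⟨hld, htr⟩ := lndet_le_sqrt hM
    have hp := pen_nonneg hd
    have hq := rtr_sq_nonneg hM.1
    set s := Real.sqrt (rtr (M k * M k))
    have hs0 : 0 ≤ s := Real.sqrt_nonneg _
    simp only [gpot] at hc
    have h1 := mul_le_mul_of_nonneg_left hld hε.le
    have h1' := mul_nonneg hε.le hp
    have hsS : s ≤ S := by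
      refine Real.sqrt_le_sqrt (le_max_of_le_left ?_)
      rw [le_div_iff₀ hδ]
      nlinarith
    have hn0 : (0:ℝ) ≤ n := Nat.cast_nonneg n
    have hpos : 0 ≤ ε * n * s + δ / 2 * rtr (M k * M k) := by positivity
    have hlow : L ≤ lndet (M k) := by
      rw [hL, div_le_iff₀ hε]; linarith
    have hT : rtr (M k) ≤ n * S := htr.trans (mul_le_mul_of_nonneg_left hsS hn0)
    have hpen : pen (A k) (M k) ≤ -L + n * S := by
      have h2 : ε * pen (A k) (M k) ≤ ε * (-L + n * S) := by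
        rw [hL]
        have := mul_le_mul_of_nonneg_left (hld.trans (mul_le_mul_of_nonneg_left hsS hn0)) hε.le
        field_simp at this ⊢
        nlinarith
      exact le_of_mul_le_mul_left h2 hε
    have hMη : η • (1 : Mat n) ≤ M k := smul_one_le_of_lndet hM (by positivity) hT hlow
    set B := (2:ℝ) • M k - A k with hBdef
    have hB : B.PosDef := hd.2
    have e : pen (A k) (M k)
        = 4 * rtr (B⁻¹ * (M k * M k)) - 4 * rtr (M k) + rtr B := by
      rw [pen, ← hBdef, show A k = (2:ℝ) • M k - B by rw [hBdef]; module]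
      simp only [Matrix.sub_mul, Matrix.mul_sub, Matrix.smul_mul, Matrix.mul_smul, rtr_sub,
        rtr_smul, posDef_mul_inv hB, Matrix.mul_assoc, posDef_inv_mul hB, Matrix.one_mul,
        Matrix.mul_one]
      rw [rtr_mul_comm (M k) (B⁻¹ * M k), Matrix.mul_assoc]
      ring
    have hη2 : η ^ 2 • (1 : Mat n) ≤ M k * M k := by
      rw [← fc_const hM.1 (η ^ 2)]
      conv_rhs => rw [← fc_id hM.1, fc_mul]
      refine fc_mono hM.1 fun i => ?_
      nlinarith [le_eig hM.1 hMη i, Real.exp_pos (L - n * (n * S))]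
    have h3 := rtr_mul_le_left hB.inv.posSemidef.nonneg hη2
    rw [Matrix.mul_smul, Matrix.mul_one, rtr_smul] at h3
    have hBi := rtr_nonneg hB.inv.posSemidef.nonneg
    have h4 : rtr B⁻¹ ≤ W - 1 := by
      simp only [W, add_sub_cancel_right]
      rw [le_div_iff₀ (by positivity)]
      linarith [rtr_nonneg hB.posSemidef.nonneg]
    have hW : 0 < W := by linarith
    refine ⟨⟨hM, hT, hlow⟩, hW, ?_⟩
    have h5 : B⁻¹ ≤ W • (1 : Mat n) :=
      (eig_le_rtr hB.inv.posSemidef.nonneg).trans (smul_one_mono (by linarith))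
    have h6 := inv_antitone hB.inv h5
    rw [Matrix.nonsing_inv_nonsing_inv _ ((Matrix.isUnit_iff_isUnit_det B).1 hB.isUnit)] at h6
    refine le_of_eq_of_le (Matrix.inv_eq_left_inv ?_).symm h6
    rw [Matrix.smul_mul, Matrix.mul_smul, Matrix.one_mul, smul_smul, inv_mul_cancel₀ hW.ne',
      one_smul]
  obtain ⟨M₀, φ, hM₀, hφ, hlim⟩ := exists_subseq_posDef (key.mono fun k h => h.1)
  refine ⟨M₀, φ, ⟨hA₀, ?_⟩, hφ, hlim⟩
  obtain ⟨k, hk⟩ := key.exists
  refine posDef_of_le (inv_pos.2 hk.2.1) ?_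
  exact isClosed_Ici.mem_of_tendsto
    ((hlim.const_smul (2:ℝ)).sub (hA.comp hφ.tendsto_atTop))
    (hφ.tendsto_atTop.eventually (key.mono fun k h => h.2.2))

variable (hα : α ∈ Set.Ioo (0 : ℝ) (1 / 2)) (hε : 0 < ε)
include hα hε

/-- A maximiser exists. -/
theorem gmax_exists {R X A : Mat n} (hR : 0 ≤ R) (hX : X.PosDef) (hA : 0 ≤ A) :
    ∃ M, GMax α ε R X A M := by
  have hα1 : α ∈ Set.Ioo (0:ℝ) 1 := ⟨hα.1, hα.2.trans (by norm_num)⟩
  set V : Set ℝ := {v | ∃ M, GDom A M ∧ v = gpot α ε R X A M}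
  have hne : V.Nonempty := ⟨_, _, gdom_half hA, rfl⟩
  have hsub : ∀ {M : ℕ → Mat n}, (∀ k, GDom A (M k)) → ∀ {c : ℝ},
      (∀ k, c ≤ gpot α ε R X A (M k)) → ∃ M₀ : Mat n, ∃ φ : ℕ → ℕ, GDom A M₀ ∧ StrictMono φ ∧
        Tendsto (fun k => gpot α ε R X A (M (φ k))) atTop (𝓝 (gpot α ε R X A M₀)) := by
    intro M hM c hc
    obtain ⟨M₀, φ, hd, hφ, hlim⟩ := subseq_low hα hε (R := fun _ => R) (X := fun _ => X)
      (A := fun _ => A) (M := M) (fun _ => hR) tendsto_const_nhds (fun _ => hX.1)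
      tendsto_const_nhds hX tendsto_const_nhds hA (Eventually.of_forall hM)
      (Eventually.of_forall hc)
    exact ⟨M₀, φ, hd, hφ, gpot_tendsto hα1 ε (R := fun _ => R) (X := fun _ => X)
      (A := fun _ => A) (Eventually.of_forall fun k => hM (φ k)) hd tendsto_const_nhds
      tendsto_const_nhds tendsto_const_nhds hlim⟩
  have hbdd : BddAbove V := by
    by_contra hb
    rw [not_bddAbove_iff] at hb
    choose v hv hlt using fun k : ℕ => hb (k : ℝ)
    choose M hM hMv using hv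
    obtain ⟨M₀, φ, hd, hφ, ht⟩ := hsub hM (c := 0) fun k => by
      rw [← hMv]; exact (Nat.cast_nonneg k).trans (hlt k).le
    refine not_tendsto_atTop_of_tendsto_nhds ht (tendsto_atTop_mono (fun k => ?_)
      (tendsto_natCast_atTop_atTop.comp hφ.tendsto_atTop))
    simp only [Function.comp_apply]
    rw [← hMv]
    exact (hlt _).le
  obtain ⟨v, hv, hvt, hvm⟩ := exists_seq_tendsto_sSup hne hbdd
  choose M hM hMv using hvm
  obtain ⟨M₀, φ, hd, hφ, ht⟩ := hsub hM (c := v 0) fun k => by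
    rw [← hMv]; exact hv (Nat.zero_le k)
  refine ⟨M₀, hd, fun M' hM' => le_of_le_of_eq (le_csSup hbdd ⟨M', hM', rfl⟩) ?_⟩
  refine tendsto_nhds_unique (hvt.comp hφ.tendsto_atTop) ?_
  simpa only [Function.comp_def, ← hMv] using ht

/-- The maximiser is unique. -/
theorem gmax_unique {R X A M₀ M₁ : Mat n} (hR : 0 ≤ R) (h₀ : GMax α ε R X A M₀)
    (h₁ : GMax α ε R X A M₁) : M₀ = M₁ := by
  have hα1 : α ∈ Set.Ioo (0:ℝ) 1 := ⟨hα.1, hα.2.trans (by norm_num)⟩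
  have hA := h₀.1.1
  have hp₀ := h₀.1.posDef
  have hp₁ := h₁.1.posDef
  set S := (1 / 2 : ℝ) • (M₀ * M₀ + M₁ * M₁) with hS
  have hS0 : 0 ≤ S :=
    smul_nonneg (by norm_num) (add_nonneg (sq_nonneg_herm hp₀.1) (sq_nonneg_herm hp₁.1))
  have hSh : S.IsHermitian := herm_of_nonneg hS0
  set M := fc Real.sqrt S with hM
  have hMM : M * M = S := by
    rw [hM, fc_mul]
    conv_rhs => rw [← fc_id hSh]
    exact fc_congr hSh fun i => Real.mul_self_sqrt (hS0.posSemidef.eigenvalues_nonneg i)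
  have hM0 : 0 ≤ M := fc_nonneg hSh fun i => Real.sqrt_nonneg _
  set Q := (1 / 2 : ℝ) • (M₀ + M₁) with hQ
  have hQp : Q.PosDef := (hp₀.add hp₁).smul (by norm_num)
  have hQM : Q ≤ M := by
    refine le_of_sq_le hQp.1 (fc_herm _ _) (by
      simpa [add_comm] using hQp.add_posSemidef hM0.posSemidef) ?_
    rw [hMM, ← sub_nonneg]
    have hd := smul_nonneg (show (0:ℝ) ≤ 1 / 4 by norm_num) (sq_nonneg_herm (hp₀.1.sub hp₁.1))
    refine hd.trans_eq ?_
    rw [hS, hQ]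
    simp only [Matrix.smul_mul, Matrix.mul_smul, Matrix.add_mul, Matrix.mul_add,
      Matrix.sub_mul, Matrix.mul_sub]
    module
  have hle : ((2:ℝ) • M₀ - A) + ((2:ℝ) • M₁ - A) ≤ (2:ℝ) • ((2:ℝ) • M - A) := by
    rw [← sub_nonneg]
    refine (smul_nonneg (show (0:ℝ) ≤ 4 by norm_num) (sub_nonneg.2 hQM)).trans_eq ?_
    rw [hQ]; module
  have hB : ((2:ℝ) • M - A).PosDef := by
    have h := (posDef_mono (h₀.1.2.add h₁.1.2) hle).smul (show (0:ℝ) < 1 / 2 by norm_num)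
    convert h using 1
    module
  have hd : GDom A M := ⟨hA, hB⟩
  have hsum : M₀ * M₀ + M₁ * M₁ = (2:ℝ) • (M * M) := by rw [hMM, hS]; module
  have hmid := psi_midpoint_low hα1 hd h₀.1 h₁.1 hsum.le
  have hsq : ∀ {P : Mat n}, P.PosDef → (P * P).PosDef ∧ lndet (P * P) = 2 * lndet P := by
    intro P hP
    have e : P * P = fc (fun x => x * x) P := by
      conv_lhs => rw [← fc_id hP.1, fc_mul]
    refine ⟨?_, ?_⟩
    · rw [e]; exact fc_posDef hP.1 fun i => mul_pos (hP.eigenvalues_pos i) (hP.eigenvalues_pos i)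
    · rw [lndet, lndet, e, fc_comp hP.1, rtr_fc hP.1, rtr_fc hP.1, Finset.mul_sum]
      exact Finset.sum_congr rfl fun i _ => by
        rw [Real.log_mul (hP.eigenvalues_pos i).ne' (hP.eigenvalues_pos i).ne']; ring
  obtain ⟨hl, heq⟩ := lndet_midpoint (hsq hd.posDef).1 (hsq hp₀).1 (hsq hp₁).1 hsum.le
  rw [(hsq hd.posDef).2, (hsq hp₀).2, (hsq hp₁).2] at hl heq
  have hpen : 2 * pen A M ≤ pen A M₀ + pen A M₁ := by
    have := rtr_mul_le_left (sq_nonneg_herm (herm_of_nonneg hA))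
      (inv_midpoint hB h₀.1.2 h₁.1.2 hle)
    simpa only [pen_eq, Matrix.mul_add, Matrix.mul_smul, rtr_add, rtr_smul] using this
  have hlin := rtr_mul_le_left hR (show (M₀ - A) + (M₁ - A) ≤ (2:ℝ) • (M - A) by
    rw [← sub_nonneg]
    refine (smul_nonneg (show (0:ℝ) ≤ 2 by norm_num) (sub_nonneg.2 hQM)).trans_eq ?_
    rw [hQ]; module)
  rw [Matrix.mul_add, rtr_add, Matrix.mul_smul, rtr_smul] at hlin
  have hq : rtr (M₀ * M₀ * X) + rtr (M₁ * M₁ * X) = 2 * rtr (M * M * X) := by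
    rw [← rtr_add, ← Matrix.add_mul, hsum, Matrix.smul_mul, rtr_smul]
  have a₀ := h₀.2 M hd
  have a₁ := h₁.2 M hd
  simp only [gpot] at a₀ a₁
  have hsqeq := heq (by nlinarith [mul_le_mul_of_nonneg_left hpen hε.le])
  exact le_antisymm (le_of_sq_le hp₀.1 hp₁.1 (hp₁.add hp₀) hsqeq.le)
    (le_of_sq_le hp₁.1 hp₀.1 (hp₀.add hp₁) hsqeq.ge)

theorem gArg_spec {R X A : Mat n} (hR : 0 ≤ R) (hX : X.PosDef) (hA : 0 ≤ A) :
    GMax α ε R X A (gArg α ε R X A) :=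
  Classical.epsilon_spec (gmax_exists hα hε hR hX hA)

theorem gVal_eq_of_gmax {R X A M : Mat n} (hR : 0 ≤ R) (hX : X.PosDef) (h : GMax α ε R X A M) :
    gVal α ε R X A = gpot α ε R X A M := by
  rw [gVal, gmax_unique hα hε hR (gArg_spec hα hε hR hX h.1.1) h]

/-- The maximiser depends continuously on the data. -/
theorem gArg_tendsto {R X A : ℕ → Mat n} {R₀ X₀ A₀ : Mat n} (hR0 : ∀ k, 0 ≤ R k)
    (hR : Tendsto R atTop (𝓝 R₀)) (hX0 : ∀ k, (X k).PosDef) (hX : Tendsto X atTop (𝓝 X₀))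
    (hX₀ : X₀.PosDef) (hA0 : ∀ k, 0 ≤ A k) (hA : Tendsto A atTop (𝓝 A₀)) :
    Tendsto (fun k => gArg α ε (R k) (X k) (A k)) atTop (𝓝 (gArg α ε R₀ X₀ A₀)) := by
  have hα1 : α ∈ Set.Ioo (0:ℝ) 1 := ⟨hα.1, hα.2.trans (by norm_num)⟩
  have hR₀ : 0 ≤ R₀ := isClosed_Ici.mem_of_tendsto hR (Eventually.of_forall hR0)
  have hA₀ : 0 ≤ A₀ := isClosed_Ici.mem_of_tendsto hA (Eventually.of_forall hA0)
  set M := fun k => gArg α ε (R k) (X k) (A k)
  have hm : ∀ k, GMax α ε (R k) (X k) (A k) (M k) := fun k =>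
    gArg_spec hα hε (hR0 k) (hX0 k) (hA0 k)
  have hhalf := gpot_tendsto hα1 ε (Eventually.of_forall fun k => gdom_half (hA0 k))
    (gdom_half hA₀) hR hX hA ((hA.add_const 1).const_smul (1 / 2 : ℝ))
  have hev : ∀ᶠ k in atTop, gpot α ε R₀ X₀ A₀ ((1 / 2 : ℝ) • (A₀ + 1)) - 1
      ≤ gpot α ε (R k) (X k) (A k) (M k) := by
    filter_upwards [hhalf.eventually (eventually_ge_nhds (sub_one_lt _))] with k hk
    exact hk.trans ((hm k).2 _ (gdom_half (hA0 k)))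
  refine tendsto_of_subseq_tendsto fun ns hns => ?_
  obtain ⟨M', φ, hd, hφ, hlim⟩ := subseq_low hα hε (M := M ∘ ns) (fun k => hR0 (ns k))
    (hR.comp hns) (fun k => (hX0 (ns k)).1) (hX.comp hns) hX₀ (hA.comp hns) hA₀
    (Eventually.of_forall fun k => (hm (ns k)).1) (hns.eventually hev)
  refine ⟨φ, ?_⟩
  have hψ : Tendsto (ns ∘ φ) atTop atTop := hns.comp hφ.tendsto_atTop
  have hlim' : Tendsto (fun k => M (ns (φ k))) atTop (𝓝 M') := hlim
  suffices GMax α ε R₀ X₀ A₀ M' by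
    rwa [gmax_unique hα hε hR₀ (gArg_spec hα hε hR₀ hX₀ hA₀) this]
  refine ⟨hd, fun M₂ hM₂ => ?_⟩
  have hd2 : ∀ᶠ k in atTop, GDom (A k) M₂ :=
    (eventually_posDef_seq hM₂.2 (fun k => (smul_herm hM₂.posDef.1 2).sub (herm_of_nonneg (hA0 k)))
      (tendsto_const_nhds.sub hA)).mono fun k hk => ⟨hA0 k, hk⟩
  have t1 := gpot_tendsto hα1 ε (M := fun _ => M₂) (hψ.eventually hd2) hM₂ (hR.comp hψ)
    (hX.comp hψ) (hA.comp hψ) tendsto_const_nhds
  have t2 := gpot_tendsto hα1 ε (Eventually.of_forall fun k => (hm (ns (φ k))).1) hd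
    (hR.comp hψ) (hX.comp hψ) (hA.comp hψ) hlim'
  refine le_of_tendsto_of_tendsto t1 t2 ?_
  filter_upwards [hψ.eventually hd2] with k hk2
  exact (hm _).2 _ hk2

/-- The value depends continuously on the data. -/
theorem gVal_tendsto {R X A : ℕ → Mat n} {R₀ X₀ A₀ : Mat n} (hR0 : ∀ k, 0 ≤ R k)
    (hR : Tendsto R atTop (𝓝 R₀)) (hX0 : ∀ k, (X k).PosDef) (hX : Tendsto X atTop (𝓝 X₀))
    (hX₀ : X₀.PosDef) (hA0 : ∀ k, 0 ≤ A k) (hA : Tendsto A atTop (𝓝 A₀)) :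
    Tendsto (fun k => gVal α ε (R k) (X k) (A k)) atTop (𝓝 (gVal α ε R₀ X₀ A₀)) :=
  gpot_tendsto ⟨hα.1, hα.2.trans (by norm_num)⟩ ε
    (Eventually.of_forall fun k => (gArg_spec hα hε (hR0 k) (hX0 k) (hA0 k)).1)
    (gArg_spec hα hε (isClosed_Ici.mem_of_tendsto hR (Eventually.of_forall hR0)) hX₀
      (isClosed_Ici.mem_of_tendsto hA (Eventually.of_forall hA0))).1
    hR hX hA (gArg_tendsto hα hε hR0 hR hX0 hX hX₀ hA0 hA)

theorem gVal_zero_le {R X : Mat n} (hR : 0 ≤ R) {δ : ℝ} (hδ : 0 < δ)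
    (hX : δ • (1 : Mat n) ≤ X) :
    gVal α ε R X 0 ≤ (rtr R + ε * n) ^ 2 / (4 * δ) := by
  obtain ⟨M, hm⟩ := gmax_exists hα hε hR (posDef_of_le hδ hX) le_rfl
  rw [gVal_eq_of_gmax hα hε hR (posDef_of_le hδ hX) hm]
  have hM := hm.1.posDef
  have hΨ : Psi α (0 : Mat n) M = 0 := by simp [Psi, HH_zero]
  rw [gpot, sub_zero, hΨ, pen, Matrix.zero_mul, Matrix.mul_zero, rtr_zero]
  obtain ⟨hl, -⟩ := lndet_le_sqrt hM
  have h1 := rtr_mul_le_left hR (le_sqrt_smul_one hM.1)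
  rw [Matrix.mul_smul, Matrix.mul_one, rtr_smul] at h1
  have h2 := rtr_mul_le_left (sq_nonneg_herm hM.1) hX
  rw [Matrix.mul_smul, Matrix.mul_one, rtr_smul] at h2
  have h3 := mul_le_mul_of_nonneg_left hl hε.le
  have h4 : rtr (M * M) = Real.sqrt (rtr (M * M)) ^ 2 :=
    (Real.sq_sqrt (rtr_sq_nonneg hM.1)).symm
  set s := Real.sqrt (rtr (M * M)) with hs
  have h5 : (rtr R + ε * n) * s - δ * s ^ 2 ≤ (rtr R + ε * n) ^ 2 / (4 * δ) := by
    rw [le_div_iff₀ (by linarith)]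
    nlinarith [sq_nonneg (2 * δ * s - (rtr R + ε * n))]
  rw [h4] at h2
  linarith

theorem gVal_ge {R X A : Mat n} (hR : 0 ≤ R) (hX : X.PosDef) (hA : 0 ≤ A) :
    -(rtr R * rtr A) - rtr X * (n + rtr A) ^ 2 - ε * (n + rtr A ^ 2) ≤ gVal α ε R X A :=
  (gpot_half_ge ⟨hα.1, hα.2.trans (by norm_num)⟩ hε.le hR hX.posSemidef.nonneg hA).trans
    ((gArg_spec hα hε hR hX hA).2 _ (gdom_half hA))

omit hε in
theorem gVal_large {δ : ℝ} (hδ : 0 < δ) (Kr C : ℝ) :
    ∃ Λ, ∀ ε ∈ Set.Ioc (0:ℝ) 1, ∀ R X A : Mat n, 0 ≤ R → rtr R ≤ Kr → δ • (1 : Mat n) ≤ X →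
      0 ≤ A → Λ ≤ rtr A → gVal α ε R X A ≤ -C := by
  obtain ⟨C₀, hC₀⟩ := gpot_upper (n := n) hα hδ Kr n
  refine ⟨2 * n * Real.sqrt (max (2 * (C₀ + C) / δ) 0) + 1,
    fun ε hε R X A hR hKr hX hA hΛ => ?_⟩
  have hXp := posDef_of_le hδ hX
  obtain ⟨M, hm⟩ := gmax_exists hα hε.1 hR hXp hA
  rw [gVal_eq_of_gmax hα hε.1 hR hXp hm, gpot]
  have hM := hm.1.posDef
  have hup := hC₀ hR hKr hX hm.1
  obtain ⟨hl, htr⟩ := lndet_le_sqrt hM
  have hp := mul_nonneg hε.1.le (pen_nonneg hm.1)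
  have hA2 := rtr_mono hm.1.adm.le_two
  rw [rtr_smul] at hA2
  set s := Real.sqrt (rtr (M * M)) with hs
  have hs0 : 0 ≤ s := Real.sqrt_nonneg _
  have hl1 : ε * lndet M ≤ n * s :=
    (mul_le_mul_of_nonneg_left hl hε.1.le).trans (mul_le_of_le_one_left (by positivity) hε.2)
  have h1 : Real.sqrt (max (2 * (C₀ + C) / δ) 0) < s :=
    lt_of_mul_lt_mul_left (a := 2 * (n:ℝ)) (by linarith) (by positivity)
  have h2 : 2 * (C₀ + C) / δ ≤ s ^ 2 := by
    have := (Real.sqrt_le_sqrt_iff (rtr_sq_nonneg hM.1)).1 h1.le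
    rw [hs, Real.sq_sqrt (rtr_sq_nonneg hM.1)]
    exact (le_max_left _ _).trans this
  rw [div_le_iff₀ hδ, hs, Real.sq_sqrt (rtr_sq_nonneg hM.1)] at h2
  linarith

omit hε in
theorem gmax_level {δ : ℝ} (hδ : 0 < δ) (Kr Kx Ka : ℝ) :
    ∃ K, ∀ ε ∈ Set.Ioc (0:ℝ) 1, ∀ R X A M : Mat n, 0 ≤ R → rtr R ≤ Kr → δ • (1 : Mat n) ≤ X →
      rtr X ≤ Kx → 0 ≤ A → rtr A ≤ Ka → GMax α ε R X A M → rtr (M * M) ≤ K := by
  obtain ⟨C₀, hC₀⟩ := gpot_upper (n := n) hα hδ Kr n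
  refine ⟨2 * (C₀ + Kr * Ka + Kx * (n + Ka) ^ 2 + (n + Ka ^ 2)) / δ,
    fun ε hε R X A M hR hKr hX hKx hA hKa hm => ?_⟩
  have hX0 : 0 ≤ X := (smul_nonneg hδ.le zero_le_one).trans hX
  have hlo := (gpot_half_ge (α := α) ⟨hα.1, hα.2.trans (by norm_num)⟩ hε.1.le hR hX0 hA).trans
    (hm.2 _ (gdom_half hA))
  rw [gpot] at hlo
  have hM := hm.1.posDef
  have hup := hC₀ hR hKr hX hm.1
  have hl1 : ε * lndet M ≤ n * Real.sqrt (rtr (M * M)) :=
    (mul_le_mul_of_nonneg_left (lndet_le_sqrt hM).1 hε.1.le).trans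
      (mul_le_of_le_one_left (by positivity) hε.2)
  have hp := mul_nonneg hε.1.le (pen_nonneg hm.1)
  have ha := rtr_nonneg hA
  have hn : (0:ℝ) ≤ n := Nat.cast_nonneg n
  have h1 := mul_le_mul hKr hKa ha ((rtr_nonneg hR).trans hKr)
  have h2 := mul_le_mul hKx (pow_le_pow_left₀ (by positivity) (add_le_add_right hKa (n:ℝ)) 2)
    (by positivity) ((rtr_nonneg hX0).trans hKx)
  have h3 : ε * (n + rtr A ^ 2) ≤ n + Ka ^ 2 :=
    (mul_le_of_le_one_left (by positivity) hε.2).trans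
      (add_le_add_right (pow_le_pow_left₀ ha hKa 2) _)
  rw [le_div_iff₀ hδ]
  linarith

/-- Stationarity of the penalty along `M + t`. -/
theorem gmax_pen_stat {R X A M : Mat n} (hR : 0 ≤ R) (h : GMax α ε R X A M) :
    ε * rtr (A * ((2:ℝ) • M - A)⁻¹ * ((2:ℝ) • M - A)⁻¹ * A) ≤ rtr (M * X) := by
  set B := (2:ℝ) • M - A with hBdef
  have hB : B.PosDef := h.1.2
  have hM := h.1.posDef
  have key : ∀ t > (0:ℝ),
      ε * rtr (A * A * B⁻¹ * (B + (2 * t) • (1 : Mat n))⁻¹) ≤ rtr (M * X) + t / 2 * rtr X := by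
    intro t ht
    set N := M + t • (1 : Mat n) with hN
    have hB' : (B + (2 * t) • (1 : Mat n)).PosDef := hB.add (PosDef.one.smul (by linarith))
    have e : (2:ℝ) • N - A = B + (2 * t) • (1 : Mat n) := by rw [hN, hBdef]; module
    have hd : GDom A N := ⟨h.1.1, by rw [e]; exact hB'⟩
    have hNN : N * N = M * M + ((2 * t) • M + (t * t) • (1 : Mat n)) := by
      rw [hN]
      simp only [Matrix.add_mul, Matrix.mul_add, Matrix.smul_mul, Matrix.mul_smul, Matrix.one_mul,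
        Matrix.mul_one]
      module
    have hΨ := psi_mono_low ⟨hα.1, hα.2.trans (by norm_num)⟩ hd h.1 (by
      rw [hNN]
      exact le_add_of_nonneg_right (add_nonneg (smul_nonneg (by linarith) hM.posSemidef.nonneg)
        (smul_nonneg (by positivity) zero_le_one)))
    have hl : lndet M ≤ lndet N := by
      have h1 := lndet_le_tangent hM hd.posDef
      rw [show M - N = (-t) • (1 : Mat n) by rw [hN]; module, Matrix.smul_mul, Matrix.one_mul,
        rtr_smul] at h1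
      nlinarith [rtr_nonneg hd.posDef.inv.posSemidef.nonneg]
    have hinv : B⁻¹ - (B + (2 * t) • (1 : Mat n))⁻¹
        = (2 * t) • (B⁻¹ * (B + (2 * t) • (1 : Mat n))⁻¹) := by
      calc _ = B⁻¹ * ((B + (2 * t) • (1 : Mat n)) - B) * (B + (2 * t) • (1 : Mat n))⁻¹ := by
            rw [Matrix.mul_sub, Matrix.sub_mul, Matrix.mul_assoc, posDef_mul_inv hB',
              Matrix.mul_one, posDef_inv_mul hB, Matrix.one_mul]
        _ = _ := by rw [add_sub_cancel_left, Matrix.mul_smul, Matrix.mul_one, Matrix.smul_mul]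
    have hpen : pen A M - pen A N
        = 2 * t * rtr (A * A * B⁻¹ * (B + (2 * t) • (1 : Mat n))⁻¹) := by
      rw [pen_eq, pen_eq, e, ← hBdef, ← rtr_sub, ← Matrix.mul_sub, hinv, Matrix.mul_smul,
        rtr_smul, ← Matrix.mul_assoc]
    have hRN : rtr (R * (N - A)) = rtr (R * (M - A)) + t * rtr R := by
      rw [hN, show M + t • (1 : Mat n) - A = (M - A) + t • (1 : Mat n) by abel, Matrix.mul_add,
        rtr_add, Matrix.mul_smul, Matrix.mul_one, rtr_smul]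
    have hq : rtr (N * N * X) = rtr (M * M * X) + (2 * t * rtr (M * X) + t * t * rtr X) := by
      rw [hNN]
      simp only [Matrix.add_mul, Matrix.smul_mul, Matrix.one_mul, rtr_add, rtr_smul]
    have hmax := h.2 N hd
    simp only [gpot, hRN, hq] at hmax
    refine le_of_mul_le_mul_left (a := 2 * t) ?_ (by linarith)
    nlinarith [mul_le_mul_of_nonneg_left hl hε.le, mul_nonneg ht.le (rtr_nonneg hR)]
  set τ : ℕ → ℝ := fun k => 1 / ((k:ℝ) + 1)
  have hτ : Tendsto τ atTop (𝓝 0) := tendsto_one_div_add_atTop_nhds_zero_nat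
  have hB1 : Tendsto (fun k => B + (2 * τ k) • (1 : Mat n)) atTop (𝓝 B) := by
    simpa using ((hτ.const_mul 2).smul_const (1 : Mat n)).const_add B
  have t1 := (tendsto_rtr_mul (A := fun _ : ℕ => A * A * B⁻¹) tendsto_const_nhds
    (inv_tendsto hB hB1)).const_mul ε
  have t2 : Tendsto (fun k => rtr (M * X) + τ k / 2 * rtr X) atTop (𝓝 (rtr (M * X))) := by
    simpa using ((hτ.div_const 2).mul_const (rtr X)).const_add (rtr (M * X))
  refine le_trans (le_of_eq ?_) (le_of_tendsto_of_tendsto' t1 t2 fun k => key _ (by positivity))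
  rw [rtr_mul_comm (A * B⁻¹ * B⁻¹) A]
  simp only [Matrix.mul_assoc]

end Vale.Agent.P371G
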