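import Vale.Agent.P371G.PathStep
import Vale.Agent.P371G.LowMax
import Vale.Agent.P371G.Brouwer

/-! # The dual inequality for `1/2 < γ < 1`

For every weight `D` the discretised projected descent gives `value ≤ ∫ (kinetic_D - tr ρ_D^q)`.
A fixed point in `D` makes the endpoint of the path equal to `2 √E`. -/

namespace Vale.Agent.P371G

open Matrix Filter Topology MeasureTheory
open scoped ComplexOrder MatrixOrder Matrix.Norms.L2Operator
open Vale.Agent.P371M

variable {m n : ℕ}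

theorem maxAPI {α : ℝ} (hα : α ∈ Set.Ioo (0 : ℝ) (1 / 2)) : MaxAPI α where
  spec hε _ hR hX hA := gArg_spec hα hε hR hX hA
  uniq hε _ hR _ h₀ h₁ := gmax_unique hα hε hR h₀ h₁
  tend hε _ hR0 hR _ hX0 hX hX₀ hA0 hA _ := ⟨gArg_tendsto hα hε hR0 hR hX0 hX hX₀ hA0 hA,
    gVal_tendsto hα hε hR0 hR hX0 hX hX₀ hA0 hA⟩
  zero_le hε _ hδ hR hX := gVal_zero_le hα hε hR hδ hX
  large _ hδ Kr C := gVal_large hα hδ Kr C
  level _ hδ Kr Kx Ka := gmax_level hα hδ Kr Kx Ka
  pen_stat hε _ hR _ h := gmax_pen_stat hα hε hR h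

namespace PData

variable {d : PData m n}

/-- The discretised descent path. -/
noncomputable def path (d : PData m n) (K Λ2 Δ : ℝ) (D : Mat n) : ℕ → Mat n
  | 0 => 0
  | k + 1 => clampT Λ2 (path d K Λ2 Δ D k + (K * Δ) • d.Z D (d.a + k * Δ) (path d K Λ2 Δ D k))

variable {K Λ Λ2 Δ : ℝ} {N : ℕ}

/-- The parameters of the discretisation. -/
structure Grid (d : PData m n) (K Λ2 Δ : ℝ) (N : ℕ) : Prop where
  hK : 0 ≤ K
  hΛ2 : 0 < Λ2
  hΔ : 0 ≤ Δ
  hh : K * Δ ≤ 1
  hN : d.a + N * Δ = d.b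

theorem pt_grid (hg : Grid d K Λ2 Δ N) {D : Mat n} (hD : 0 ≤ D) {k : ℕ} (hk : k ≤ N) :
    d.Pt D (d.a + k * Δ) := by
  refine ⟨hD, le_add_of_nonneg_right (mul_nonneg (Nat.cast_nonneg k) hg.hΔ), ?_⟩
  rw [← hg.hN]
  have := mul_le_mul_of_nonneg_right (Nat.cast_le.2 hk : (k : ℝ) ≤ N) hg.hΔ
  linarith

theorem step_nonneg (hd : d.Ok) (hM : MaxAPI (d.γ - 1 / 2)) {D B : Mat n} {x : ℝ}
    (h : d.Pt D x) (hB : 0 ≤ B) {e : ℝ} (he : e ∈ Set.Icc (0 : ℝ) 1) :
    0 ≤ B + e • d.Z D x B := by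
  have h1 := mpos_nonneg ((herm_of_nonneg hB).sub (G_herm hd hM h hB))
  refine (add_nonneg (smul_nonneg he.1 h1) (smul_nonneg (sub_nonneg.2 he.2) hB)).trans_eq ?_
  simp only [Z]; module

theorem path_mem (hd : d.Ok) (hM : MaxAPI (d.γ - 1 / 2)) (hg : Grid d K Λ2 Δ N) {D : Mat n}
    (hD : 0 ≤ D) : ∀ k ≤ N, d.path K Λ2 Δ D k ∈ psdBall n Λ2 := by
  intro k
  induction k with
  | zero => exact fun _ => ⟨le_rfl, by rw [path, rtr_zero]; exact hg.hΛ2.le⟩
  | succ k ih =>
    intro hk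
    exact clampT_mem hg.hΛ2 (step_nonneg hd hM (pt_grid hg hD (by omega)) (ih (by omega)).1
      ⟨mul_nonneg hg.hK hg.hΔ, hg.hh⟩)

theorem path_tendsto (hd : d.Ok) (hM : MaxAPI (d.γ - 1 / 2)) (hg : Grid d K Λ2 Δ N)
    {D : ℕ → Mat n} {D₀ : Mat n} (hD : ∀ j, 0 ≤ D j) (hD₀ : 0 ≤ D₀)
    (h : Tendsto D atTop (𝓝 D₀)) : ∀ k ≤ N,
      Tendsto (fun j => d.path K Λ2 Δ (D j) k) atTop (𝓝 (d.path K Λ2 Δ D₀ k)) := by
  intro k
  induction k with
  | zero => exact fun _ => tendsto_const_nhds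
  | succ k ih =>
    intro hk
    have hk' : k ≤ N := by omega
    refine ((continuous_clampT hg.hΛ2).tendsto _).comp ((ih hk').add ((Z_tendsto hd hM
      (fun j => pt_grid hg (hD j) hk') (pt_grid hg hD₀ hk')
      (fun j => (path_mem hd hM hg (hD j) k hk').1) (path_mem hd hM hg hD₀ k hk').1 h
      tendsto_const_nhds (ih hk')).const_smul (K * Δ)))

theorem path_value (hd : d.Ok) (hM : MaxAPI (d.γ - 1 / 2)) (hg : Grid d K Λ2 Δ N) {c : ℝ}
    (hc : 0 ≤ c) {D : Mat n} (hD : 0 ≤ D)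
    (hstep : ∀ x, d.Pt D x → d.Pt D (x + Δ) → ∀ B ∈ psdBall n Λ2,
      B + (K * Δ) • d.Z D x B ∈ psdBall n Λ2 →
      d.V D (x + Δ) (B + (K * Δ) • d.Z D x B) - d.V D x B - (∫ t in x..x + Δ, d.src D t) ≤ c)
    (hbig : ∀ x, d.Pt D x → ∀ B : Mat n, 0 ≤ B → rtr B = Λ2 →
      d.V D x B - (∫ t in d.a..x, d.src D t) ≤ 0) :
    ∀ k ≤ N, d.V D (d.a + k * Δ) (d.path K Λ2 Δ D k) - (∫ t in d.a..d.a + k * Δ, d.src D t)
      ≤ max (d.V D d.a 0) 0 + k * c := by
  intro k
  induction k with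
  | zero => intro _; simp [path]
  | succ k ih =>
    intro hk
    have hk' : k ≤ N := by omega
    have hp := pt_grid hg hD hk'
    have hp1 := pt_grid hg hD hk
    have hm := path_mem hd hM hg hD k hk'
    set B := d.path K Λ2 Δ D k
    have h0 := step_nonneg hd hM hp hm.1 ⟨mul_nonneg hg.hK hg.hΔ, hg.hh⟩
    have e : d.a + ((k + 1 : ℕ) : ℝ) * Δ = d.a + k * Δ + Δ := by push_cast; ring
    rw [e] at hp1 ⊢
    have hc' : ((k + 1 : ℕ) : ℝ) * c = k * c + c := by push_cast; ring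
    rw [hc', path]
    rcases le_or_gt (rtr (B + (K * Δ) • d.Z D (d.a + k * Δ) B)) Λ2 with h | h
    · rw [clampT_of_le hg.hΛ2 h]
      have h1 := hstep _ hp hp1 B hm ⟨h0, h⟩
      have hs := src_cont hd hD
      have h2 := intervalIntegral.integral_add_adjacent_intervals
        (hs.intervalIntegrable (μ := volume) d.a (d.a + k * Δ))
        (hs.intervalIntegrable (μ := volume) (d.a + k * Δ) (d.a + k * Δ + Δ))
      have := ih hk'
      linarith
    · have h1 := hbig _ hp1 _ (clampT_nonneg hg.hΛ2 h0) (clampT_of_gt hg.hΛ2 h)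
      have := mul_nonneg (Nat.cast_nonneg k : (0 : ℝ) ≤ k) hc
      linarith [le_max_right (d.V D d.a 0) 0]

theorem exists_large (hd : d.Ok) (hM : MaxAPI (d.γ - 1 / 2)) (Λ : ℝ) :
    ∃ Λ2 > (0 : ℝ), ∀ ε ∈ Set.Ioc (0 : ℝ) 1, ∀ D : Mat n, ∀ x, d.Pt D x → rtr D ≤ Λ →
      ∀ B : Mat n, 0 ≤ B → rtr B = Λ2 →
        PData.V { d with ε := ε } D x B - (∫ t in d.a..x, d.src D t) ≤ 0 := by
  obtain ⟨Kr, Kx, hRX⟩ := bounds_RX hd Λ
  have hc : ContinuousOn (fun p : Mat n × ℝ => wPow d.γ p.1 (d.A p.2))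
      (psdBall n Λ ×ˢ Set.Icc d.a d.b) := by
    intro p hp
    refine tendsto_iff_seq_tendsto.2 fun u hu => ?_
    obtain ⟨hu1, hu2⟩ := tendsto_nhdsWithin_iff.1 hu
    obtain ⟨k₀, hk₀⟩ := eventually_atTop.1 hu2
    refine (tendsto_add_atTop_iff_nat k₀).1 ?_
    exact wPow_tendsto hd (fun k => (hk₀ _ (Nat.le_add_left k₀ k)).1.1) hp.1.1
      ((tendsto_add_atTop_iff_nat (f := fun k => (u k).1) k₀).2 hu1.fst_nhds)
      ((tendsto_add_atTop_iff_nat (f := fun k => (u k).2) k₀).2 hu1.snd_nhds)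
  obtain ⟨Qb, hQb⟩ :=
    ((isCompact_psdBall (n := n) Λ).prod isCompact_Icc).bddAbove_image hc
  obtain ⟨L, hL⟩ := hM.large (n := n) d.δ hd.hδ Kr (max Qb 0 * (d.b - d.a))
  refine ⟨max L 1, lt_max_of_lt_right one_pos, fun ε hε D x hP hΛ B hB hBt => ?_⟩
  have h1 := hL ε hε _ _ B (R_nonneg (d := d) D x) (hRX D x hP hΛ).1 (X_ge (D := D) hd hP.2.1) hB
    ((le_max_left _ _).trans_eq hBt.symm)
  have h2 : ∀ t ∈ Set.Icc d.a x, -max Qb 0 ≤ d.src D t := by
    intro t ht
    have hk : 0 ≤ wKin D (d.A' t) := by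
      rw [wKin]; exact rtr_mul_nonneg hP.1 (posSemidef_conjTranspose_mul_self _).nonneg
    have hq : wPow d.γ D (d.A t) ≤ Qb :=
      hQb ⟨(D, t), ⟨⟨hP.1, hΛ⟩, ht.1, ht.2.trans hP.2.2⟩, rfl⟩
    have := le_max_left Qb 0
    simp only [src]
    linarith
  have h3 := intervalIntegral.integral_mono_on hP.2.1 intervalIntegrable_const
    ((src_cont hd hP.1).intervalIntegrable (μ := volume) d.a x) h2
  rw [intervalIntegral.integral_const, smul_eq_mul] at h3
  have h4 : (x - d.a) * max Qb 0 ≤ (d.b - d.a) * max Qb 0 :=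
    mul_le_mul_of_nonneg_right (by linarith [hP.2.2]) (le_max_right _ _)
  have h5 : PData.V { d with ε := ε } D x B ≤ -(max Qb 0 * (d.b - d.a)) := h1
  linarith

/-- On the kernel of `D` the path stays zero. -/
theorem path_kernel (hd : d.Ok) (hM : MaxAPI (d.γ - 1 / 2)) (hg : Grid d K Λ2 Δ N) {D P : Mat n}
    (hD : 0 ≤ D) (hP : P.IsHermitian) (hPP : P * P = P) (hDP : D * P = 0) :
    ∀ k ≤ N, d.path K Λ2 Δ D k * P = 0 := by
  have hW : msqrt D * P = 0 := fc_mul_kernel (herm_of_nonneg hD) hDP Real.sqrt_zero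
  have hPW : P * msqrt D = 0 := by
    simpa [hP.eq, (msqrt_herm D).eq] using congrArg Matrix.conjTranspose hW
  set U : Mat n := 1 - (2 : ℝ) • P with hU
  have hUh : Uᴴ = U := by
    rw [hU, Matrix.conjTranspose_sub, Matrix.conjTranspose_one, Matrix.conjTranspose_smul,
      star_trivial, hP.eq]
  have hUU : U * U = 1 := by
    rw [hU]
    simp only [Matrix.sub_mul, Matrix.mul_sub, Matrix.one_mul, Matrix.mul_one, Matrix.smul_mul,
      Matrix.mul_smul, hPP]
    module
  have hfix : ∀ Y : Mat n, Y * P = 0 → P * Y = 0 → U * Y * U = Y := by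
    intro Y h1 h2
    rw [hU]
    simp only [Matrix.sub_mul, Matrix.mul_sub, Matrix.one_mul, Matrix.mul_one, Matrix.smul_mul,
      Matrix.mul_smul, h1, h2, smul_zero, sub_zero]
  clear_value U
  intro k
  induction k with
  | zero => intro _; simp [path]
  | succ k ih =>
    intro hk
    have hk' : k ≤ N := by omega
    have hp := pt_grid hg hD hk'
    have hm := path_mem hd hM hg hD k hk'
    have hBP := ih hk'
    set x := d.a + (k : ℝ) * Δ
    set B := d.path K Λ2 Δ D k
    have hBh := herm_of_nonneg hm.1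
    have hPB : P * B = 0 := by
      simpa [hP.eq, hBh.eq] using congrArg Matrix.conjTranspose hBP
    have hRP : d.R D x * P = 0 := by
      rw [R, wDen, Matrix.mul_assoc _ (msqrt D) P, hW, Matrix.mul_zero]
    have hPR : P * d.R D x = 0 := by
      rw [R, wDen, ← Matrix.mul_assoc, ← Matrix.mul_assoc, hPW, Matrix.zero_mul, Matrix.zero_mul]
    have hspec := M_spec hd hM hp hm.1
    set M := d.M D x B with hMdef
    have hMh := (adm_of_gdom hspec.1).posDef.1
    have hUR : U * d.R D x * U = d.R D x := hfix _ hRP hPR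
    have hUB : U * B * U = B := hfix _ hBP hPB
    have hUX : U * d.X D x * U = d.X D x := by
      have h1 := hfix (msqrt D * gramInt d.A d.a x * msqrt D)
        (by rw [Matrix.mul_assoc _ (msqrt D) P, hW, Matrix.mul_zero])
        (by rw [← Matrix.mul_assoc, ← Matrix.mul_assoc, hPW, Matrix.zero_mul, Matrix.zero_mul])
      rw [X, Matrix.mul_add, Matrix.add_mul, h1, Matrix.mul_smul, Matrix.smul_mul,
        Matrix.mul_one, hUU]
    have hUUh : Uᴴ * U = 1 := by rw [hUh, hUU]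
    have hUUh' : U * Uᴴ = 1 := by rw [hUh, hUU]
    have hgd : GDom B (U * M * U) := by
      refine ⟨hm.1, ?_⟩
      have := hspec.1.2.conjTranspose_mul_mul_same
        (B := U) (Matrix.mulVec_injective_iff_isUnit.2 (IsUnit.of_mul_eq_one _ hUU))
      rw [hUh] at this
      convert this using 1
      conv_lhs => rw [← hUB]
      simp [Matrix.mul_sub, Matrix.sub_mul]
    have hval : gpot (d.γ - 1 / 2) d.ε (d.R D x) (d.X D x) B (U * M * U)
        = gpot (d.γ - 1 / 2) d.ε (d.R D x) (d.X D x) B M := by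
      have e1 : rtr (d.R D x * (U * M * U - B)) = rtr (d.R D x * (M - B)) := by
        rw [Matrix.mul_sub, Matrix.mul_sub, rtr_sub, rtr_sub, ← Matrix.mul_assoc, rtr_mul_comm,
          ← Matrix.mul_assoc, ← Matrix.mul_assoc, hUR]
      have e2 : rtr (U * M * U * (U * M * U) * d.X D x) = rtr (M * M * d.X D x) := by
        have : U * M * U * (U * M * U) = U * (M * M) * U := by
          rw [show U * M * U * (U * M * U) = U * M * (U * U) * M * U by
            simp only [Matrix.mul_assoc], hUU]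
          simp only [Matrix.mul_one, Matrix.mul_assoc]
        rw [this]
        conv_lhs => rw [Matrix.mul_assoc, rtr_mul_comm]
        rw [← Matrix.mul_assoc, Matrix.mul_assoc, ← Matrix.mul_assoc (U * d.X D x), hUX,
          rtr_mul_comm]
      have e3 := Psi_conj hUUh hUUh' (d.γ - 1 / 2) (adm_of_gdom hspec.1)
      have e4 := pen_conj hUUh hUUh' B M
      have e5 := lndet_conj hUUh hUUh' hMh
      rw [hUh] at e3 e4 e5
      rw [hUB] at e3 e4
      rw [gpot, gpot, e1, e2, e3, e4, e5]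
    have hmax : GMax (d.γ - 1 / 2) d.ε (d.R D x) (d.X D x) B (U * M * U) :=
      ⟨hgd, fun M' hM' => (hspec.2 M' hM').trans_eq hval.symm⟩
    have hUMU := hM.uniq hd.hε hd.hε1 (R_nonneg D x) (X_pos hd hp.2.1) hmax hspec
    have hMP : M * P = P * M := by
      have h1 : U * M = M * U := by
        have := congrArg (fun Y => Y * U) hUMU
        simp only [Matrix.mul_assoc _ U U, hUU, Matrix.mul_one] at this
        exact this
      rw [hU] at h1
      simp only [Matrix.sub_mul, Matrix.mul_sub, Matrix.one_mul, Matrix.mul_one, Matrix.smul_mul,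
        Matrix.mul_smul] at h1
      have h2 := congrArg (fun Y => (1 / 2 : ℝ) • (M - Y)) h1
      simp only [sub_sub_cancel, smul_smul] at h2
      norm_num at h2
      exact h2.symm
    set I := ((2 : ℝ) • M - B)⁻¹ with hI
    have hIP : I * P = P * I := by
      have hBc : ((2 : ℝ) • M - B) * P = P * ((2 : ℝ) • M - B) := by
        rw [Matrix.sub_mul, Matrix.mul_sub, hBP, hPB, Matrix.smul_mul, Matrix.mul_smul, hMP]
      calc I * P = I * (P * ((2 : ℝ) • M - B)) * I := by
            rw [Matrix.mul_assoc I, Matrix.mul_assoc P, posDef_mul_inv hspec.1.2, Matrix.mul_one]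
        _ = P * I := by
            rw [← hBc, ← Matrix.mul_assoc I, posDef_inv_mul hspec.1.2, Matrix.one_mul]
    have hGP : d.G D x B * P = 0 := by
      have h1 := Rhat_mul_kernel (alpha_mem hd) (adm_of_gdom hspec.1) hP hBP hMP
      have h2 : penGrad B M * P = 0 := by
        rw [penGrad, ← hI, Matrix.add_mul, Matrix.add_mul, Matrix.mul_assoc I B P, hBP,
          Matrix.mul_assoc B I P, hIP, ← Matrix.mul_assoc B P I, hBP,
          Matrix.mul_assoc (I * B * B) I P, hIP, ← Matrix.mul_assoc (I * B * B) P I,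
          Matrix.mul_assoc (I * B) B P, hBP]
        simp
      rw [G, ggrad, ← hMdef, Matrix.sub_mul, Matrix.sub_mul, h1, hRP, Matrix.smul_mul, h2]
      simp
    have hZP : d.Z D x B * P = 0 := by
      rw [Z, Matrix.sub_mul, hBP, sub_zero, mpos]
      refine fc_mul_kernel (hBh.sub (G_herm hd hM hp hm.1)) ?_ (max_self 0)
      rw [Matrix.sub_mul, hBP, hGP, sub_zero]
    rw [path, clampT, Matrix.smul_mul, Matrix.add_mul, hBP, Matrix.smul_mul, hZP]
    simp

end PData

/-! ### The fixed point -/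

/-- If the endpoint map vanishes on the kernel and is large on the boundary, it hits the target. -/
theorem exists_target {Λ : ℝ} (hΛ : 0 < Λ) (P : Mat n → Mat n) (AE : Mat n)
    (hAE : 0 ≤ AE) (hP0 : ∀ D ∈ psdBall n Λ, 0 ≤ P D)
    (hc : ∀ (D : ℕ → Mat n) (D₀ : Mat n), (∀ j, D j ∈ psdBall n Λ) → D₀ ∈ psdBall n Λ →
      Tendsto D atTop (𝓝 D₀) → Tendsto (fun j => P (D j)) atTop (𝓝 (P D₀)))
    (hker : ∀ D ∈ psdBall n Λ, ∀ Q : Mat n, Q.IsHermitian → Q * Q = Q → D * Q = 0 →
      P D * Q = 0)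
    (hbd : ∀ D ∈ psdBall n Λ, rtr D = Λ → rtr AE < rtr (P D)) :
    ∃ D ∈ psdBall n Λ, P D = AE := by
  have hsym : ∀ X : Mat n, ((1 / 2 : ℝ) • (X + Xᴴ)).IsHermitian := fun X =>
    smul_herm (isHermitian_add_transpose_self X) _
  set ret : Mat n → Mat n := fun X => clampT Λ (mpos ((1 / 2 : ℝ) • (X + Xᴴ))) with hret
  have hretm : ∀ X, ret X ∈ psdBall n Λ := fun X => clampT_mem hΛ (mpos_nonneg (hsym X))
  have hretc : Continuous ret := by
    refine (continuous_clampT hΛ).comp (continuousOn_univ.1 ?_)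
    have h1 : Continuous fun X : Mat n => (1 / 2 : ℝ) • (X + Xᴴ) := by fun_prop
    exact continuousOn_fc (continuous_id.max continuous_const) h1.continuousOn fun X _ => hsym X
  have hPc : Continuous fun X => P (ret X) := continuous_iff_seqContinuous.2 fun u u₀ hu =>
    hc _ _ (fun j => hretm (u j)) (hretm u₀) ((hretc.tendsto u₀).comp hu)
  obtain ⟨C, hC⟩ := (isCompact_psdBall (n := n) Λ).exists_bound_of_continuousOn
    (f := fun X : Mat n => X) continuousOn_id
  obtain ⟨X, hX⟩ := brouwer_bounded (f := fun X => ret (ret X - (P (ret X) - AE)))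
    (hretc.comp (hretc.sub (hPc.sub continuous_const)))
    ⟨C, fun X => hC _ (hretm _)⟩
  have hXm : X ∈ psdBall n Λ := by rw [← hX]; exact hretm _
  have hretX : ret X = X := by
    have hH := herm_of_nonneg hXm.1
    have e1 : (1 / 2 : ℝ) • (X + Xᴴ) = X := by rw [hH.eq]; module
    have e2 : mpos X = X := by
      conv_rhs => rw [← fc_id hH]
      exact fc_congr hH fun i => max_eq_left (hXm.1.posSemidef.eigenvalues_nonneg i)
    simp only [hret, e1, e2]
    exact clampT_of_le hΛ hXm.2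
  simp only [hretX] at hX
  refine ⟨X, hXm, ?_⟩
  set Y := X - (P X - AE) with hY
  have hYh : Y.IsHermitian :=
    (herm_of_nonneg hXm.1).sub ((herm_of_nonneg (hP0 X hXm)).sub (herm_of_nonneg hAE))
  have hsy : (1 / 2 : ℝ) • (Y + Yᴴ) = Y := by rw [hYh.eq]; module
  simp only [hret, hsy] at hX
  set c := Λ / max Λ (rtr (mpos Y)) with hc'
  have hXc : X = fc (fun y => c * max y 0) Y := by
    conv_lhs => rw [← hX]
    rw [clampT, ← hc', mpos, fc_smul]
  have hv : P X - AE = fc (fun y => c * max y 0 - y) Y := by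
    conv_rhs => rw [← fc_sub, fc_id hYh, ← hXc]
    rw [hY]; abel
  set Q := fc (fun y => if 0 < y then 0 else 1) Y with hQ
  have hQQ : Q * Q = Q := by
    rw [hQ, fc_mul]
    exact fc_congr hYh fun i => by split <;> simp
  have hXQ : X * Q = 0 := by
    rw [hXc, hQ, fc_mul, ← zero_smul ℝ (1 : Mat n), ← fc_const hYh]
    refine fc_congr hYh fun i => ?_
    split
    · simp
    · next h => simp [max_eq_right (not_lt.1 h)]
  have hPQ : P X * Q = 0 := hker X hXm Q (fc_herm _ _) hQQ hXQ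
  have hQ0 : 0 ≤ Q := fc_nonneg hYh fun i => by split <;> simp
  have hc0 : 0 ≤ c := div_nonneg hΛ.le (hΛ.le.trans (le_max_left _ _))
  rcases le_or_gt (rtr (mpos Y)) Λ with h | h
  · have hc1 : c = 1 := by rw [hc', max_eq_left h, div_self hΛ.ne']
    have hv0 : 0 ≤ P X - AE := by
      rw [hv, hc1]
      exact fc_nonneg hYh fun i => by simp
    have hvQ : (P X - AE) * Q = P X - AE := by
      rw [hv, hQ, fc_mul, hc1]
      refine fc_congr hYh fun i => ?_
      split
      · next h => simp [max_eq_left h.le]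
      · simp
    have h1 : rtr (P X - AE) ≤ 0 := by
      conv_lhs => rw [← hvQ]
      rw [Matrix.sub_mul, rtr_sub, hPQ, rtr_zero, zero_sub]
      exact neg_nonpos.2 (rtr_mul_nonneg hAE hQ0)
    have hH := herm_of_nonneg hv0
    refine sub_eq_zero.1 ?_
    ext i j
    have h2 := norm_entry_le hH i j
    have h3 : rtr ((P X - AE) * (P X - AE)) ≤ 0 := by
      refine (rtr_mul_le_rtr hv0 hv0).trans ?_
      nlinarith [rtr_nonneg hv0]
    rw [Real.sqrt_eq_zero'.2 h3, norm_le_zero_iff] at h2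
    simpa using h2
  · exfalso
    have hXt : rtr X = Λ := by rw [← hX]; exact clampT_of_gt hΛ h
    have hb := hbd X hXm hXt
    have h1 : rtr ((P X - AE) * (1 - Q)) ≤ 0 := by
      rw [hv, hQ, ← fc_one hYh, fc_sub, fc_mul, rtr_fc hYh]
      refine Finset.sum_nonpos fun i _ => ?_
      split
      · next h' =>
        rw [max_eq_left h'.le, sub_zero, mul_one]
        have : c < 1 := by
          rw [hc', max_eq_right h.le, div_lt_one (hΛ.trans h)]; exact h
        nlinarith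
      · simp
    rw [Matrix.mul_sub, Matrix.mul_one, Matrix.sub_mul, hPQ, zero_sub, rtr_sub, rtr_sub,
      rtr_neg] at h1
    have h2 := rtr_mul_nonneg hAE hQ0
    linarith

/-! ### Endpoint bounds -/

theorem wPow_lower {γ : ℝ} (hγ : γ ∈ Set.Ioo (1 / 2 : ℝ) 1) (hn : 0 < n) (D : Mat n)
    (a : Matrix (Fin m) (Fin n) ℂ) {s : ℝ} (hs : 0 < s) :
    s ^ ((γ + 1 / 2) / (γ - 1 / 2) - 1) * (rtr (wDen D a) / n - s) ≤ wPow γ D a := by
  set q := (γ + 1 / 2) / (γ - 1 / 2) with hq
  have hq1 : 1 ≤ q := by rw [hq, one_le_div (by linarith [hγ.1])]; linarith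
  have h := (wDen_nonneg D a).posSemidef
  have : Nonempty (Fin n) := ⟨⟨0, hn⟩⟩
  obtain ⟨i, -, hi⟩ := Finset.exists_max_image Finset.univ h.1.eigenvalues Finset.univ_nonempty
  have hle : rtr (wDen D a) / n ≤ h.1.eigenvalues i := by
    rw [div_le_iff₀ (Nat.cast_pos.2 hn), rtr_eq_sum_eig h.1]
    refine (Finset.sum_le_sum fun j _ => hi j (Finset.mem_univ j)).trans_eq ?_
    rw [Finset.sum_const, Finset.card_univ, Fintype.card_fin, nsmul_eq_mul, mul_comm]
  rw [wPow_eq, ← hq, rtr_fc h.1]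
  refine le_trans ?_ (Finset.single_le_sum (f := fun j => h.1.eigenvalues j ^ q)
    (fun j _ => Real.rpow_nonneg (h.eigenvalues_nonneg j) _) (Finset.mem_univ i))
  rcases le_or_gt (h.1.eigenvalues i) s with h' | h'
  · exact (mul_nonpos_of_nonneg_of_nonpos (Real.rpow_nonneg hs.le _) (by linarith)).trans
      (Real.rpow_nonneg (h.eigenvalues_nonneg i) _)
  · have hx : 0 < h.1.eigenvalues i := hs.trans h'
    calc s ^ (q - 1) * (rtr (wDen D a) / n - s) ≤ s ^ (q - 1) * h.1.eigenvalues i :=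
          mul_le_mul_of_nonneg_left (by linarith) (Real.rpow_nonneg hs.le _)
      _ ≤ h.1.eigenvalues i ^ (q - 1) * h.1.eigenvalues i :=
          mul_le_mul_of_nonneg_right (Real.rpow_le_rpow hs.le h'.le (by linarith)) hx.le
      _ = h.1.eigenvalues i ^ q := by rw [← Real.rpow_add_one' hx.le (by linarith)]; ring_nf

theorem rtr_mul_gramInt {A : ℝ → Matrix (Fin m) (Fin n) ℂ}
    (hA : ∀ i j, Continuous fun x => A x i j) (D : Mat n) (a b : ℝ) :
    rtr (D * gramInt A a b) = ∫ x in a..b, rtr (D * ((A x)ᴴ * A x)) := by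
  have hc : Continuous fun x => (A x)ᴴ * A x := by
    have hA' : Continuous A := continuous_pi fun i => continuous_pi fun j => hA i j
    exact hA'.matrix_conjTranspose.matrix_mul hA'
  have hd : ∀ x, HasDerivAt (fun y => rtr (D * gramInt A a y)) (rtr (D * ((A x)ᴴ * A x))) x :=
    fun x => PData.rtr_mul_deriv (fun i j =>
      ((continuous_apply_apply i j).comp hc |>.integral_hasStrictDerivAt a x).hasDerivAt) D
  rw [intervalIntegral.integral_eq_sub_of_hasDerivAt (fun x _ => hd x)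
    (Continuous.intervalIntegrable (rtr_continuous.comp (continuous_const.mul hc)) _ _)]
  have : gramInt A a a = 0 := by ext i j; simp [gramInt]
  rw [this, Matrix.mul_zero, rtr_zero, sub_zero]

end Vale.Agent.P371G
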