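import Mathlib

/-!
P371: the Golden–Thompson inequality `tr exp (X + Y) ≤ tr (exp X * exp Y)` for Hermitian matrices.

For Hermitian `A`, `B` the inequality `‖tr ((A B) ^ 2^n)‖ ≤ ‖tr (A ^ 2^n * B ^ 2^n)‖` follows from
the Cauchy-Schwarz inequality of the trace by induction, and the Lie product formula gives the rest.
-/

noncomputable section

namespace Vale.Agent.P371G.GoldenThompson

open Matrix NormedSpace Filter Topology

variable {n : Type} [Fintype n]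

theorem re_trace_conjTranspose_mul_self (Z : Matrix n n ℂ) :
    (trace (Zᴴ * Z)).re = ∑ i, ∑ j, ‖Z j i‖ ^ 2 ∧ (trace (Zᴴ * Z)).im = 0 := by
  have h : trace (Zᴴ * Z) = ((∑ i, ∑ j, ‖Z j i‖ ^ 2 : ℝ) : ℂ) := by
    simp only [trace, diag, mul_apply, conjTranspose_apply, Complex.ofReal_sum, Complex.ofReal_pow,
      ← Complex.conj_mul', RCLike.star_def]
  rw [h]
  exact ⟨Complex.ofReal_re _, Complex.ofReal_im _⟩

/-- Cauchy-Schwarz for `Z` and `Zᴴ`. -/
theorem norm_trace_sq_le (Z : Matrix n n ℂ) : ‖trace (Z * Z)‖ ≤ ‖trace (Zᴴ * Z)‖ := by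
  refine le_trans ?_ (Complex.re_le_norm _)
  rw [(re_trace_conjTranspose_mul_self Z).1]
  have h1 : ‖trace (Z * Z)‖ ≤ ∑ i, ∑ j, ‖Z i j‖ * ‖Z j i‖ := by
    refine (norm_sum_le _ _).trans (Finset.sum_le_sum fun i _ => ?_)
    rw [diag_apply, mul_apply]
    exact (norm_sum_le _ _).trans_eq (Finset.sum_congr rfl fun j _ => norm_mul _ _)
  refine h1.trans ?_
  have h2 : ∑ i, ∑ j, ‖Z i j‖ ^ 2 = ∑ i, ∑ j, ‖Z j i‖ ^ 2 := Finset.sum_comm
  calc ∑ i, ∑ j, ‖Z i j‖ * ‖Z j i‖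
      ≤ ∑ i, ∑ j, (‖Z i j‖ ^ 2 + ‖Z j i‖ ^ 2) / 2 :=
        Finset.sum_le_sum fun i _ => Finset.sum_le_sum fun j _ => by
          nlinarith [sq_nonneg (‖Z i j‖ - ‖Z j i‖)]
    _ = ∑ i, ∑ j, ‖Z j i‖ ^ 2 := by
        simp only [← Finset.sum_div, Finset.sum_add_distrib, h2]
        ring

variable [DecidableEq n]

theorem trace_pow_comm (X Y : Matrix n n ℂ) (k : ℕ) :
    trace ((X * Y) ^ k) = trace ((Y * X) ^ k) := by
  cases k with
  | zero => simp
  | succ k =>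
    have e : ∀ m, (X * Y) ^ m * X = X * (Y * X) ^ m := fun m => by
      induction m with
      | zero => simp
      | succ m ih => rw [pow_succ', mul_assoc, ih, pow_succ']; simp only [mul_assoc]
    rw [pow_succ, ← mul_assoc, e, trace_mul_comm, ← mul_assoc, pow_succ']

/-- Powers of two by repeated squaring. -/
theorem trace_two_pow_le (k : ℕ) :
    (∀ Z : Matrix n n ℂ, ‖trace (Z ^ 2 ^ (k + 1))‖ ≤ ‖trace ((Zᴴ * Z) ^ 2 ^ k)‖) ∧
      ∀ A B : Matrix n n ℂ, A.IsHermitian → B.IsHermitian →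
        ‖trace ((A * B) ^ 2 ^ k)‖ ≤ ‖trace (A ^ 2 ^ k * B ^ 2 ^ k)‖ := by
  induction k with
  | zero => exact ⟨fun Z => by simpa [pow_two] using norm_trace_sq_le Z, fun A B _ _ => by simp⟩
  | succ k ih =>
    obtain ⟨H, G⟩ := ih
    have G' : ∀ A B : Matrix n n ℂ, A.IsHermitian → B.IsHermitian →
        ‖trace ((A * B) ^ 2 ^ (k + 1))‖ ≤ ‖trace (A ^ 2 ^ (k + 1) * B ^ 2 ^ (k + 1))‖ := by
      intro A B hA hB
      refine (H (A * B)).trans ?_
      rw [conjTranspose_mul, hA.eq, hB.eq,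
        show B * A * (A * B) = B * (A ^ 2 * B) by simp only [pow_two, mul_assoc], trace_pow_comm,
        show A ^ 2 * B * B = A ^ 2 * B ^ 2 by simp only [pow_two, mul_assoc]]
      refine (G _ _ (hA.pow 2) (hB.pow 2)).trans_eq ?_
      simp only [← pow_mul, ← pow_succ']
    refine ⟨fun Z => ?_, G'⟩
    rw [pow_succ' 2 (k + 1), pow_mul]
    refine (H (Z ^ 2)).trans ?_
    rw [show (Z ^ 2)ᴴ * Z ^ 2 = Zᴴ * ((Zᴴ * Z) * Z) by
        simp only [pow_two, conjTranspose_mul, mul_assoc], trace_pow_comm,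
      show Zᴴ * Z * Z * Zᴴ = Zᴴ * Z * (Z * Zᴴ) by simp only [mul_assoc]]
    refine (G _ _ (isHermitian_conjTranspose_mul_self Z) (isHermitian_mul_conjTranspose_self Z)).trans
      ?_
    set p := 2 ^ k
    have hA := (isHermitian_conjTranspose_mul_self Z).pow p
    have hB := (isHermitian_mul_conjTranspose_self Z).pow p
    have key : ‖trace ((Zᴴ * Z) ^ p * (Z * Zᴴ) ^ p)‖ ^ 2 ≤
        ‖trace ((Zᴴ * Z) ^ p * (Zᴴ * Z) ^ p)‖ * ‖trace ((Z * Zᴴ) ^ p * (Z * Zᴴ) ^ p)‖ := by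
      have ha := re_trace_conjTranspose_mul_self ((Zᴴ * Z) ^ p)
      have hb := re_trace_conjTranspose_mul_self ((Z * Zᴴ) ^ p)
      rw [hA.eq] at ha
      rw [hB.eq] at hb
      refine le_trans ?_ (mul_le_mul (Complex.re_le_norm _) (Complex.re_le_norm _) ?_ (norm_nonneg _))
      · have hcs := Finset.sum_mul_sq_le_sq_mul_sq Finset.univ
          (fun x : n × n => ‖((Zᴴ * Z) ^ p) x.1 x.2‖) fun x => ‖((Z * Zᴴ) ^ p) x.2 x.1‖
        simp only [Fintype.sum_prod_type] at hcs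
        rw [ha.1, hb.1, Finset.sum_comm (f := fun i j => ‖((Zᴴ * Z) ^ p) j i‖ ^ 2)]
        refine le_trans (pow_le_pow_left₀ (norm_nonneg _) ?_ 2) hcs
        refine (norm_sum_le _ _).trans (Finset.sum_le_sum fun i _ => ?_)
        rw [diag_apply, mul_apply]
        exact (norm_sum_le _ _).trans_eq (Finset.sum_congr rfl fun j _ => norm_mul _ _)
      · rw [hb.1]; positivity
    rw [← pow_add, ← pow_add, trace_pow_comm Z Zᴴ, ← sq] at key
    rw [show 2 ^ (k + 1) = p + p by simp only [p]; ring]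
    exact pow_le_pow_iff_left₀ (norm_nonneg _) (norm_nonneg _) two_ne_zero |>.1 key

section Lie

variable {𝔸 : Type} [NormedRing 𝔸] [NormOneClass 𝔸]

theorem norm_pow_sub_pow_le (a b : 𝔸) {M : ℝ} (ha : ‖a‖ ≤ M) (hb : ‖b‖ ≤ M) (hM : 1 ≤ M)
    (k : ℕ) : ‖a ^ k - b ^ k‖ ≤ k * M ^ k * ‖a - b‖ := by
  induction k with
  | zero => simp
  | succ k ih =>
    have e : a ^ (k + 1) - b ^ (k + 1) = a ^ k * (a - b) + (a ^ k - b ^ k) * b := by
      rw [pow_succ, pow_succ]; noncomm_ring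
    rw [e]
    refine (norm_add_le _ _).trans ?_
    have h1 : ‖a ^ k * (a - b)‖ ≤ M ^ (k + 1) * ‖a - b‖ :=
      (norm_mul_le _ _).trans (mul_le_mul_of_nonneg_right (((norm_pow_le a k).trans
        (pow_le_pow_left₀ (norm_nonneg a) ha k)).trans (pow_le_pow_right₀ hM k.le_succ)) (norm_nonneg _))
    have h2 : ‖(a ^ k - b ^ k) * b‖ ≤ k * M ^ (k + 1) * ‖a - b‖ :=
      ((norm_mul_le _ _).trans (mul_le_mul ih hb (norm_nonneg _) (by positivity))).trans_eq (by ring)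
    push_cast
    linarith

variable [NormedAlgebra ℝ 𝔸] [CompleteSpace 𝔸]

theorem lie_product (X Y : 𝔸) :
    Tendsto (fun k : ℕ => (exp ((k : ℝ)⁻¹ • X) * exp ((k : ℝ)⁻¹ • Y)) ^ k) atTop
      (𝓝 (exp (X + Y))) := by
  have hf : HasDerivAt (fun t : ℝ => exp (t • X) * exp (t • Y)) (X + Y) 0 := by
    simpa [Pi.mul_def] using (hasDerivAt_exp_smul_const X (0 : ℝ)).mul (hasDerivAt_exp_smul_const Y (0 : ℝ))
  have hg : HasDerivAt (fun t : ℝ => exp (t • (X + Y))) (X + Y) 0 := by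
    simpa using hasDerivAt_exp_smul_const (X + Y) (0 : ℝ)
  obtain ⟨Cf, hCf⟩ := (hf.isBigO_sub).bound
  obtain ⟨Cg, hCg⟩ := (hg.isBigO_sub).bound
  have hlim : Tendsto (fun k : ℕ => ((k : ℝ)⁻¹)) atTop (𝓝 0) :=
    tendsto_inv_atTop_zero.comp tendsto_natCast_atTop_atTop
  set C := max (max Cf Cg) 0
  rw [tendsto_iff_norm_sub_tendsto_zero]
  refine squeeze_zero_norm' (a := fun k : ℕ => Real.exp C *
    ((k : ℝ) * ‖exp ((k : ℝ)⁻¹ • X) * exp ((k : ℝ)⁻¹ • Y) - exp ((k : ℝ)⁻¹ • (X + Y))‖)) ?_ ?_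
  · filter_upwards [hlim.eventually hCf, hlim.eventually hCg, eventually_gt_atTop 0] with k h1 h2 hk
    simp only [sub_zero, zero_smul, exp_zero, one_mul] at h1 h2
    have hk' : (0 : ℝ) < k := Nat.cast_pos.2 hk
    have hn : ‖(k : ℝ)⁻¹‖ = (k : ℝ)⁻¹ := by rw [Real.norm_eq_abs, abs_of_pos (inv_pos.2 hk')]
    rw [hn] at h1 h2
    have hb : ∀ z : 𝔸, ‖z - 1‖ ≤ C * (k : ℝ)⁻¹ → ‖z‖ ≤ 1 + C * (k : ℝ)⁻¹ := fun z hz => by
      have := norm_le_norm_add_norm_sub' z 1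
      rw [norm_one] at this
      linarith
    have ha := hb _ (h1.trans (mul_le_mul_of_nonneg_right
      ((le_max_left _ _).trans (le_max_left _ _)) (by positivity)))
    have hb' := hb _ (h2.trans (mul_le_mul_of_nonneg_right
      ((le_max_right _ _).trans (le_max_left _ _)) (by positivity)))
    have e : exp (X + Y) = exp ((k : ℝ)⁻¹ • (X + Y)) ^ k := by
      let := NormedAlgebra.restrictScalars ℚ ℝ 𝔸
      rw [← NormedSpace.exp_nsmul, ← Nat.cast_smul_eq_nsmul ℝ, smul_smul, mul_inv_cancel₀ hk'.ne', one_smul]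
    have hpow : (1 + C * (k : ℝ)⁻¹) ^ k ≤ Real.exp C := by
      refine (pow_le_pow_left₀ (by positivity) (b := Real.exp (C * (k : ℝ)⁻¹))
        (by linarith [Real.add_one_le_exp (C * (k : ℝ)⁻¹)]) k).trans_eq ?_
      rw [← Real.exp_nat_mul]; field_simp
    rw [norm_norm, e]
    refine (norm_pow_sub_pow_le _ _ ha hb' (by nlinarith [inv_pos.2 hk', le_max_right (max Cf Cg) 0]) k).trans ?_
    calc _ ≤ (k : ℝ) * Real.exp C * ‖exp ((k : ℝ)⁻¹ • X) * exp ((k : ℝ)⁻¹ • Y) -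
          exp ((k : ℝ)⁻¹ • (X + Y))‖ := by gcongr
      _ = _ := by ring
  · have hd : HasDerivAt (fun t : ℝ => exp (t • X) * exp (t • Y) - exp (t • (X + Y))) 0 0 := by
      simpa [Pi.sub_def] using hf.sub hg
    have hs := hd.tendsto_slope_zero_right.comp
      (tendsto_inv_atTop_nhdsGT_zero.comp tendsto_natCast_atTop_atTop)
    have : Tendsto (fun k : ℕ => (k : ℝ) • (exp ((k : ℝ)⁻¹ • X) * exp ((k : ℝ)⁻¹ • Y) -
        exp ((k : ℝ)⁻¹ • (X + Y)))) atTop (𝓝 0) := by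
      simpa [Function.comp_def] using hs
    simpa [norm_smul] using (this.norm.const_mul (Real.exp C))

end Lie

/-- The Golden-Thompson inequality for the exponential series. -/
theorem golden_thompson_exp {X Y : Matrix n n ℂ} (hX : X.IsHermitian) (hY : Y.IsHermitian) :
    (trace (exp (X + Y))).re ≤ (trace (exp X * exp Y)).re := by
  rcases isEmpty_or_nonempty n with h | h
  · simp [trace]
  have hnorm : ‖trace (exp X * exp Y)‖ = (trace (exp X * exp Y)).re := by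
    have hX2 : ((2⁻¹ : ℝ) • X).IsHermitian := hX.smul (star_trivial _)
    have hY2 : ((2⁻¹ : ℝ) • Y).IsHermitian := hY.smul (star_trivial _)
    have h2 : ∀ Z : Matrix n n ℂ, exp Z = exp ((2⁻¹ : ℝ) • Z) * exp ((2⁻¹ : ℝ) • Z) := fun Z => by
      rw [← Matrix.exp_add_of_commute _ _ (Commute.refl _), ← add_smul]
      norm_num
    have h := re_trace_conjTranspose_mul_self (exp ((2⁻¹ : ℝ) • X) * exp ((2⁻¹ : ℝ) • Y))
    rw [conjTranspose_mul, hX2.exp.eq, hY2.exp.eq, mul_assoc, trace_mul_comm, mul_assoc, mul_assoc,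
      ← h2, ← mul_assoc, ← h2] at h
    rw [Complex.norm_def, Complex.normSq_apply, h.2, mul_zero, add_zero, Real.sqrt_mul_self]
    rw [h.1]; positivity
  refine (Complex.re_le_norm _).trans (le_trans ?_ hnorm.le)
  refine le_of_tendsto' (f := fun m : ℕ => ‖trace ((exp ((((2 ^ m : ℕ) : ℝ))⁻¹ • X) *
    exp ((((2 ^ m : ℕ) : ℝ))⁻¹ • Y)) ^ 2 ^ m)‖) (x := atTop) ?_ fun m => ?_
  · have hL : Tendsto (fun k : ℕ => (exp ((k : ℝ)⁻¹ • X) * exp ((k : ℝ)⁻¹ • Y)) ^ k) atTop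
        (𝓝 (exp (X + Y))) := by
      open scoped Norms.Operator in exact lie_product X Y
    have ht : Continuous fun M : Matrix n n ℂ => ‖trace M‖ := continuous_id.matrix_trace.norm
    exact ((ht.tendsto _).comp hL).comp (tendsto_pow_atTop_atTop_of_one_lt one_lt_two)
  · have hp : (((2 ^ m : ℕ) : ℝ)) ≠ 0 := by positivity
    refine ((trace_two_pow_le m).2 _ _ (hX.smul (star_trivial _)).exp
      (hY.smul (star_trivial _)).exp).trans_eq ?_
    rw [← Matrix.exp_nsmul, ← Matrix.exp_nsmul, ← Nat.cast_smul_eq_nsmul ℝ,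
      ← Nat.cast_smul_eq_nsmul ℝ, smul_smul, smul_smul, mul_inv_cancel₀ hp, one_smul, one_smul]

theorem cfc_exp_eq {Z : Matrix n n ℂ} (hZ : Z.IsHermitian) : cfc Real.exp Z = exp Z := by
  open scoped Matrix.Norms.L2Operator in
  exact CFC.real_exp_eq_normedSpace_exp hZ

end Vale.Agent.P371G.GoldenThompson

namespace Vale.Agent.P371G

/-- The Golden-Thompson inequality. -/
theorem golden_thompson {n : ℕ} {X Y : Matrix (Fin n) (Fin n) ℂ} (hX : X.IsHermitian)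
    (hY : Y.IsHermitian) :
    (Matrix.trace (cfc Real.exp (X + Y))).re ≤
      (Matrix.trace (cfc Real.exp X * cfc Real.exp Y)).re := by
  rw [GoldenThompson.cfc_exp_eq (hX.add hY), GoldenThompson.cfc_exp_eq hX,
    GoldenThompson.cfc_exp_eq hY]
  exact GoldenThompson.golden_thompson_exp hX hY

end Vale.Agent.P371G
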