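import Vale.Agent.P371G.Order

/-! # The derivative bound for `tr ((L² - N²) (log (L - N) + log (L + N)))`

The derivative of `fc Real.log (X s)` is computed from the identity
`log X - log P = ∑_q φ_q(X) (X - P) 1_q(P)`, `φ_q` the divided difference of the logarithm at `q`.
The bound reduces to `H 0 ≤ 0` for an explicit function `H` which increases on `[0, ∞)` to `0`. -/

namespace Vale.Agent.P371G.LogDeriv

open Matrix Finset Filter Topology
open scoped ComplexOrder MatrixOrder

variable {n : ℕ}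

/-- The divided difference of the logarithm. -/
noncomputable def dd (p q : ℝ) : ℝ := dslope Real.log q p

theorem dd_self (p : ℝ) : dd p p = p⁻¹ := by rw [dd, dslope_same, Real.deriv_log]

theorem dd_of_ne {p q : ℝ} (h : p ≠ q) : dd p q = (Real.log p - Real.log q) / (p - q) := by
  rw [dd, dslope_of_ne _ h, slope_def_field]

theorem dd_mul (p q : ℝ) : dd p q * (p - q) = Real.log p - Real.log q := by
  rw [dd, mul_comm, ← smul_eq_mul, sub_smul_dslope]

theorem continuousAt_dd {p q : ℝ} (hp : 0 < p) : ContinuousAt (fun x => dd x q) p := by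
  change ContinuousAt (dslope Real.log q) p
  rcases eq_or_ne p q with rfl | h
  · exact continuousAt_dslope_same.2 (Real.differentiableAt_log hp.ne')
  · exact (continuousAt_dslope_of_ne h).2 (Real.continuousAt_log hp.ne')

theorem hasDerivAt_dd_shift {p q x : ℝ} (hp : 0 < p + x) (hq : 0 < q + x) :
    HasDerivAt (fun y => dd (p + y) (q + y)) (-((p + x)⁻¹ * (q + x)⁻¹)) x := by
  rcases eq_or_ne p q with rfl | h
  · simp only [dd_self]
    refine (((hasDerivAt_id x).const_add p).fun_inv hp.ne').congr_deriv ?_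
    simp only [id_eq]; field_simp
  · have e : (fun y => dd (p + y) (q + y))
        = fun y => (Real.log (p + y) - Real.log (q + y)) / (p - q) := by
      funext y
      rw [dd_of_ne (by simpa using h)]
      ring_nf
    rw [e]
    refine (((((hasDerivAt_id x).const_add p).log hp.ne').fun_sub
      (((hasDerivAt_id x).const_add q).log hq.ne')).div_const (p - q)).congr_deriv ?_
    simp only [id_eq]
    have := sub_ne_zero.2 h
    field_simp
    ring

theorem tendsto_shift_inv (p : ℝ) : Tendsto (fun y : ℝ => (p + y)⁻¹) atTop (𝓝 0) :=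
  tendsto_inv_atTop_zero.comp (tendsto_atTop_add_const_left _ p tendsto_id)

theorem tendsto_dd_shift (p q : ℝ) : Tendsto (fun y => dd (p + y) (q + y)) atTop (𝓝 0) := by
  rcases eq_or_ne p q with rfl | h
  · simp only [dd_self]
    exact tendsto_shift_inv p
  · have h1 : Tendsto (fun y : ℝ => 1 + (p - q) * (q + y)⁻¹) atTop (𝓝 1) := by
      simpa using ((tendsto_shift_inv q).const_mul (p - q)).const_add 1
    have h2 := ((Real.continuousAt_log one_ne_zero).tendsto.comp h1).div_const (p - q)
    rw [Real.log_one, zero_div] at h2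
    refine h2.congr' ?_
    filter_upwards [eventually_gt_atTop (-q), eventually_gt_atTop (-p)] with y hy hy'
    rw [Function.comp_apply, dd_of_ne (by simpa using h),
      show p + y - (q + y) = p - q by ring, ← Real.log_div (by linarith) (by linarith)]
    congr 2
    have : q + y ≠ 0 := by linarith
    field_simp
    ring

/-- The scalar inequality behind the bound. -/
theorem weighted_le {p : Fin n → ℝ} (hp : ∀ i, 0 < p i) (w : Fin n → Fin n → ℝ)
    (hrow : ∀ i, ∑ j, w i j = 1) (hcol : ∀ j, ∑ i, w i j = 1)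
    (hG : ∀ g : Fin n → ℝ → ℝ, ∀ x, (g = fun i y => (p i + y)⁻¹) →
      ∑ i, g i x ^ 2 ≤ ∑ i, ∑ j, g i x * g j x * w i j) :
    ∑ i, ∑ j, dd (p i) (p j) * (p i + p j) * w i j ≤ 2 * n := by
  set H : ℝ → ℝ := fun x => ∑ i, ∑ j, (p i + p j) * w i j * dd (p i + x) (p j + x)
    - 2 * ∑ i, p i * (p i + x)⁻¹ with hH
  set D : ℝ → ℝ := fun x => ∑ i, ∑ j, (p i + p j) * w i j * -((p i + x)⁻¹ * (p j + x)⁻¹)
    - 2 * ∑ i, p i * (-1 / (p i + x) ^ 2) with hD
  have hd : ∀ x, 0 ≤ x → HasDerivAt H (D x) x := fun x hx => by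
    have hpos : ∀ i, 0 < p i + x := fun i => by linarith [hp i]
    refine HasDerivAt.sub (HasDerivAt.fun_sum fun i _ => HasDerivAt.fun_sum fun j _ =>
      (hasDerivAt_dd_shift (hpos i) (hpos j)).const_mul _) (HasDerivAt.const_mul 2 ?_)
    refine HasDerivAt.fun_sum fun i _ => HasDerivAt.const_mul _ ?_
    simpa using ((hasDerivAt_id x).const_add (p i)).fun_inv (hpos i).ne'
  have hD0 : ∀ x, 0 ≤ x → 0 ≤ D x := fun x hx => by
    have hne : ∀ i, p i + x ≠ 0 := fun i => by linarith [hp i]
    have e1 : ∀ i j, (p i + p j) * w i j * -((p i + x)⁻¹ * (p j + x)⁻¹)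
        = 2 * x * ((p i + x)⁻¹ * (p j + x)⁻¹ * w i j)
          - (p i + x)⁻¹ * w i j - w i j * (p j + x)⁻¹ := fun i j => by
      have := hne i; have := hne j
      field_simp
      ring
    have e2 : ∀ i, p i * (-1 / (p i + x) ^ 2) = x * (p i + x)⁻¹ ^ 2 - (p i + x)⁻¹ := fun i => by
      have := hne i
      field_simp
      ring
    have e3 : ∑ i, ∑ j, w i j * (p j + x)⁻¹ = ∑ j, (p j + x)⁻¹ := by
      rw [Finset.sum_comm]
      simp only [← Finset.sum_mul, hcol, one_mul]
    have key := mul_le_mul_of_nonneg_left (hG _ x rfl) (mul_nonneg zero_le_two hx)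
    simp only [hD, e1, e2, Finset.sum_sub_distrib, ← Finset.mul_sum, hrow, mul_one, e3]
    linarith
  have hmono : MonotoneOn H (Set.Ici 0) :=
    monotoneOn_of_hasDerivWithinAt_nonneg (convex_Ici 0)
      (fun x hx => (hd x hx).continuousAt.continuousWithinAt)
      (fun x hx => (hd x (interior_subset hx)).hasDerivWithinAt)
      (fun x hx => hD0 x (interior_subset hx))
  have hlim : Tendsto H atTop (𝓝 0) := by
    have h1 : Tendsto (fun x => ∑ i, ∑ j, (p i + p j) * w i j * dd (p i + x) (p j + x)) atTop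
        (𝓝 (∑ i : Fin n, ∑ j : Fin n, (p i + p j) * w i j * 0)) :=
      tendsto_finsetSum _ fun i _ => tendsto_finsetSum _ fun j _ =>
        (tendsto_dd_shift _ _).const_mul _
    have h2 : Tendsto (fun x => ∑ i, p i * (p i + x)⁻¹) atTop
        (𝓝 (∑ i : Fin n, p i * 0)) :=
      tendsto_finsetSum _ fun i _ => (tendsto_shift_inv _).const_mul _
    simpa [hH] using h1.sub (h2.const_mul 2)
  have h0 : H 0 ≤ 0 := by
    refine ge_of_tendsto hlim ?_
    filter_upwards [eventually_ge_atTop (0 : ℝ)] with x hx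
    exact hmono Set.self_mem_Ici hx hx
  have hp1 : ∀ i, p i * (p i)⁻¹ = 1 := fun i => mul_inv_cancel₀ (hp i).ne'
  simp only [hH, add_zero, hp1, Finset.sum_const, Finset.card_univ, Fintype.card_fin,
    nsmul_eq_mul, mul_one] at h0
  calc _ = ∑ i, ∑ j, (p i + p j) * w i j * dd (p i) (p j) :=
        Finset.sum_congr rfl fun i _ => Finset.sum_congr rfl fun j _ => by ring
    _ ≤ _ := by linarith

/-- `tr (G²) ≤ tr (L⁻¹ G L G)`. -/
theorem rtr_sq_le {L G : Mat n} (hL : L.PosDef) (hG : G.IsHermitian) :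
    rtr (G * G) ≤ rtr (L⁻¹ * G * L * G) := by
  have hpos := hL.eigenvalues_pos
  have e : L⁻¹ * G * L * G = fc (fun x => x⁻¹) L * G * fc (fun x => x) L * Gᴴ := by
    rw [fc_id hL.1, hG.eq, inv_eq_fc hL.1 fun i => (hpos i).ne']
  have e1 : G * G = fc (fun _ => (1 : ℝ)) L * G * fc (fun _ => (1 : ℝ)) L * Gᴴ := by
    rw [fc_one hL.1, hG.eq, Matrix.one_mul, Matrix.mul_one]
  rw [e, e1, rtr_fc_star hL.1 hL.1, rtr_fc_star hL.1 hL.1]
  set l := hL.1.eigenvalues
  set a := fun i j => ‖inBases hL.1 hL.1 G i j‖ ^ 2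
  have hs : ∀ i j, a j i = a i j := fun i j => by
    simp only [a]
    rw [← norm_star (inBases hL.1 hL.1 G i j), ← Matrix.conjTranspose_apply, inBases_star, hG.eq]
  have h2 : ∑ i, ∑ j, (l i)⁻¹ * l j * a i j = ∑ i, ∑ j, (l j)⁻¹ * l i * a i j := by
    rw [Finset.sum_comm]
    exact Finset.sum_congr rfl fun i _ => Finset.sum_congr rfl fun j _ => by rw [hs]
  have h3 : ∑ i, ∑ j, 2 * a i j ≤
      ∑ i, ∑ j, ((l i)⁻¹ * l j * a i j + (l j)⁻¹ * l i * a i j) := by
    refine Finset.sum_le_sum fun i _ => Finset.sum_le_sum fun j _ => ?_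
    rw [← add_mul]
    refine mul_le_mul_of_nonneg_right ?_ (sq_nonneg _)
    have := hpos i; have := hpos j
    change 2 ≤ (l i)⁻¹ * l j + (l j)⁻¹ * l i
    rw [inv_mul_eq_div, inv_mul_eq_div, div_add_div _ _ (hpos i).ne' (hpos j).ne',
      le_div_iff₀ (mul_pos (hpos i) (hpos j))]
    nlinarith [sq_nonneg (l i - l j)]
  simp only [Finset.sum_add_distrib, ← h2, ← Finset.mul_sum] at h3
  calc ∑ i, ∑ j, (1 : ℝ) * 1 * a i j = ∑ i, ∑ j, a i j := by simp
    _ ≤ _ := by linarith

/-- The spectral projection of `P` at `q`. -/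
noncomputable def proj (q : ℝ) (P : Mat n) : Mat n := fc (fun x => if x = q then 1 else 0) P

/-- The distinct eigenvalues. -/
noncomputable def spec {P : Mat n} (hP : P.IsHermitian) : Finset ℝ :=
  Finset.univ.image hP.eigenvalues

theorem proj_sum {P : Mat n} (hP : P.IsHermitian) (c : ℝ → ℝ) :
    fc c P = ∑ q ∈ spec hP, c q • proj q P := by
  simp only [proj, fc_smul]
  rw [fc, ← cfc_sum _ _ _ (fun q _ => contSpec _ _)]
  refine fc_congr hP fun i => ?_
  simp [spec]

/-- The difference of two logarithms. -/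
theorem log_sub_eq {X P : Mat n} (hX : X.IsHermitian) (hP : P.IsHermitian) :
    fc Real.log X - fc Real.log P
      = ∑ q ∈ spec hP, fc (fun x => dd x q) X * (X - P) * proj q P := by
  have h : ∀ q, fc (fun x => dd x q) X * (X - P) * proj q P
      = fc Real.log X * proj q P - Real.log q • proj q P := fun q => by
    have e : P * proj q P = q • proj q P := by
      rw [proj, fc_smul]
      conv_lhs => enter [1]; rw [← fc_id hP]
      rw [fc_mul]
      exact fc_congr hP fun i => by split_ifs with h <;> simp [h]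
    have e1 : fc (fun x => dd x q) X * (X - q • (1 : Mat n))
        = fc Real.log X - Real.log q • (1 : Mat n) := by
      rw [← fc_const hX (Real.log q), ← fc_const hX q]
      conv_lhs => enter [2, 1]; rw [← fc_id hX]
      rw [fc_sub, fc_mul, fc_sub]
      exact fc_congr hX fun i => dd_mul _ _
    calc _ = fc (fun x => dd x q) X * (X - q • (1 : Mat n)) * proj q P := by
          rw [Matrix.mul_assoc, Matrix.mul_assoc]
          congr 1
          simp only [Matrix.sub_mul, e, Matrix.smul_mul, Matrix.one_mul]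
      _ = _ := by rw [e1, Matrix.sub_mul, Matrix.smul_mul, Matrix.one_mul]
  simp only [h, Finset.sum_sub_distrib, ← Finset.mul_sum]
  have h1 := proj_sum hP fun _ => (1 : ℝ)
  simp only [fc_one hP, one_smul] at h1
  rw [← h1, Matrix.mul_one, ← proj_sum hP]

/-- The pairing of the derivative of the logarithm at `P` in direction `K` with `B`. -/
theorem rtr_dlog {P : Mat n} (hP : P.IsHermitian) (K B : Mat n) :
    rtr (∑ q ∈ spec hP, fc (fun x => dd x q) P * K * proj q P * B)
      = ∑ i, ∑ j, dd (hP.eigenvalues i) (hP.eigenvalues j) *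
        (inBases hP hP K i j * inBases hP hP B j i).re := by
  simp only [rtr_sum, proj, rtr_fc_mul_fc_mul hP hP]
  rw [Finset.sum_comm]
  refine Finset.sum_congr rfl fun i _ => ?_
  rw [Finset.sum_comm]
  refine Finset.sum_congr rfl fun j _ => ?_
  simp [spec]

/-- The bound at one of the two matrices. -/
theorem dlog_bound {L P : Mat n} (hL : L.PosDef) (hP : P.PosDef) :
    rtr (∑ q ∈ spec hP.1, fc (fun x => dd x q) P * L⁻¹ * proj q P * (L * P + P * L - P * P))
      ≤ 2 * n - rtr (L⁻¹ * P) := by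
  have hh := hP.1
  set p := hh.eigenvalues
  set w := fun i j => (inBases hh hh L⁻¹ i j * inBases hh hh L j i).re
  have hprod : ∀ A B : Mat n, inBases hh hh A * inBases hh hh B = inBases hh hh (A * B) := by
    intro A B
    simp only [inBases, Matrix.mul_assoc]
    rw [← Matrix.mul_assoc (hh.eigenvectorUnitary : Mat n), eU_mul_star, Matrix.one_mul]
  have h11 : inBases hh hh (1 : Mat n) = 1 := by simp [inBases, eU_star_mul]
  have hrow : ∀ i, ∑ j, w i j = 1 := fun i => by
    have := congrArg Complex.re (congrFun (congrFun (hprod L⁻¹ L) i) i)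
    rw [posDef_inv_mul hL, h11, Matrix.mul_apply, Complex.re_sum, Matrix.one_apply_eq,
      Complex.one_re] at this
    exact this
  have hcol : ∀ j, ∑ i, w i j = 1 := fun j => by
    have := congrArg Complex.re (congrFun (congrFun (hprod L L⁻¹) j) j)
    rw [posDef_mul_inv hL, h11, Matrix.mul_apply, Complex.re_sum, Matrix.one_apply_eq,
      Complex.one_re] at this
    exact (Finset.sum_congr rfl fun i _ => by simp only [w, mul_comm]).trans this
  have hG : ∀ g : Fin n → ℝ → ℝ, ∀ x, (g = fun i y => (p i + y)⁻¹) →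
      ∑ i, g i x ^ 2 ≤ ∑ i, ∑ j, g i x * g j x * w i j := by
    rintro g x rfl
    have hf := fc_herm (fun y => (y + x)⁻¹) P
    have h := rtr_sq_le hL hf
    rw [fc_mul, rtr_fc hh] at h
    rw [show L⁻¹ * fc (fun y => (y + x)⁻¹) P * L * fc (fun y => (y + x)⁻¹) P
      = L⁻¹ * fc (fun y => (y + x)⁻¹) P * (L * fc (fun y => (y + x)⁻¹) P) by
        rw [Matrix.mul_assoc], rtr_mul_comm (L⁻¹ * _),
      show L * fc (fun y => (y + x)⁻¹) P * (L⁻¹ * fc (fun y => (y + x)⁻¹) P)
      = L * (fc (fun y => (y + x)⁻¹) P * L⁻¹ * fc (fun y => (y + x)⁻¹) P) by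
        simp only [Matrix.mul_assoc], rtr_mul_comm L, rtr_fc_mul_fc_mul hh hh] at h
    simpa [p, w, pow_two] using h
  have hmain := weighted_le (fun i => hP.eigenvalues_pos i) w hrow hcol hG
  have e : ∀ i j, (inBases hh hh L⁻¹ i j * inBases hh hh (L * P + P * L - P * P) j i).re
      = (p i + p j) * w i j
        - (if i = j then p i ^ 2 * (inBases hh hh L⁻¹ i i).re else 0) := fun i j => by
    have e1 : inBases hh hh (L * P) j i = inBases hh hh L j i * p i := by
      conv_lhs => enter [3, 2]; rw [← fc_id hh]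
      exact inBases_fc_right hh hh _ _ _ _
    have e2 : inBases hh hh (P * L) j i = p j * inBases hh hh L j i := by
      conv_lhs => enter [3, 1]; rw [← fc_id hh]
      exact inBases_fc_left hh hh _ _ _ _
    have e3 : inBases hh hh (P * P) j i = if i = j then (p i : ℂ) ^ 2 else 0 := by
      have := inBases_fc_left hh hh (fun x => x * x) 1 j i
      rw [Matrix.mul_one, ← fc_mul, fc_id hh, h11, Matrix.one_apply] at this
      rw [this]
      rcases eq_or_ne i j with rfl | h
      · simp [p, pow_two]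
      · simp [h, Ne.symm h]
    rw [inBases_sub, inBases_add, Matrix.sub_apply, Matrix.add_apply, e1, e2, e3]
    rcases eq_or_ne i j with rfl | h
    · simp [w, Complex.mul_re, Complex.mul_im, pow_two]; ring
    · simp [w, h, Complex.mul_re, Complex.mul_im]; ring
  have e4 : ∑ i, ∑ j, dd (p i) (p j) *
      (if i = j then p i ^ 2 * (inBases hh hh L⁻¹ i i).re else 0) = rtr (L⁻¹ * P) := by
    rw [rtr_mul_comm]
    conv_rhs => enter [1, 1]; rw [← fc_id hh]
    rw [rtr_fc_mul hh]
    refine Finset.sum_congr rfl fun i _ => ?_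
    rw [Finset.sum_eq_single i (fun j _ h => by rw [if_neg (Ne.symm h), mul_zero]) (by simp),
      if_pos rfl, dd_self, dia]
    have : p i ≠ 0 := (hP.eigenvalues_pos i).ne'
    field_simp
    ring
  rw [rtr_dlog hh]
  simp only [e, mul_sub, Finset.sum_sub_distrib]
  rw [e4]
  simpa [mul_assoc] using sub_le_sub_right hmain (rtr (L⁻¹ * P))

section deriv

open scoped Matrix.Norms.L2Operator

/-- The derivative of the traced logarithm along a path differentiable at one point. -/
theorem hasDerivAt_rtr_log {X : ℝ → Mat n} {D : Mat n} {t : ℝ} (hX : ∀ s, (X s).IsHermitian)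
    (hd : ∀ i j, HasDerivAt (fun s => X s i j) (D i j) t) (hP : (X t).PosDef) (B : Mat n) :
    HasDerivAt (fun s => rtr (B * fc Real.log (X s)))
      (rtr (∑ q ∈ spec hP.1, fc (fun x => dd x q) (X t) * D * proj q (X t) * B)) t := by
  set P := X t
  have hslope : Tendsto (fun s => (s - t)⁻¹ • (X s - P)) (𝓝[≠] t) (𝓝 D) := by
    refine tendsto_pi_nhds.2 fun i => tendsto_pi_nhds.2 fun j => ?_
    have := hasDerivAt_iff_tendsto_slope.1 (hd i j)
    exact this.congr fun s => by simp [slope_def_module, P]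
  have hc : ContinuousAt X t :=
    continuousAt_pi.2 fun i => continuousAt_pi.2 fun j => (hd i j).continuousAt
  obtain ⟨r, hr0, hr⟩ : ∃ r > (0 : ℝ), ∀ i, 2 * r ≤ hP.1.eigenvalues i := by
    rcases isEmpty_or_nonempty (Fin n) with h | h
    · exact ⟨1, one_pos, fun i => isEmptyElim i⟩
    · obtain ⟨i₀, hi₀⟩ := Finite.exists_min hP.1.eigenvalues
      exact ⟨hP.1.eigenvalues i₀ / 2, by linarith [hP.eigenvalues_pos i₀],
        fun i => by linarith [hi₀ i]⟩
  set R := ‖P‖ + r
  have hev : ∀ᶠ s in 𝓝 t, spectrum ℝ (X s) ⊆ Set.Icc r R := by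
    filter_upwards [Metric.tendsto_nhds.1 hc r hr0] with s hs
    rw [dist_eq_norm] at hs
    have hd1 : IsSelfAdjoint (P - X s) := (hP.1.sub (hX s))
    have hlo : r • (1 : Mat n) ≤ X s := by
      have h1 := hd1.le_algebraMap_norm_self
      rw [Algebra.algebraMap_eq_smul_one, norm_sub_rev] at h1
      have h2 : ‖X s - P‖ • (1 : Mat n) ≤ r • (1 : Mat n) :=
        smul_le_smul_of_nonneg_right hs.le zero_le_one
      have h3 : (2 * r) • (1 : Mat n) ≤ P := smul_one_le_of_eig hP.1 hr
      rw [two_mul, add_smul] at h3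
      have := sub_le_iff_le_add.1 (h1.trans h2)
      exact le_of_add_le_add_left (h3.trans this)
    have hhi : X s ≤ R • (1 : Mat n) := by
      have h1 := (IsSelfAdjoint.le_algebraMap_norm_self (a := X s) (hX s))
      rw [Algebra.algebraMap_eq_smul_one] at h1
      refine h1.trans (smul_le_smul_of_nonneg_right ?_ zero_le_one)
      have := norm_le_norm_add_norm_sub' (X s) P
      linarith
    rw [(hX s).spectrum_real_eq_range_eigenvalues]
    rintro _ ⟨i, rfl⟩
    exact ⟨le_eig _ hlo i, eig_le _ hhi i⟩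
  have hfc : ∀ q, Tendsto (fun s => fc (fun x => dd x q) (X s)) (𝓝[≠] t)
      (𝓝 (fc (fun x => dd x q) P)) := fun q =>
    ((hc.cfc isCompact_Icc (fun x => dd x q) hev (Eventually.of_forall hX)
      (fun x hx => (continuousAt_dd (lt_of_lt_of_le hr0 hx.1)).continuousWithinAt)).tendsto).mono_left
      nhdsWithin_le_nhds
  have hcont : Continuous (rtr : Mat n → ℝ) := Complex.continuous_re.comp continuous_id.matrix_trace
  rw [hasDerivAt_iff_tendsto_slope]
  refine ((hcont.tendsto _).comp (tendsto_finsetSum (spec hP.1) fun q _ =>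
    (((hfc q).mul hslope).mul_const (proj q P)).mul_const B)).congr' ?_
  filter_upwards [self_mem_nhdsWithin] with s hs
  rw [slope_def_field, Function.comp_apply, rtr_mul_comm B, rtr_mul_comm B, ← rtr_sub,
    ← Matrix.sub_mul, log_sub_eq (hX s) hP.1, div_eq_inv_mul, ← rtr_smul, ← Matrix.smul_mul,
    Finset.smul_sum, Finset.sum_mul]
  congr 1
  refine Finset.sum_congr rfl fun q _ => ?_
  simp only [Matrix.mul_smul, Matrix.smul_mul]

end deriv

/-- Half of the statement. -/
theorem half {L P : Mat n} {X : ℝ → Mat n} {t : ℝ} (hL : L.PosDef) (hX : ∀ s, (X s).IsHermitian)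
    (hd : ∀ i j, HasDerivAt (fun s => X s i j) (((1 / 2 : ℝ) • L⁻¹) i j) t) (ht : X t = P)
    (hP : P.PosDef) :
    ∃ e, HasDerivAt (fun s => rtr ((L * P + P * L - P * P) * fc Real.log (X s))) e t ∧
      e ≤ n - rtr (L⁻¹ * P) / 2 := by
  subst ht
  refine ⟨_, hasDerivAt_rtr_log hX hd hP _, ?_⟩
  have := dlog_bound hL hP
  simp only [Matrix.mul_smul, Matrix.smul_mul, ← Finset.smul_sum, rtr_smul]
  linarith

end Vale.Agent.P371G.LogDeriv

namespace Vale.Agent.P371G

open Matrix
open scoped ComplexOrder MatrixOrder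

/-- The derivative of the logarithmic term along `L' = L⁻¹ / 2` is at most `n`. -/
theorem log_trace_deriv {n : ℕ} {L : ℝ → Mat n} {N : Mat n} {t : ℝ} (hN : N.IsHermitian)
    (hL : ∀ s, (L s).IsHermitian)
    (hd : ∀ i j, HasDerivAt (fun s => L s i j) (((1 / 2 : ℝ) • (L t)⁻¹) i j) t)
    (h0 : (L t).PosDef) (hP : (L t - N).PosDef) (hQ : (L t + N).PosDef) :
    ∃ e, HasDerivAt
      (fun s => rtr ((L t * L t - N * N) * (fc Real.log (L s - N) + fc Real.log (L s + N)))) e t ∧
      e ≤ n := by
  obtain ⟨a, ha, ha'⟩ := LogDeriv.half (X := fun s => L s - N) h0 (fun s => (hL s).sub hN)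
    (fun i j => by simpa using (hd i j).sub_const (N i j)) rfl hP
  obtain ⟨b, hb, hb'⟩ := LogDeriv.half (X := fun s => L s + N) h0 (fun s => (hL s).add hN)
    (fun i j => by simpa using (hd i j).add_const (N i j)) rfl hQ
  have eP : L t * (L t - N) + (L t - N) * L t - (L t - N) * (L t - N) = L t * L t - N * N := by
    noncomm_ring
  have eQ : L t * (L t + N) + (L t + N) * L t - (L t + N) * (L t + N) = L t * L t - N * N := by
    noncomm_ring
  rw [eP] at ha
  rw [eQ] at hb
  refine ⟨a + b, ?_, ?_⟩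
  · simpa [Matrix.mul_add, rtr_add, Pi.add_def] using ha.add hb
  · have e : rtr ((L t)⁻¹ * (L t - N)) + rtr ((L t)⁻¹ * (L t + N)) = 2 * n := by
      rw [← rtr_add, ← Matrix.mul_add, show L t - N + (L t + N) = L t + L t by abel,
        Matrix.mul_add, rtr_add, posDef_inv_mul h0, rtr_one]
      ring
    linarith

end Vale.Agent.P371G
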