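import Vale.Agent.P371G.PsiProps
import Vale.Agent.P371G.GoldenThompson
import Vale.Agent.P371G.LogDeriv

/-! # The key inequality `tr R^q ≤ tr (R C)` -/

namespace Vale.Agent.P371G

open Matrix MeasureTheory Set Filter Topology
open scoped ComplexOrder MatrixOrder Matrix.Norms.L2Operator

variable {n : ℕ} {α : ℝ} {A M : Mat n}

/-- `C = M² - (M - A)²`. -/
def Cm (A M : Mat n) : Mat n := M * M - (M - A) * (M - A)

theorem adm_of_dom (hA : A.PosDef) (hB : ((2 : ℝ) • M - A).PosDef) : Adm A M := by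
  refine ⟨hA.posSemidef.nonneg, sub_nonneg.1 hB.posSemidef.nonneg, ?_⟩
  have := (hB.add hA).smul (by norm_num : (0:ℝ) < 1 / 2)
  simpa [smul_smul] using this

theorem LM_hasDeriv (hM : M.IsHermitian) {t : ℝ} (ht : 0 < t) (i j : Fin n) :
    HasDerivAt (fun s => LM s M i j) (((1 / 2 : ℝ) • (LM t M)⁻¹) i j) t := by
  have hinv : (LM t M)⁻¹ = fc (fun x => (Real.sqrt (x ^ 2 + t))⁻¹) M := by
    rw [LM_eq hM]
    refine Matrix.inv_eq_left_inv ?_
    rw [fc_mul, ← fc_one hM]
    exact fc_congr hM fun i => inv_mul_cancel₀ (Real.sqrt_pos.2 (by positivity)).ne'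
  rw [hinv, fc_smul]
  simp only [LM_eq hM]
  set U : Mat n := (hM.eigenvectorUnitary : Mat n) with hU
  have e : ∀ f : ℝ → ℝ, fc f M i j
      = ∑ a, U i a * (f (hM.eigenvalues a) : ℂ) * star (U j a) := fun f => by
    rw [fc_diag hM, ← hU, Matrix.mul_apply]
    simp only [Matrix.mul_diagonal, Matrix.conjTranspose_apply]
  simp only [e]
  refine HasDerivAt.fun_sum fun a _ => ?_
  refine ((HasDerivAt.ofReal_comp ?_).const_mul _).mul_const _
  refine (((hasDerivAt_id t).const_add (hM.eigenvalues a ^ 2)).sqrt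
    (by simp only [id]; positivity)).congr_deriv ?_
  simp only [id]
  rw [one_div, one_div, mul_inv]

theorem Lam_eq (s : ℝ) : Lam s A M = fc Real.log (LM s M - (M - A))
    + fc Real.log (LM s M + (M - A)) - Real.log s • (1 : Mat n) := by
  rw [Lam, cM, dM, sub_add, ← add_sub_assoc]

theorem rtr_PQ {s : ℝ} (hs : 0 ≤ s) (hM : M.IsHermitian) :
    rtr ((cM s M + A) * (dM s M - A)) = rtr (Cm A M) + s * n := by
  set L := LM s M
  set N := M - A
  rw [show cM s M + A = L - N by rw [cM]; simp only [L, N]; abel,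
    show dM s M - A = L + N by rw [dM]; simp only [L, N]; abel]
  rw [Matrix.sub_mul, Matrix.mul_add, Matrix.mul_add, rtr_sub, rtr_add, rtr_add,
    rtr_mul_comm L N, LM_sq hM hs, rtr_add, rtr_smul, rtr_one, Cm, rtr_sub]
  ring

/-- Golden–Thompson at fixed `s`. -/
theorem rtr_exp_Lam (h : Adm A M) {s : ℝ} (hs : 0 < s) :
    s * rtr (fc Real.exp (Lam s A M)) ≤ rtr (Cm A M) + s * n := by
  have hP := h.cA hs
  have hQ := h.dA hs
  have eY : fc Real.log (dM s M - A) - Real.log s • (1 : Mat n)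
      = fc (fun x => Real.log x - Real.log s) (dM s M - A) := by
    rw [← fc_const hQ.1 (Real.log s), fc_sub]
  have e1 : cfc Real.exp (fc Real.log (cM s M + A)) = cM s M + A := by
    conv_rhs => rw [← fc_id hP.1]
    show fc Real.exp (fc Real.log _) = _
    rw [fc_comp hP.1]
    exact fc_congr hP.1 fun i => Real.exp_log (hP.eigenvalues_pos i)
  have e2 : cfc Real.exp (fc Real.log (dM s M - A) - Real.log s • (1 : Mat n))
      = s⁻¹ • (dM s M - A) := by
    rw [eY]
    conv_rhs => rw [← fc_id hQ.1]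
    show fc Real.exp (fc _ _) = _
    rw [fc_comp hQ.1, fc_smul]
    refine fc_congr hQ.1 fun i => ?_
    rw [Real.exp_sub, Real.exp_log (hQ.eigenvalues_pos i), Real.exp_log hs, div_eq_inv_mul]
  have hgt := golden_thompson (X := fc Real.log (cM s M + A))
    (Y := fc Real.log (dM s M - A) - Real.log s • (1 : Mat n)) (fc_herm _ _)
    ((fc_herm _ _).sub (smul_one_herm _))
  rw [e1, e2, ← add_sub_assoc] at hgt
  change rtr (fc Real.exp (Lam s A M)) ≤ rtr (_ * s⁻¹ • _) at hgt
  rw [Matrix.mul_smul, rtr_smul, rtr_PQ hs.le h.posDef.1] at hgt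
  have := mul_le_mul_of_nonneg_left hgt hs.le
  rwa [← mul_assoc, mul_inv_cancel₀ hs.ne', one_mul] at this

/-- `s tr Λ ≤ tr C`. -/
theorem X_nonpos (h : Adm A M) {s : ℝ} (hs : 0 < s) :
    s * rtr (Lam s A M) - rtr (Cm A M) ≤ 0 := by
  have h1 := rtr_exp_Lam h hs
  have hH : (Lam s A M).IsHermitian := Lam_herm s
  have h2 : rtr (Lam s A M) + n ≤ rtr (fc Real.exp (Lam s A M)) := by
    conv_lhs => enter [1, 1]; rw [← fc_id hH]
    rw [rtr_fc hH, rtr_fc hH]
    calc (∑ i, hH.eigenvalues i) + (n : ℝ) = ∑ i, (hH.eigenvalues i + 1) := by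
          rw [Finset.sum_add_distrib]; simp
      _ ≤ _ := Finset.sum_le_sum fun i _ => Real.add_one_le_exp _
  nlinarith [mul_le_mul_of_nonneg_left h2 hs.le]

/-- The Gibbs variational inequality. -/
theorem gibbs (h : Adm A M) {Y : Mat n} (hY : 0 ≤ Y) {s : ℝ} (hs : 0 < s) :
    rtr (Y * Lam s A M) + (s * rtr (Lam s A M) - rtr (Cm A M))
      ≤ rtr (fc (fun y => (y + s) * Real.log (1 + y / s) - y) Y) := by
  have hYh := herm_of_nonneg hY
  have hH : (Lam s A M).IsHermitian := Lam_herm s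
  have h1 := rtr_exp_Lam h hs
  have key : rtr (Y * Lam s A M) + s * rtr (Lam s A M) - s * rtr (fc Real.exp (Lam s A M)) + s * n
      ≤ rtr (fc (fun y => (y + s) * Real.log (1 + y / s) - y) Y) := by
    have e1 : rtr (Y * Lam s A M) = ∑ i, ∑ j,
        hYh.eigenvalues i * hH.eigenvalues j * ov hYh hH i j := by
      have := rtr_fc_fc hYh hH (fun x => x) (fun x => x)
      rwa [fc_id hYh, fc_id hH] at this
    have e2 : rtr (Lam s A M) = ∑ i, ∑ j, hH.eigenvalues j * ov hYh hH i j := by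
      rw [sum_right hYh hH (fun x => x)]
      conv_lhs => rw [← fc_id hH]
      exact rtr_fc hH _
    have e3 : (n : ℝ) = ∑ i, ∑ j, ov hYh hH i j := by simp [sum_ov_right]
    rw [e1, e2, e3, rtr_fc hH, rtr_fc hYh, ← sum_right hYh hH Real.exp,
      ← sum_left hYh hH (fun y => (y + s) * Real.log (1 + y / s) - y)]
    simp only [Finset.mul_sum, ← Finset.sum_add_distrib, ← Finset.sum_sub_distrib]
    refine Finset.sum_le_sum fun i _ => Finset.sum_le_sum fun j _ => ?_
    set y := hYh.eigenvalues i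
    set k := hH.eigenvalues j
    have hy : 0 ≤ y := hY.posSemidef.eigenvalues_nonneg i
    have hu : 0 < 1 + y / s := by positivity
    have hk : k - Real.log (1 + y / s) + 1 ≤ Real.exp (k - Real.log (1 + y / s)) :=
      Real.add_one_le_exp _
    rw [Real.exp_sub, Real.exp_log hu, le_div_iff₀ hu] at hk
    have hk2 := mul_le_mul_of_nonneg_left hk hs.le
    have e : s * (1 + y / s) = y + s := by field_simp; ring
    rw [show s * ((k - Real.log (1 + y / s) + 1) * (1 + y / s))
      = (k - Real.log (1 + y / s) + 1) * (s * (1 + y / s)) by ring, e] at hk2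
    have hg : y * k + s * k - s * Real.exp k + s ≤ (y + s) * Real.log (1 + y / s) - y := by
      nlinarith
    have := mul_le_mul_of_nonneg_right hg (ov_nonneg hYh hH i j)
    nlinarith
  linarith

/-- `Φ(s) = tr (Λ (C + s)) - tr C`. -/
noncomputable def Phi1 (A M : Mat n) (s : ℝ) : ℝ :=
  rtr (Lam s A M * Cm A M) + (s * rtr (Lam s A M) - rtr (Cm A M))

/-- The differential inequality. -/
theorem Phi1_deriv (h : Adm A M) {t : ℝ} (ht : 0 < t) :
    ∃ e, HasDerivAt (Phi1 A M) e t ∧ e ≤ rtr (Lam t A M) - rtr (Cm A M) / t := by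
  have hM := h.posDef.1
  have hP : (LM t M - (M - A)).PosDef := by
    rw [show LM t M - (M - A) = cM t M + A by rw [cM]; abel]; exact h.cA ht
  have hQ : (LM t M + (M - A)).PosDef := by
    rw [show LM t M + (M - A) = dM t M - A by rw [dM]; abel]; exact h.dA ht
  obtain ⟨e, he, hen⟩ := log_trace_deriv (L := fun s => LM s M) (hM.sub h.herm)
    (fun s => LM_herm hM s) (LM_hasDeriv hM ht) (LM_posDef ht hM) hP hQ
  set W := LM t M * LM t M - (M - A) * (M - A) with hW
  have hWe : W = Cm A M + t • (1 : Mat n) := by rw [hW, LM_sq hM ht.le, Cm]; abel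
  have hWt : rtr W = rtr (Cm A M) + t * n := by rw [hWe, rtr_add, rtr_smul, rtr_one]
  clear_value W
  have hg : ContinuousAt (fun s => rtr (Lam s A M)) t := by
    have hr : Continuous (rtr : Mat n → ℝ) := by unfold rtr; fun_prop
    exact (hr.comp_continuousOn (continuousOn_Lam continuousOn_id continuousOn_const
      continuousOn_const (fun s hs => hs) fun _ _ => h)).continuousAt (Ioi_mem_nhds ht)
  have hprod : HasDerivAt (fun s => (s - t) * rtr (Lam s A M)) (rtr (Lam t A M)) t := by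
    rw [hasDerivAt_iff_tendsto_slope]
    refine (hg.tendsto.mono_left nhdsWithin_le_nhds).congr' ?_
    filter_upwards [self_mem_nhdsWithin] with s hs
    rw [slope_def_field, sub_self, zero_mul, sub_zero, mul_div_assoc, mul_comm,
      div_mul_cancel₀ _ (sub_ne_zero.2 hs)]
  have hl := ((Real.hasDerivAt_log ht.ne').mul_const (rtr W))
  have htot := (((he.sub hl).add hprod).sub_const (rtr (Cm A M)))
  refine ⟨_, htot.congr_of_eventuallyEq (Eventually.of_forall fun s => ?_), ?_⟩
  · simp only [Phi1, Pi.add_apply, Pi.sub_apply]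
    have e1 : rtr (W * (fc Real.log (LM s M - (M - A)) + fc Real.log (LM s M + (M - A))))
        - Real.log s * rtr W = rtr (W * Lam s A M) := by
      rw [Lam_eq, Matrix.mul_sub, rtr_sub, Matrix.mul_smul, Matrix.mul_one, rtr_smul]
    rw [e1, hWe, Matrix.add_mul, Matrix.smul_mul, Matrix.one_mul, rtr_add, rtr_smul,
      rtr_mul_comm (Cm A M)]
    ring
  · rw [hWt]
    field_simp
    nlinarith

theorem log_one_add_ge {x : ℝ} (hx : |x| ≤ 1 / 2) :
    x - x ^ 2 / 2 - 2 * |x| ^ 3 ≤ Real.log (1 + x) := by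
  have h1 : |x| < 1 := by linarith
  have := Real.abs_log_sub_add_sum_range_le (x := -x) (by rwa [abs_neg]) 2
  simp only [Finset.sum_range_succ, Finset.sum_range_zero, zero_add, abs_neg, sub_neg_eq_add] at this
  norm_num at this
  have h2 : |x| ^ 3 / (1 - |x|) ≤ 2 * |x| ^ 3 := by
    rw [div_le_iff₀ (by linarith)]
    nlinarith [pow_nonneg (abs_nonneg x) 3]
  have h3 := (abs_le.1 this).1
  nlinarith

/-- First order asymptotics of `s tr Λ`. -/
theorem X_lower (h : Adm A M) {K : ℝ} (hK : 1 ≤ K) (hMK : M ≤ K • (1 : Mat n)) {s : ℝ}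
    (hs : 16 * K ^ 2 ≤ s) :
    -((n : ℝ) * 40 * K ^ 4 / Real.sqrt s) ≤ s * rtr (Lam s A M) - rtr (Cm A M) := by
  have hs0 : 0 < s := lt_of_lt_of_le (by positivity) hs
  have hM := h.posDef.1
  obtain ⟨hN1, hN2⟩ := h.N_bounds hMK
  set l := Real.sqrt s with hl
  have hl0 : 0 < l := Real.sqrt_pos.2 hs0
  have hl2 : l * l = s := Real.mul_self_sqrt hs0.le
  have hlK : 4 * K ≤ l := Real.le_sqrt_of_sq_le (by nlinarith)
  set L' := l⁻¹ • LM s M - (1 : Mat n) with hL'
  set N' := l⁻¹ • (M - A) with hN'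
  have hL'e : L' = fc (fun x => l⁻¹ * Real.sqrt (x ^ 2 + s) - 1) M := by
    rw [hL', LM_eq hM, fc_smul, ← fc_one hM, fc_sub]
  have hL0 : ∀ x : ℝ, x ^ 2 ≤ K ^ 2 → 0 ≤ l⁻¹ * Real.sqrt (x ^ 2 + s) - 1 ∧
      l⁻¹ * Real.sqrt (x ^ 2 + s) - 1 ≤ x ^ 2 / (2 * s) := by
    intro x _
    have h1 : l ≤ Real.sqrt (x ^ 2 + s) := Real.sqrt_le_sqrt (by nlinarith)
    have h2 : Real.sqrt (x ^ 2 + s) ≤ l + x ^ 2 / (2 * l) := by
      refine Real.sqrt_le_iff.2 ⟨by positivity, ?_⟩
      have : (l + x ^ 2 / (2 * l)) ^ 2 = s + x ^ 2 + (x ^ 2 / (2 * l)) ^ 2 := by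
        rw [← hl2]; field_simp; ring
      nlinarith [sq_nonneg (x ^ 2 / (2 * l))]
    constructor
    · have := mul_le_mul_of_nonneg_left h1 (inv_nonneg.2 hl0.le)
      rw [inv_mul_cancel₀ hl0.ne'] at this
      linarith
    · have := mul_le_mul_of_nonneg_left h2 (inv_nonneg.2 hl0.le)
      rw [mul_add, inv_mul_cancel₀ hl0.ne',
        show l⁻¹ * (x ^ 2 / (2 * l)) = x ^ 2 / (2 * s) by rw [← hl2]; field_simp] at this
      linarith
  have hm2 : ∀ i, hM.eigenvalues i ^ 2 ≤ K ^ 2 := fun i =>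
    pow_le_pow_left₀ (h.posDef.eigenvalues_pos i).le (eig_le hM hMK i) 2
  have hKs : K ^ 2 / (2 * s) ≤ K / l := by
    rw [← hl2, div_le_div_iff₀ (by positivity) hl0]
    nlinarith [mul_le_mul_of_nonneg_left hlK (mul_nonneg (by linarith : 0 ≤ K) hl0.le),
      mul_pos (mul_pos (by linarith : (0:ℝ) < K) (by linarith : (0:ℝ) < K)) hl0]
  have hLb : (0 : ℝ) • (1 : Mat n) ≤ L' ∧ L' ≤ (K / l) • (1 : Mat n) := by
    rw [hL'e]
    exact ⟨smul_le_fc hM fun i => (hL0 _ (hm2 i)).1, fc_le_smul hM fun i =>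
      ((hL0 _ (hm2 i)).2.trans (div_le_div_of_nonneg_right (hm2 i) (by positivity))).trans hKs⟩
  have hNb : (-(K / l)) • (1 : Mat n) ≤ N' ∧ N' ≤ (K / l) • (1 : Mat n) := by
    have a := smul_le_smul_of_nonneg_left hN1 (inv_nonneg.2 hl0.le)
    have b := smul_le_smul_of_nonneg_left hN2 (inv_nonneg.2 hl0.le)
    rw [smul_smul] at a b
    rw [show l⁻¹ * -K = -(K / l) by ring] at b
    rw [show l⁻¹ * K = K / l by ring] at a
    exact ⟨b, a⟩
  have hh : L'.IsHermitian := by rw [hL'e]; exact fc_herm _ _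
  have hNh : N'.IsHermitian := smul_herm (hM.sub h.herm) _
  have low : ∀ P : Mat n, P.PosDef → ∀ E : Mat n, E.IsHermitian → l⁻¹ • P - (1 : Mat n) = E →
      (-(2 * K / l)) • (1 : Mat n) ≤ E → E ≤ (2 * K / l) • (1 : Mat n) →
      rtr E - rtr (E * E) / 2 - n * (16 * K ^ 3 / l ^ 3)
        ≤ rtr (fc (fun x => Real.log (x / l)) P) := by
    intro P hP E hE hPE h1 h2
    have hE' : E = fc (fun x => l⁻¹ * x - 1) P := by
      rw [← hPE, ← fc_sub (fun x => l⁻¹ * x) (fun _ => 1), ← fc_smul, fc_id hP.1, fc_one hP.1]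
    have hb : ∀ i, |l⁻¹ * hP.1.eigenvalues i - 1| ≤ 2 * K / l := fun i => by
      have a := dia_mono hP.1 h1 i
      have b := dia_mono hP.1 h2 i
      rw [dia_smul_one] at a b
      have e : dia hP.1 E i = l⁻¹ * hP.1.eigenvalues i - 1 := by
        rw [← hPE, dia_sub, ← one_smul ℝ (1 : Mat n), dia_smul_one]
        congr 1
        rw [← dia_self hP.1 i]
        simp [dia, inBases]
      rw [e] at a b
      exact abs_le.2 ⟨a, b⟩
    have c1 : (n : ℝ) * (16 * K ^ 3 / l ^ 3) = ∑ _i : Fin n, 16 * K ^ 3 / l ^ 3 := by simp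
    rw [hE', fc_mul, rtr_fc hP.1, rtr_fc hP.1, rtr_fc hP.1, Finset.sum_div, c1,
      ← Finset.sum_sub_distrib, ← Finset.sum_sub_distrib]
    refine Finset.sum_le_sum fun i _ => ?_
    have h3 := hb i
    set x := l⁻¹ * hP.1.eigenvalues i - 1 with hx
    have h4 : |x| ≤ 1 / 2 := h3.trans (by rw [div_le_iff₀ hl0]; linarith)
    have h5 := log_one_add_ge h4
    rw [show 1 + x = hP.1.eigenvalues i / l by rw [hx]; ring] at h5
    have h6 : 2 * |x| ^ 3 ≤ 16 * K ^ 3 / l ^ 3 := by
      refine (mul_le_mul_of_nonneg_left (pow_le_pow_left₀ (abs_nonneg x) h3 3) zero_le_two).trans_eq ?_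
      ring
    nlinarith
  have hlog : Lam s A M = fc (fun x => Real.log (x / l)) (cM s M + A)
      + fc (fun x => Real.log (x / l)) (dM s M - A) := by
    rw [Lam, log_split (h.cA hs0) hl0, log_split (h.dA hs0) hl0, hl, Real.log_sqrt hs0.le]
    module
  have r1 : (-(2 * K / l)) • (1 : Mat n) ≤ L' - N' ∧ L' - N' ≤ (2 * K / l) • (1 : Mat n) := by
    constructor
    · refine le_trans ?_ (sub_le_sub hLb.1 hNb.2)
      rw [← sub_smul]
      exact smul_one_mono (by linarith [show 0 ≤ K / l by positivity, show 2 * K / l = 2 * (K / l) by ring])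
    · refine (sub_le_sub hLb.2 hNb.1).trans ?_
      rw [← sub_smul]
      exact smul_one_mono (by linarith [show 2 * K / l = 2 * (K / l) by ring])
  have r2 : (-(2 * K / l)) • (1 : Mat n) ≤ L' + N' ∧ L' + N' ≤ (2 * K / l) • (1 : Mat n) := by
    constructor
    · refine le_trans ?_ (add_le_add hLb.1 hNb.1)
      rw [← add_smul]
      exact smul_one_mono (by linarith [show 0 ≤ K / l by positivity, show 2 * K / l = 2 * (K / l) by ring])
    · refine (add_le_add hLb.2 hNb.2).trans ?_
      rw [← add_smul]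
      exact smul_one_mono (by linarith [show 2 * K / l = 2 * (K / l) by ring])
  have p := low _ (h.cA hs0) (L' - N') (hh.sub hNh)
    (by simp only [hL', hN', cM]; module) r1.1 r1.2
  have q := low _ (h.dA hs0) (L' + N') (hh.add hNh)
    (by simp only [hL', hN', dM]; module) r2.1 r2.2
  have e2 : rtr ((L' - N') * (L' - N')) + rtr ((L' + N') * (L' + N'))
      = 2 * rtr (L' * L') + 2 * rtr (N' * N') := by
    simp only [Matrix.sub_mul, Matrix.mul_sub, Matrix.add_mul, Matrix.mul_add, rtr_sub, rtr_add]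
    ring
  have hLam : 2 * rtr L' - rtr (L' * L') - rtr (N' * N') - 2 * (n * (16 * K ^ 3 / l ^ 3))
      ≤ rtr (Lam s A M) := by
    rw [hlog, rtr_add]
    rw [rtr_sub] at p
    rw [rtr_add] at q
    linarith
  have eN : rtr (N' * N') = rtr ((M - A) * (M - A)) / s := by
    rw [hN', Matrix.smul_mul, Matrix.mul_smul, rtr_smul, rtr_smul, ← hl2]
    field_simp
  have eL : rtr (M * M) / s - n * (K ^ 4 / (2 * s ^ 2)) ≤ 2 * rtr L' - rtr (L' * L') := by
    rw [show M * M = fc (fun x => x * x) M by rw [← fc_mul, fc_id hM], hL'e, fc_mul, rtr_fc hM,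
      rtr_fc hM, rtr_fc hM, Finset.sum_div, Finset.mul_sum,
      show (n : ℝ) * (K ^ 4 / (2 * s ^ 2)) = ∑ _i : Fin n, K ^ 4 / (2 * s ^ 2) by simp,
      ← Finset.sum_sub_distrib, ← Finset.sum_sub_distrib]
    refine Finset.sum_le_sum fun i _ => ?_
    obtain ⟨a, b⟩ := hL0 _ (hm2 i)
    set x := hM.eigenvalues i
    set u := l⁻¹ * Real.sqrt (x ^ 2 + s) - 1 with hu
    have e : 2 * u + u ^ 2 = x * x / s := by
      have hsq := Real.mul_self_sqrt (by positivity : (0:ℝ) ≤ x ^ 2 + s)
      rw [hu, show 2 * (l⁻¹ * Real.sqrt (x ^ 2 + s) - 1) + (l⁻¹ * Real.sqrt (x ^ 2 + s) - 1) ^ 2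
        = Real.sqrt (x ^ 2 + s) * Real.sqrt (x ^ 2 + s) / (l * l) - 1 by field_simp; ring, hsq,
        hl2]
      field_simp
      ring
    have b2 : u * u ≤ K ^ 4 / (4 * s ^ 2) := by
      have h7 : u ≤ K ^ 2 / (2 * s) := b.trans (div_le_div_of_nonneg_right (hm2 i) (by positivity))
      refine (mul_le_mul h7 h7 a (by positivity)).trans_eq ?_
      ring
    have : K ^ 4 / (2 * s ^ 2) = 2 * (K ^ 4 / (4 * s ^ 2)) := by ring
    nlinarith
  have hfin : rtr (Cm A M) - n * (K ^ 4 / (2 * s) + 32 * K ^ 3 / l) ≤ s * rtr (Lam s A M) := by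
    have := mul_le_mul_of_nonneg_left
      (show rtr (M * M) / s - n * (K ^ 4 / (2 * s ^ 2)) - rtr ((M - A) * (M - A)) / s
        - 2 * (n * (16 * K ^ 3 / l ^ 3)) ≤ rtr (Lam s A M) by linarith) hs0.le
    refine le_trans (le_of_eq ?_) this
    rw [Cm, rtr_sub, ← hl2]
    field_simp
    ring
  have hbound : K ^ 4 / (2 * s) + 32 * K ^ 3 / l ≤ 40 * K ^ 4 / l := by
    have h1 : K ^ 4 / (2 * s) ≤ K ^ 4 / l := by
      refine div_le_div_of_nonneg_left (by positivity) hl0 ?_
      nlinarith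
    have h2 : 32 * K ^ 3 / l ≤ 32 * K ^ 4 / l := by
      refine div_le_div_of_nonneg_right ?_ hl0.le
      nlinarith [pow_le_pow_right₀ hK (show 3 ≤ 4 by norm_num)]
    have h3 : 40 * K ^ 4 / l = 40 * (K ^ 4 / l) := by ring
    have h4 : 32 * K ^ 4 / l = 32 * (K ^ 4 / l) := by ring
    have : 0 ≤ K ^ 4 / l := by positivity
    linarith
  have := mul_le_mul_of_nonneg_left hbound (Nat.cast_nonneg (α := ℝ) n)
  have e : (n : ℝ) * 40 * K ^ 4 / l = n * (40 * K ^ 4 / l) := by ring
  linarith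

/-- `Φ` is nonnegative. -/
theorem Phi1_nonneg (h : Adm A M) {b : ℝ} (hb : 0 < b) : 0 ≤ Phi1 A M b := by
  have hd : ∀ s ∈ Ioi (0:ℝ), DifferentiableAt ℝ (Phi1 A M) s := fun s hs =>
    (Phi1_deriv h hs).choose_spec.1.differentiableAt
  have hanti : AntitoneOn (Phi1 A M) (Ioi 0) := by
    refine antitoneOn_of_deriv_nonpos (convex_Ioi 0) (fun s hs =>
      (hd s hs).continuousAt.continuousWithinAt) (fun s hs => (hd s (interior_subset hs)).differentiableWithinAt)
      fun s hs => ?_
    have hs' : (0:ℝ) < s := interior_subset hs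
    obtain ⟨e, he, hle⟩ := Phi1_deriv h hs'
    rw [he.deriv]
    refine hle.trans ?_
    have hx := X_nonpos h hs'
    rw [sub_nonpos, le_div_iff₀ hs']
    linarith
  obtain ⟨hMK, hK⟩ := h.le_level
  set K := 1 + rtr M
  set F := fun s => -((n : ℝ) * 40 * K ^ 4 / Real.sqrt s)
    - (∑ i, ∑ j, ‖Cm A M i j‖) * (4 * K ^ 2 / s) with hF
  have hlim : Tendsto F atTop (𝓝 0) := by
    have a : Tendsto (fun s => (n : ℝ) * 40 * K ^ 4 / Real.sqrt s) atTop (𝓝 0) :=
      Tendsto.div_atTop tendsto_const_nhds Real.tendsto_sqrt_atTop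
    have c : Tendsto (fun s : ℝ => 4 * K ^ 2 / s) atTop (𝓝 0) :=
      Tendsto.div_atTop tendsto_const_nhds tendsto_id
    simpa [hF] using a.neg.sub (c.const_mul (∑ i, ∑ j, ‖Cm A M i j‖))
  refine le_of_tendsto hlim ?_
  filter_upwards [eventually_ge_atTop b, eventually_gt_atTop (16 * K ^ 2)] with s hs hsK
  have hs0 : 0 < s := hb.trans_le hs
  refine le_trans ?_ (hanti hb hs0 hs)
  have h1 := X_lower h hK hMK hsK.le
  have h2 := abs_rtr_mul_entry (V := Cm A M) (Lam_entry h hK hMK hs0)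
  rw [wB, if_neg (by nlinarith), rtr_mul_comm] at h2
  have h3 := neg_abs_le (rtr (Lam s A M * Cm A M))
  simp only [hF, Phi1]
  linarith

/-- The algebraic key inequality for the positive part of the gradient. -/
theorem key_inequality_pos (hα : α ∈ Ioo (0:ℝ) 1) (h : Adm A M) :
    rtr (fc (fun x => max x 0 ^ (1 + 1 / α)) (Rhat α A M)) ≤ rtr (Rhat α A M * Cm A M) := by
  set R := Rhat α A M with hRdef
  have hRh : R.IsHermitian := Rhat_herm
  set Y := fc (fun x => max x 0 ^ (1 / α)) R with hYdef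
  have hY : 0 ≤ Y := fc_nonneg hRh fun i => Real.rpow_nonneg (le_max_right _ _) _
  set Tq := rtr (fc (fun x => max x 0 ^ (1 + 1 / α)) R) with hTq
  have hYR : rtr (Y * R) = Tq := by
    conv_lhs => enter [1, 2]; rw [← fc_id hRh]
    rw [hYdef, fc_mul, hTq]
    congr 1
    refine fc_congr hRh fun i => ?_
    rcases le_or_gt (hRh.eigenvalues i) 0 with h0 | h0
    · rw [max_eq_right h0, Real.zero_rpow (by have := hα.1; positivity),
        Real.zero_rpow (by have := hα.1; positivity), zero_mul]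
    · rw [max_eq_left h0.le, Real.rpow_add h0, Real.rpow_one, mul_comm]
  have hYh := herm_of_nonneg hY
  have hy0 : ∀ i, 0 ≤ hYh.eigenvalues i := fun i => hY.posSemidef.eigenvalues_nonneg i
  have hYpow : ∑ i, hYh.eigenvalues i ^ (1 + α) = Tq := by
    rw [← rtr_fc hYh (fun y => y ^ (1 + α)), hTq, hYdef, fc_comp hRh]
    congr 1
    refine fc_congr hRh fun i => ?_
    rw [← Real.rpow_mul (le_max_right _ _)]
    congr 1
    field_simp [hα.1.ne']
    ring
  set f := fun s => s ^ (α - 1) * (α * rtr (Cm A M * Lam s A M)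
    + (1 + α) * (rtr (fc (fun y => (y + s) * Real.log (1 + y / s) - y) Y)
      - rtr (Y * Lam s A M))) with hf
  have i1 := rtr_Lam_integrable hα h (Cm A M)
  have i2 := rtr_Lam_integrable hα h Y
  have i3 : IntegrableOn (fun s => s ^ (α - 1) *
      rtr (fc (fun y => (y + s) * Real.log (1 + y / s) - y) Y)) (Ioi 0) := by
    simp only [rtr_fc hYh, Finset.mul_sum]
    exact integrable_finsetSum _ fun i _ => (klein_integral hα (hy0 i)).1
  have hfi : IntegrableOn f (Ioi 0) := by
    refine ((i1.const_mul α).add ((i3.sub i2).const_mul (1 + α))).congr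
      (Eventually.of_forall fun s => ?_)
    simp only [hf, Pi.add_apply, Pi.sub_apply]
    ring
  have hI : ∫ s in Ioi (0:ℝ), f s
      = α * (K0 α * rtr (R * Cm A M)) + (1 + α) * (K0 α * Tq / (1 + α) - K0 α * Tq) := by
    have e : ∀ s, f s = α * (s ^ (α - 1) * rtr (Cm A M * Lam s A M))
        + (1 + α) * (s ^ (α - 1) * rtr (fc (fun y => (y + s) * Real.log (1 + y / s) - y) Y)
          - s ^ (α - 1) * rtr (Y * Lam s A M)) := fun s => by simp only [hf]; ring
    simp only [e]
    have i4 : IntegrableOn (fun s => (1 + α) * (s ^ (α - 1) *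
        rtr (fc (fun y => (y + s) * Real.log (1 + y / s) - y) Y)
          - s ^ (α - 1) * rtr (Y * Lam s A M))) (Ioi 0) := (i3.sub i2).const_mul (1 + α)
    rw [integral_add (i1.const_mul α) i4, integral_const_mul, integral_const_mul,
      integral_sub i3 i2]
    have hK := (K0_pos hα).ne'
    have a1 : ∫ s in Ioi (0:ℝ), s ^ (α - 1) * rtr (Cm A M * Lam s A M)
        = K0 α * rtr (R * Cm A M) := by
      rw [rtr_mul_comm R, hRdef, rtr_mul_Rhat hα h, ← mul_assoc, mul_inv_cancel₀ hK, one_mul]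
    have a2 : ∫ s in Ioi (0:ℝ), s ^ (α - 1) * rtr (Y * Lam s A M) = K0 α * Tq := by
      rw [← hYR, hRdef, rtr_mul_Rhat hα h, ← mul_assoc, mul_inv_cancel₀ hK, one_mul]
    have a3 : ∫ s in Ioi (0:ℝ), s ^ (α - 1) *
        rtr (fc (fun y => (y + s) * Real.log (1 + y / s) - y) Y) = K0 α * Tq / (1 + α) := by
      simp only [rtr_fc hYh, Finset.mul_sum]
      rw [integral_finsetSum _ fun i _ => (klein_integral hα (hy0 i)).1,
        Finset.sum_congr rfl fun i _ => (klein_integral hα (hy0 i)).2, ← Finset.sum_div,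
        ← Finset.mul_sum, hYpow]
    rw [a1, a2, a3]
  have hfc : ContinuousOn f (Ioi 0) := by
    have hr : Continuous (rtr : Mat n → ℝ) := by unfold rtr; fun_prop
    have hL := continuousOn_Lam (S := Ioi (0:ℝ)) (σ := id) (A := fun _ => A) (M := fun _ => M)
      continuousOn_id continuousOn_const continuousOn_const (fun s hs => hs) fun _ _ => h
    simp only [hf, rtr_fc hYh]
    refine (continuousOn_id.rpow_const fun s hs => Or.inl (ne_of_gt hs)).mul
      (((hr.comp_continuousOn (continuousOn_const.mul hL)).const_mul α |> fun h => h).add ?_)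
    refine ContinuousOn.mul continuousOn_const ((continuousOn_finsetSum _ fun i _ => ?_).sub
      (hr.comp_continuousOn (continuousOn_const.mul hL)))
    refine ((continuousOn_const.add continuousOn_id).mul (ContinuousOn.log
      (continuousOn_const.add (continuousOn_const.div continuousOn_id fun s hs => ne_of_gt hs))
      fun s hs => ?_)).sub continuousOn_const
    have : 0 ≤ hYh.eigenvalues i / s := div_nonneg (hy0 i) (le_of_lt hs)
    show (1 : ℝ) + hYh.eigenvalues i / s ≠ 0
    linarith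
  have hpart : ∀ a b, 0 < a → a ≤ b → -(a ^ α * Phi1 A M a) ≤ ∫ s in a..b, f s := by
    intro a b ha hab
    set u := fun b => (∫ s in a..b, f s) - b ^ α * Phi1 A M b with hu
    have hmono : MonotoneOn u (Icc a b) := by
      have hd : ∀ s ∈ Icc a b, ∃ u', HasDerivAt u u' s ∧ 0 ≤ u' := by
        intro s hs
        have hs0 : 0 < s := ha.trans_le hs.1
        obtain ⟨e, he, hle⟩ := Phi1_deriv h hs0
        have hint : IntervalIntegrable f volume a s :=
          (hfc.mono fun x hx => by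
            rw [uIcc_of_le hs.1] at hx; exact ha.trans_le hx.1).intervalIntegrable
        refine ⟨_, (intervalIntegral.integral_hasDerivAt_right hint
          (hfc.stronglyMeasurableAtFilter isOpen_Ioi s hs0)
          (hfc.continuousAt (Ioi_mem_nhds hs0))).sub
          ((Real.hasDerivAt_rpow_const (Or.inl hs0.ne')).mul he), ?_⟩
        have hg := gibbs h hY hs0
        have hp : s ^ α = s ^ (α - 1) * s := by
          rw [Real.rpow_sub_one hs0.ne', div_mul_cancel₀ _ hs0.ne']
        have he2 : s * e ≤ s * rtr (Lam s A M) - rtr (Cm A M) := by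
          have := mul_le_mul_of_nonneg_left hle hs0.le
          rwa [mul_sub, mul_div_cancel₀ _ hs0.ne'] at this
        have := mul_nonneg (Real.rpow_nonneg hs0.le (α - 1))
          (show 0 ≤ α * rtr (Cm A M * Lam s A M) + (1 + α) *
            (rtr (fc (fun y => (y + s) * Real.log (1 + y / s) - y) Y) - rtr (Y * Lam s A M))
            - α * Phi1 A M s - s * e by
            simp only [Phi1, rtr_mul_comm (Lam s A M)]
            nlinarith [mul_le_mul_of_nonneg_left hg (by linarith [hα.1] : (0:ℝ) ≤ 1 + α)])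
        simp only [hf, hp]
        nlinarith
      refine monotoneOn_of_deriv_nonneg (convex_Icc _ _)
        (fun s hs => (hd s hs).choose_spec.1.continuousAt.continuousWithinAt)
        (fun s hs => (hd s (interior_subset hs)).choose_spec.1.differentiableAt.differentiableWithinAt)
        fun s hs => ?_
      obtain ⟨u', hu', h0⟩ := hd s (interior_subset hs)
      rw [hu'.deriv]; exact h0
    have := hmono (left_mem_Icc.2 hab) (right_mem_Icc.2 hab) hab
    simp only [hu, intervalIntegral.integral_same, zero_sub] at this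
    have := mul_nonneg (Real.rpow_nonneg (ha.le.trans hab) α) (Phi1_nonneg h (ha.trans_le hab))
    linarith
  -- letting the interval tend to `(0, ∞)`
  obtain ⟨hMK, hK⟩ := h.le_level
  set K := 1 + rtr M
  set aa : ℕ → ℝ := fun k => 1 / ((k : ℝ) + 1) with haa
  have ha0 : ∀ k, 0 < aa k := fun k => by simp only [haa]; positivity
  have ha1 : ∀ k, aa k ≤ 1 := fun k => by
    simp only [haa]; rw [div_le_one (by positivity)]; linarith [(Nat.cast_nonneg k : (0:ℝ) ≤ k)]
  have hta : Tendsto aa atTop (𝓝[>] 0) :=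
    tendsto_nhdsWithin_iff.2 ⟨tendsto_one_div_add_atTop_nhds_zero_nat, Eventually.of_forall ha0⟩
  set bb : ℕ → ℝ := fun k => (k : ℝ) + 1 with hbb
  have hb1 : ∀ k, 1 ≤ bb k := fun k => by simp [hbb]
  have htb : Tendsto bb atTop atTop := tendsto_atTop_add_const_right _ _ tendsto_natCast_atTop_atTop
  have hlimI : Tendsto (fun k => ∫ s in aa k..bb k, f s) atTop (𝓝 (∫ s in Ioi (0:ℝ), f s)) := by
    have hcov : AECover (volume.restrict (Ioi (0:ℝ))) atTop fun k => Ioc (aa k) (bb k) :=
      { measurableSet := fun _ => measurableSet_Ioc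
        ae_eventually_mem := by
          filter_upwards [ae_restrict_mem measurableSet_Ioi] with s hs
          filter_upwards [(tendsto_nhdsWithin_iff.1 hta).1.eventually_lt_const hs,
            htb.eventually_ge_atTop s] with k hk1 hk2
          exact ⟨hk1, hk2⟩ }
    have h' := hcov.integral_tendsto_of_countably_generated hfi
    refine h'.congr fun k => ?_
    rw [intervalIntegral.integral_of_le ((ha1 k).trans (hb1 k)),
      Measure.restrict_restrict measurableSet_Ioc,
      inter_eq_left.2 fun s (hs : s ∈ Ioc (aa k) (bb k)) => mem_Ioi.2 ((ha0 k).trans hs.1)]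
  set G : ℝ → ℝ := fun s => (∑ i, ∑ j, ‖Cm A M i j‖) * (wB K s * s ^ α)
    + (n : ℝ) * (s * (wB K s * s ^ α)) + |rtr (Cm A M)| * s ^ α with hG
  have hG0 : Tendsto (fun k => G (aa k)) atTop (𝓝 0) := by
    have hpow : Tendsto (fun k => aa k ^ α) atTop (𝓝 0) := by
      have := ((Real.continuousAt_rpow_const (0:ℝ) α (Or.inr hα.1.le)).tendsto.comp
        tendsto_one_div_add_atTop_nhds_zero_nat)
      simpa [haa, Real.zero_rpow hα.1.ne', Function.comp_def] using this
    have hlog : Tendsto (fun k => Real.log (aa k) * aa k ^ α) atTop (𝓝 0) :=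
      (tendsto_log_mul_rpow_nhdsGT_zero hα.1).comp hta
    have hw : Tendsto (fun k => wB K (aa k) * aa k ^ α) atTop (𝓝 0) := by
      have h2 := (hlog.abs).add (hpow.const_mul (2 * Real.log (6 * K)))
      simp only [abs_zero, mul_zero, add_zero] at h2
      refine h2.congr fun k => ?_
      rw [wB, if_pos (by nlinarith [ha1 k]), abs_mul, abs_of_nonneg (Real.rpow_nonneg (ha0 k).le α)]
      ring
    have hsw : Tendsto (fun k => aa k * (wB K (aa k) * aa k ^ α)) atTop (𝓝 0) := by
      simpa [haa] using (tendsto_one_div_add_atTop_nhds_zero_nat (𝕜 := ℝ)).mul hw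
    simpa [hG] using ((hw.const_mul (∑ i, ∑ j, ‖Cm A M i j‖)).add (hsw.const_mul (n:ℝ))).add
      (hpow.const_mul |rtr (Cm A M)|)
  have hge : 0 ≤ ∫ s in Ioi (0:ℝ), f s := by
    refine le_of_tendsto_of_tendsto (a₁ := (0:ℝ)) (f := fun k => -G (aa k))
      (by simpa using hG0.neg) hlimI (Eventually.of_forall fun k => ?_)
    refine le_trans ?_ (hpart _ _ (ha0 k) ((ha1 k).trans (hb1 k)))
    rw [neg_le_neg_iff]
    have hs := ha0 k
    set s := aa k
    have l1 := abs_rtr_mul_entry (V := Cm A M) (Lam_entry h hK hMK hs)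
    have l2 := Lam_bound h hK hMK hs
    have l3 : |rtr (Lam s A M)| ≤ n * wB K s := by
      have := abs_rtr_mul_le (A := (1 : Mat n)) zero_le_one l2.1 l2.2
      rw [Matrix.one_mul, rtr_one] at this
      linarith
    have l4 : Phi1 A M s ≤ (∑ i, ∑ j, ‖Cm A M i j‖) * wB K s + (s * (n * wB K s)
        + |rtr (Cm A M)|) := by
      rw [Phi1, rtr_mul_comm]
      have := mul_le_mul_of_nonneg_left ((le_abs_self _).trans l3) hs.le
      linarith [le_abs_self (rtr (Cm A M * Lam s A M)), neg_abs_le (rtr (Cm A M))]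
    refine (mul_le_mul_of_nonneg_left l4 (Real.rpow_nonneg hs.le α)).trans_eq ?_
    simp only [hG]; ring
  rw [hI] at hge
  have hKp := K0_pos hα
  have e : α * (K0 α * rtr (R * Cm A M)) + (1 + α) * (K0 α * Tq / (1 + α) - K0 α * Tq)
      = (α * K0 α) * (rtr (R * Cm A M) - Tq) := by
    field_simp [show (1 + α) ≠ 0 by linarith [hα.1]]
    ring
  rw [e] at hge
  have := nonneg_of_mul_nonneg_right hge (mul_pos hα.1 hKp)
  linarith

/-- The algebraic key inequality. -/
theorem key_inequality (hα : α ∈ Ioo (0:ℝ) 1) (hA : A.PosDef) (hB : ((2 : ℝ) • M - A).PosDef)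
    (hR : 0 ≤ Rhat α A M) :
    rtr (fc (fun x => x ^ (1 + 1 / α)) (Rhat α A M)) ≤ rtr (Rhat α A M * Cm A M) := by
  have h := key_inequality_pos hα (adm_of_dom hA hB)
  rwa [fc_congr (herm_of_nonneg hR) (f := fun x => max x 0 ^ (1 + 1 / α))
    (g := fun x => x ^ (1 + 1 / α)) fun i => by
      rw [max_eq_left (hR.posSemidef.eigenvalues_nonneg i)]] at h

/-- All the properties of `Ψ_α`. -/
theorem psiAPI (hα : α ∈ Ioo (0:ℝ) 1) : PsiAPI α where
  midpoint hA h h₀ h₁ hsq := Psi_midpoint hα hA h h₀ h₁ hsq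
  comm hA m h0 h1 h2 := Psi_comm hα hA m h0 h1 h2
  deriv {n A M V} hA hB hV := by
    refine Psi_hasDerivAt hα hV ?_
    filter_upwards [eventually_posDef hA hV, eventually_posDef hB hV.neg] with t h1 h2
    refine adm_of_dom h1 ?_
    convert h2 using 1
    rw [smul_neg]
    abel
  contPsi h h0 hA hM := Psi_tendsto hα h h0 hA hM
  contR h h0 hA hM := Rhat_tendsto hα h h0 hA hM
  herm _ := Rhat_herm
  key hA hB hR := key_inequality hα hA hB hR

end Vale.Agent.P371G
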