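import Vale.Agent.P371G.Key
import Vale.Agent.P371G.Defs

/-! # Definitions for the sharp bound at `1/2 < γ < 1`

The weight matrix `D` is not prescribed: it is found by a fixed point argument so that the
endpoint of a descent path in `A` equals `2 √E`. -/

namespace Vale.Agent.P371G

open Matrix MeasureTheory
open scoped ComplexOrder MatrixOrder
open Vale.Agent.P371M

variable {m n : ℕ}

/-- Square root through the functional calculus. -/
noncomputable def msqrt (D : Mat n) : Mat n := fc Real.sqrt D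

/-- Positive part through the functional calculus. -/
noncomputable def mpos (X : Mat n) : Mat n := fc (fun x => max x 0) X

/-- Density matrix of the weighted family at a point. -/
noncomputable def wDen (D : Mat n) (a : Matrix (Fin m) (Fin n) ℂ) : Mat n :=
  msqrt D * (aᴴ * a) * msqrt D

/-- Weighted kinetic density. -/
noncomputable def wKin (D : Mat n) (a' : Matrix (Fin m) (Fin n) ℂ) : ℝ := rtr (D * (a'ᴴ * a'))

/-- `tr ρ^q` for the weighted family. -/
noncomputable def wPow (γ : ℝ) (D : Mat n) (a : Matrix (Fin m) (Fin n) ℂ) : ℝ :=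
  trPow ((γ + 1 / 2) / (γ - 1 / 2)) (wDen D a)

/-- The Gram matrix of a family on an interval. -/
noncomputable def gramInt (A : ℝ → Matrix (Fin m) (Fin n) ℂ) (a b : ℝ) : Mat n :=
  Matrix.of fun i j => ∫ x in a..b, ((A x)ᴴ * A x) i j

/-- The dual inequality on an interval: for prescribed binding energies `E` there is a weight
matrix `D` with `4^γ β₀ ∑ Eᵢ^γ ≤ tr (D E) + ∫ (kinetic_D - tr ρ_D^q)`, up to a small error.
The bound `Λ` on `D` depends only on a kinetic bound `T₀` and on the length of an interval on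
which the Gram matrix is at least one half. -/
def DualIneq (γ : ℝ) : Prop :=
  ∀ (n : ℕ) (E : Fin n → ℝ), (∀ i, 0 < E i) → ∀ (T₀ L₀ : ℝ), ∃ Λ : ℝ, ∀ τ > (0 : ℝ), ∃ ρ > (0 : ℝ),
    ∀ (m : ℕ) (A A' : ℝ → Matrix (Fin m) (Fin n) ℂ),
      (∀ i j x, HasDerivAt (fun u => A u i j) (A' x i j) x) →
      (∀ i j, Continuous fun u => A' u i j) →
      ∀ a a' b' b : ℝ, a ≤ a' → a' < b' → b' ≤ b → b' - a' ≤ L₀ →
      rtr ((A a)ᴴ * A a) ≤ ρ → rtr ((A b)ᴴ * A b) ≤ ρ →
      gramInt A a b ≤ (1 + ρ) • (1 : Mat n) →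
      (1 / 2 : ℝ) • (1 : Mat n) ≤ gramInt A a' b' →
      (∫ x in a..b, rtr ((A' x)ᴴ * A' x)) ≤ T₀ →
      ∃ D : Mat n, 0 ≤ D ∧ rtr D ≤ Λ ∧
        (4 : ℝ) ^ γ * beta0 γ * (∑ i, E i ^ γ)
          ≤ rtr (D * Matrix.diagonal fun i => (E i : ℂ))
            + (∫ x in a..b, wKin D (A' x)) - (∫ x in a..b, wPow γ D (A x)) + τ

/-- `tr (A (2M - A)⁻¹ A)`, the penalty replacing the barrier at the boundary. -/
noncomputable def pen (A M : Mat n) : ℝ := rtr (A * ((2 : ℝ) • M - A)⁻¹ * A)

/-- Gradient of `pen` in `A` at fixed `M`. -/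
noncomputable def penGrad (A M : Mat n) : Mat n :=
  ((2 : ℝ) • M - A)⁻¹ * A + A * ((2 : ℝ) • M - A)⁻¹
    + ((2 : ℝ) • M - A)⁻¹ * A * A * ((2 : ℝ) • M - A)⁻¹

/-- The objective, which is maximised over `M` at fixed `A`. -/
noncomputable def gpot (α ε : ℝ) (R X A M : Mat n) : ℝ :=
  rtr (R * (M - A)) - rtr (M * M * X) + Psi α A M + ε * (lndet M - pen A M)

/-- Gradient of `gpot` in `A` at fixed `M`. -/
noncomputable def ggrad (α ε : ℝ) (R A M : Mat n) : Mat n :=
  Rhat α A M - R - ε • penGrad A M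

/-- The domain: `A` may be singular. -/
def GDom (A M : Mat n) : Prop := 0 ≤ A ∧ ((2 : ℝ) • M - A).PosDef

/-- `M` maximises `gpot` at `A`. -/
def GMax (α ε : ℝ) (R X A M : Mat n) : Prop :=
  GDom A M ∧ ∀ M', GDom A M' → gpot α ε R X A M' ≤ gpot α ε R X A M

/-- A chosen maximiser. -/
noncomputable def gArg (α ε : ℝ) (R X A : Mat n) : Mat n :=
  Classical.epsilon fun M => GMax α ε R X A M

/-- The maximal value. -/
noncomputable def gVal (α ε : ℝ) (R X A : Mat n) : ℝ := gpot α ε R X A (gArg α ε R X A)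

end Vale.Agent.P371G
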