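import Vale.Agent.P371G.Descent

/-! # `DualIneq γ` for `1/2 < γ < 1` -/

namespace Vale.Agent.P371G

open Matrix Filter Topology MeasureTheory
open scoped ComplexOrder MatrixOrder Matrix.Norms.L2Operator
open Vale.Agent.P371M

variable {m n : ℕ}

theorem wKin_le {D : Mat n} (hD : 0 ≤ D) (a : Matrix (Fin m) (Fin n) ℂ) :
    wKin D a ≤ rtr (aᴴ * a) * rtr D :=
  rtr_mul_le_rtr hD (posSemidef_conjTranspose_mul_self a).nonneg

/-- Lower bound for the value at a trial multiplier, used on the boundary `tr D = Λ`. -/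
theorem value_lower {d : PData m n} (hd : d.Ok) (hM : MaxAPI (d.γ - 1 / 2)) {D P : Mat n} {x : ℝ}
    (h : d.Pt D x) (hP : 0 ≤ P) :
    -(rtr P * rtr (d.R D x)) - (1 + rtr P) ^ 2 * rtr (d.X D x) - d.ε * rtr P ^ 2
      ≤ d.V D x P := by
  set c := 1 + rtr P with hc
  have ht := rtr_nonneg hP
  have hc0 : 0 < c := by linarith
  have hPh := herm_of_nonneg hP
  have he : ∀ i, hPh.eigenvalues i ≤ rtr P := fun i => eigenvalues_le_trace hP.posSemidef i
  have hB : (1 : ℝ) • (1 : Mat n) ≤ (2 : ℝ) • (c • (1 : Mat n)) - P := by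
    rw [← sub_nonneg]
    refine (add_nonneg (sub_nonneg.2 (le_rtr_smul_one hP))
      (smul_nonneg (show (0 : ℝ) ≤ 1 + rtr P by linarith) (zero_le_one' (Mat n)))).trans_eq ?_
    simp only [hc]; module
  have hg : GDom P (c • (1 : Mat n)) := ⟨hP, posDef_of_le one_pos hB⟩
  refine le_trans ?_ ((PData.M_spec hd hM h hP).2 _ hg)
  have h1 : -(rtr P * rtr (d.R D x)) ≤ rtr (d.R D x * (c • (1 : Mat n) - P)) := by
    rw [Matrix.mul_sub, rtr_sub]
    have e1 := rtr_mul_le_rtr (PData.R_nonneg (d := d) D x) hP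
    have e2 := rtr_mul_nonneg (PData.R_nonneg (d := d) D x) (smul_one_posDef hc0).posSemidef.nonneg
    linarith
  have h2 : rtr (c • (1 : Mat n) * (c • (1 : Mat n)) * d.X D x) = c ^ 2 * rtr (d.X D x) := by
    rw [Matrix.smul_mul, Matrix.one_mul, smul_smul, Matrix.smul_mul, Matrix.one_mul, rtr_smul, sq]
  have h3 : 0 ≤ Psi (d.γ - 1 / 2) P (c • (1 : Mat n)) := by
    have := (psiAPI (PData.alpha_mem hd)).comm hPh (fun _ => c) hP (fun _ => hc0)
      fun i => by linarith [he i]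
    rw [fc_const hPh] at this
    rw [this]
    exact Finset.sum_nonneg fun i _ => gval_nonneg (hP.posSemidef.eigenvalues_nonneg i)
      (by linarith [he i])
  have h4 : pen P (c • (1 : Mat n)) ≤ rtr P ^ 2 := by
    have hPP : 0 ≤ P * P := sq_nonneg_herm hPh
    have hi : ((2 : ℝ) • (c • (1 : Mat n)) - P)⁻¹ ≤ 1 := by
      have := inv_antitone (Matrix.PosDef.one : (1 : Mat n).PosDef) (by simpa using hB)
      simpa using this
    rw [pen_eq]
    refine (rtr_mul_le_left hPP hi).trans ?_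
    rw [Matrix.mul_one]
    exact (rtr_mul_le_rtr hP hP).trans_eq (sq _).symm
  have h5 : 0 ≤ lndet (c • (1 : Mat n)) := by
    rw [lndet_smul_one]
    exact mul_nonneg (Nat.cast_nonneg n) (Real.log_nonneg (by linarith))
  rw [gpot, h2]
  nlinarith [mul_le_mul_of_nonneg_left h4 hd.hε.le, mul_nonneg hd.hε.le h5]

/-- Lower bound for the value at the target `P = 2√E`. -/
theorem value_target {d : PData m n} (hd : d.Ok) (hM : MaxAPI (d.γ - 1 / 2)) {D : Mat n} {x : ℝ}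
    (h : d.Pt D x) {E : Fin n → ℝ} (hE : ∀ i, 0 < E i) {η ρ : ℝ} (hη : 0 < η)
    (hgram : gramInt d.A d.a x ≤ (1 + ρ) • (1 : Mat n)) :
    4 ^ d.γ * beta0 d.γ * (∑ i, E i ^ d.γ)
        - (1 + η) ^ 2 * ((1 + ρ) * rtr (D * diagonal fun i => (E i : ℂ)) + d.δ * ∑ i, E i)
        - rtr (diagonal fun i => ((2 * Real.sqrt (E i) : ℝ) : ℂ)) * rtr (d.R D x)
        - d.ε * (rtr (diagonal fun i => ((2 * Real.sqrt (E i) : ℝ) : ℂ)) / η
            + |lndet (((1 + η) / 2) • diagonal fun i => ((2 * Real.sqrt (E i) : ℝ) : ℂ))|)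
      ≤ d.V D x (diagonal fun i => ((2 * Real.sqrt (E i) : ℝ) : ℂ)) := by
  set e : Fin n → ℝ := fun i => 2 * Real.sqrt (E i) with he
  set P : Mat n := diagonal fun i => (e i : ℂ) with hPdef
  set k := (1 + η) / 2 with hk
  set DE : Mat n := diagonal fun i => (E i : ℂ) with hDE
  have he0 : ∀ i, 0 < e i := fun i => mul_pos two_pos (Real.sqrt_pos.2 (hE i))
  have hP : P.PosDef := by
    rw [hPdef, posDef_diagonal_iff]
    exact fun i => Complex.zero_lt_real.2 (he0 i)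
  have hPh := hP.1
  have hDE0 : 0 ≤ DE := by
    rw [hDE]
    exact (posSemidef_diagonal_iff.2 fun i => Complex.zero_le_real.2 (hE i).le).nonneg
  have hB : (2 : ℝ) • (k • P) - P = η • P := by
    rw [smul_smul, hk, show (2 : ℝ) * ((1 + η) / 2) = 1 + η by ring, add_smul, one_smul]; abel
  have hg : GDom P (k • P) := ⟨hP.posSemidef.nonneg, by rw [hB]; exact hP.smul hη⟩
  refine le_trans ?_ ((PData.M_spec hd hM h hP.posSemidef.nonneg).2 _ hg)
  have h1 : -(rtr P * rtr (d.R D x)) ≤ rtr (d.R D x * (k • P - P)) := by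
    rw [Matrix.mul_sub, rtr_sub, Matrix.mul_smul, rtr_smul]
    have e1 := rtr_mul_le_rtr (PData.R_nonneg (d := d) D x) hP.posSemidef.nonneg
    have e2 := rtr_mul_nonneg (PData.R_nonneg (d := d) D x) hP.posSemidef.nonneg
    nlinarith
  have hsq : (k • P) * (k • P) = (1 + η) ^ 2 • DE := by
    rw [Matrix.smul_mul, Matrix.mul_smul, smul_smul, hPdef, diagonal_mul_diagonal, hDE]
    ext i j
    by_cases hij : i = j
    · subst hij
      simp only [Matrix.smul_apply, diagonal_apply_eq, Complex.real_smul, he, ← Complex.ofReal_mul]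
      congr 1
      rw [mul_mul_mul_comm 2, Real.mul_self_sqrt (hE i).le, hk]
      ring
    · simp [hij]
  have h2 : rtr ((k • P) * (k • P) * d.X D x)
      ≤ (1 + η) ^ 2 * ((1 + ρ) * rtr (D * DE) + d.δ * ∑ i, E i) := by
    rw [hsq, Matrix.smul_mul, rtr_smul]
    refine mul_le_mul_of_nonneg_left ?_ (sq_nonneg _)
    rw [PData.X, Matrix.mul_add, rtr_add, Matrix.mul_smul, Matrix.mul_one, rtr_smul]
    refine add_le_add ?_ (le_of_eq ?_)
    · set S := msqrt D * DE * msqrt D with hS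
      have hS0 : 0 ≤ S := by
        have := (hDE0.posSemidef.conjTranspose_mul_mul_same (msqrt D)).nonneg
        rwa [(msqrt_herm D).eq] at this
      have e1 : rtr (DE * (msqrt D * gramInt d.A d.a x * msqrt D)) = rtr (S * gramInt d.A d.a x) := by
        rw [hS, ← Matrix.mul_assoc DE, rtr_mul_comm, ← Matrix.mul_assoc, ← Matrix.mul_assoc]
      have e2 : rtr S = rtr (D * DE) := by
        rw [hS, rtr_mul_comm, ← Matrix.mul_assoc, msqrt_mul_self h.1]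
      rw [e1]
      refine (rtr_mul_le_left hS0 hgram).trans_eq ?_
      rw [Matrix.mul_smul, Matrix.mul_one, rtr_smul, e2]
    · simp [rtr, hDE, Matrix.trace]
  have h3 : 4 ^ d.γ * beta0 d.γ * (∑ i, E i ^ d.γ) ≤ Psi (d.γ - 1 / 2) P (k • P) := by
    have hc := (psiAPI (PData.alpha_mem hd)).comm hPh (fun y => k * y) hP.posSemidef.nonneg
      (fun i => mul_pos (by positivity) (hP.eigenvalues_pos i))
      (fun i => by
        have := mul_pos hη (hP.eigenvalues_pos i)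
        rw [hk]; linarith)
    rw [show fc (fun y => k * y) P = k • P by rw [← fc_smul, fc_id hPh]] at hc
    rw [hc]
    calc 4 ^ d.γ * beta0 d.γ * (∑ i, E i ^ d.γ)
        = beta0 d.γ * ∑ i, e i ^ (2 * d.γ) := by
          rw [Finset.mul_sum, Finset.mul_sum]
          refine Finset.sum_congr rfl fun i _ => ?_
          rw [Real.rpow_mul (he0 i).le, Real.rpow_two, he]
          simp only [mul_pow, Real.sq_sqrt (hE i).le]
          rw [Real.mul_rpow (by norm_num) (hE i).le]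
          ring_nf
      _ = beta0 d.γ * ∑ i, hPh.eigenvalues i ^ (2 * d.γ) := by
          rw [← rtr_fc hPh (fun y => y ^ (2 * d.γ)), hPdef,
            rtr_fc_diagonal e (fun y => y ^ (2 * d.γ))]
      _ ≤ _ := by
          rw [Finset.mul_sum]
          exact Finset.sum_le_sum fun i _ =>
            le_gval hd.hγ.1 (hP.eigenvalues_pos i) (by rw [hk]; linarith)
  have h4 : pen P (k • P) = rtr P / η := by
    have hi : (η • P)⁻¹ = η⁻¹ • P⁻¹ := Matrix.inv_eq_left_inv (by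
      rw [Matrix.smul_mul, Matrix.mul_smul, smul_smul, inv_mul_cancel₀ hη.ne',
        posDef_inv_mul hP, one_smul])
    rw [pen, hB, hi, Matrix.mul_smul, Matrix.smul_mul, rtr_smul, posDef_mul_inv hP,
      Matrix.one_mul, div_eq_inv_mul]
  have h5 := mul_le_mul_of_nonneg_left (neg_abs_le (lndet (k • P))) hd.hε.le
  rw [gpot, h4]
  linarith

theorem wKin_continuous {D : Mat n} {F : ℝ → Matrix (Fin m) (Fin n) ℂ} (hF : Continuous F) :
    Continuous fun x => wKin D (F x) :=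
  rtr_continuous.comp (continuous_const.mul (hF.matrix_conjTranspose.matrix_mul hF))

theorem wPow_continuous {d : PData m n} (hd : d.Ok) {D : Mat n} (hD : 0 ≤ D) :
    Continuous fun x => wPow d.γ D (d.A x) := by
  refine ((wKin_continuous (D := D) (PData.A'_cont hd)).sub (PData.src_cont hd hD)).congr
    fun x => ?_
  show wKin D (d.A' x) - (wKin D (d.A' x) - wPow d.γ D (d.A x)) = _
  ring

theorem int_wPow_ge {d : PData m n} (hd : d.Ok) (hn : 0 < n) {D : Mat n} (hD : 0 ≤ D)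
    {a' b' L Λ : ℝ} (haa' : d.a ≤ a') (hab' : a' ≤ b') (hb'b : b' ≤ d.b) (hlen : b' - a' ≤ L)
    (hL : 0 < L) (hΛ : 0 < Λ) (hDΛ : rtr D = Λ)
    (hhalf : (1 / 2 : ℝ) • (1 : Mat n) ≤ gramInt d.A a' b') :
    (Λ / (4 * n * L)) ^ ((d.γ + 1 / 2) / (d.γ - 1 / 2) - 1) * (Λ / (4 * n))
      ≤ ∫ x in d.a..d.b, wPow d.γ D (d.A x) := by
  set q := (d.γ + 1 / 2) / (d.γ - 1 / 2) with hq
  have hnR : (0 : ℝ) < n := Nat.cast_pos.2 hn
  set s := Λ / (4 * n * L) with hs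
  have hs0 : 0 < s := by positivity
  have hQc := wPow_continuous hd hD
  have hcA : Continuous fun x => wKin D (d.A x) := wKin_continuous (PData.A_cont hd)
  refine le_trans ?_ (intervalIntegral.integral_mono_interval haa' hab' hb'b
    (Eventually.of_forall fun x => trPow_nonneg (wDen_nonneg _ _).posSemidef _)
    (hQc.intervalIntegrable _ _))
  have hc1 : Continuous fun x => s ^ (q - 1) * (wKin D (d.A x) / n - s) := by fun_prop
  refine le_trans ?_ (intervalIntegral.integral_mono_on hab'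
    (hc1.intervalIntegrable _ _) (hQc.intervalIntegrable _ _) fun x _ => ?_)
  swap
  · have := wPow_lower hd.hγ hn D (d.A x) hs0
    rwa [← wKin_eq hD, ← hq] at this
  rw [intervalIntegral.integral_const_mul, intervalIntegral.integral_sub
    ((hcA.div_const _).intervalIntegrable _ _) intervalIntegrable_const,
    intervalIntegral.integral_div, intervalIntegral.integral_const, smul_eq_mul]
  refine mul_le_mul_of_nonneg_left ?_ (Real.rpow_nonneg hs0.le _)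
  have hg2 : Λ / 2 ≤ ∫ x in a'..b', wKin D (d.A x) := by
    simp only [wKin]
    rw [← rtr_mul_gramInt fun i j =>
      continuous_iff_continuousAt.2 fun x => (hd.hA i j x).continuousAt]
    refine le_trans (le_of_eq ?_) (rtr_mul_le_left hD hhalf)
    rw [Matrix.mul_smul, Matrix.mul_one, rtr_smul, hDΛ]; ring
  have h1 : (b' - a') * s ≤ L * s := mul_le_mul_of_nonneg_right hlen hs0.le
  have h2 : L * s = Λ / (4 * n) := by rw [hs]; field_simp
  have h3 : Λ / 2 / n ≤ (∫ x in a'..b', wKin D (d.A x)) / n :=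
    div_le_div_of_nonneg_right hg2 hnR.le
  have h4 : Λ / 2 / n = 2 * (Λ / (4 * n)) := by field_simp; ring
  linarith

/-- On the boundary `tr D = Λ` the endpoint is large. -/
theorem boundary_gt {d : PData m n} (hd : d.Ok) (hM : MaxAPI (d.γ - 1 / 2)) {D P : Mat n}
    (hD : 0 ≤ D) (hP : 0 ≤ P) {Λ T tE Q : ℝ} (hΛ : 1 ≤ Λ) (hDΛ : rtr D = Λ) (hδ1 : d.δ ≤ 1)
    (hRb : rtr ((d.A d.b)ᴴ * d.A d.b) ≤ 1)
    (hgram : gramInt d.A d.a d.b ≤ (2 : ℝ) • (1 : Mat n))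
    (hkin : (∫ x in d.a..d.b, rtr ((d.A' x)ᴴ * d.A' x)) ≤ T)
    (hQ : Q ≤ ∫ x in d.a..d.b, wPow d.γ D (d.A x))
    (hQbig : (T + tE + (1 + tE) ^ 2 * (2 + n) + tE ^ 2 + 3) * Λ < Q)
    (hval : d.V D d.b P ≤ (∫ x in d.a..d.b, wKin D (d.A' x))
      - (∫ x in d.a..d.b, wPow d.γ D (d.A x)) + 1) :
    tE < rtr P := by
  by_contra hle
  push Not at hle
  have hΛ0 : 0 ≤ Λ := zero_le_one.trans hΛ
  have hlo := value_lower hd hM (⟨hD, hd.hab.le, le_rfl⟩ : d.Pt D d.b) hP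
  have hR : rtr (d.R D d.b) ≤ Λ := by
    rw [PData.R, ← wKin_eq hD]
    refine (wKin_le hD (d.A d.b)).trans ?_
    rw [hDΛ]
    exact mul_le_of_le_one_left hΛ0 hRb
  have hX : rtr (d.X D d.b) ≤ 2 * Λ + n := by
    rw [PData.X, rtr_add, rtr_smul, rtr_one, rtr_mul_comm, ← Matrix.mul_assoc, msqrt_mul_self hD]
    refine add_le_add ?_ (mul_le_of_le_one_left (Nat.cast_nonneg n) hδ1)
    refine (rtr_mul_le_left hD hgram).trans ?_
    rw [Matrix.mul_smul, Matrix.mul_one, rtr_smul, hDΛ]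
  have hkinD : (∫ x in d.a..d.b, wKin D (d.A' x)) ≤ T * Λ := by
    have hc := PData.A'_cont hd
    refine (intervalIntegral.integral_mono_on (g := fun x => rtr ((d.A' x)ᴴ * d.A' x) * Λ)
      hd.hab.le ((wKin_continuous hc).intervalIntegrable _ _)
      (((rtr_continuous.comp (hc.matrix_conjTranspose.matrix_mul hc)).mul
        continuous_const).intervalIntegrable _ _) fun x _ => ?_).trans ?_
    · rw [← hDΛ]; exact wKin_le hD (d.A' x)
    · rw [intervalIntegral.integral_mul_const]; exact mul_le_mul_of_nonneg_right hkin hΛ0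
  have ht0 := rtr_nonneg hP
  have htE : 0 ≤ tE := ht0.trans hle
  have b1 : rtr P * rtr (d.R D d.b) ≤ tE * Λ :=
    mul_le_mul hle hR (rtr_nonneg (PData.R_nonneg D d.b)) htE
  have b2 : (1 + rtr P) ^ 2 * rtr (d.X D d.b) ≤ (1 + tE) ^ 2 * ((2 + n) * Λ) := by
    refine mul_le_mul (pow_le_pow_left₀ (by linarith) (by linarith) 2) ?_
      (rtr_nonneg (PData.X_pos hd hd.hab.le).posSemidef.nonneg) (sq_nonneg _)
    linarith [le_mul_of_one_le_right (Nat.cast_nonneg n : (0 : ℝ) ≤ n) hΛ]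
  have b3 : d.ε * rtr P ^ 2 ≤ tE ^ 2 * Λ := by
    calc d.ε * rtr P ^ 2 ≤ 1 * tE ^ 2 :=
          mul_le_mul hd.hε1 (pow_le_pow_left₀ ht0 hle 2) (sq_nonneg _) zero_le_one
      _ ≤ tE ^ 2 * Λ := by rw [one_mul]; exact le_mul_of_one_le_right (sq_nonneg _) hΛ
  linarith

/-- The value at the end of the path. -/
theorem path_end_le {d : PData m n} (hd : d.Ok) (hM : MaxAPI (d.γ - 1 / 2))
    {K Λ2 Δ c u : ℝ} {N : ℕ} (hg : PData.Grid d K Λ2 Δ N) (hc : 0 ≤ c) (hu : 0 ≤ u)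
    {D : Mat n} (hD : 0 ≤ D)
    (hstep : ∀ x, d.Pt D x → d.Pt D (x + Δ) → ∀ B ∈ psdBall n Λ2,
      B + (K * Δ) • d.Z D x B ∈ psdBall n Λ2 →
      d.V D (x + Δ) (B + (K * Δ) • d.Z D x B) - d.V D x B - (∫ t in x..x + Δ, d.src D t) ≤ c)
    (hbig : ∀ x, d.Pt D x → ∀ B : Mat n, 0 ≤ B → rtr B = Λ2 →
      d.V D x B - (∫ t in d.a..x, d.src D t) ≤ 0)
    (hstart : (wKin D (d.A d.a) + d.ε * n) ^ 2 ≤ u * (4 * d.δ)) :
    d.V D d.b (d.path K Λ2 Δ D N) ≤ (∫ x in d.a..d.b, wKin D (d.A' x))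
      - (∫ x in d.a..d.b, wPow d.γ D (d.A x)) + (u + N * c) := by
  have h := PData.path_value hd hM hg hc hD hstep hbig N le_rfl
  rw [hg.hN] at h
  have h0 : max (d.V D d.a 0) 0 ≤ u := by
    refine max_le ?_ hu
    refine (hM.zero_le hd.hε hd.hε1 hd.hδ (PData.R_nonneg (d := d) D d.a)
      (PData.X_ge (D := D) hd (le_refl d.a))).trans ?_
    rw [PData.R, ← wKin_eq hD, div_le_iff₀ (by linarith [hd.hδ])]
    exact hstart
  have hint : (∫ t in d.a..d.b, d.src D t)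
      = (∫ x in d.a..d.b, wKin D (d.A' x)) - ∫ x in d.a..d.b, wPow d.γ D (d.A x) :=
    intervalIntegral.integral_sub ((wKin_continuous (PData.A'_cont hd)).intervalIntegrable _ _)
      ((wPow_continuous hd hD).intervalIntegrable _ _)
  rw [hint] at h
  linarith

/-- The choice of the regularisation `ε` and of the grid, and the endpoint map. -/
theorem exists_endpoint_map {d0 : PData m n} (hd0 : d0.Ok) (hM : MaxAPI (d0.γ - 1 / 2))
    {Λ ρ u : ℝ} (hρ : 0 ≤ ρ) (hu : 0 < u) (hu1 : u ≤ 1)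
    (hρv : ρ * Λ ≤ d0.δ * u) (hδ1 : d0.δ ≤ 1)
    (hRa : rtr ((d0.A d0.a)ᴴ * d0.A d0.a) ≤ ρ) {Kε : ℝ} (hKε : 0 ≤ Kε) :
    ∃ (ε : ℝ) (P : Mat n → Mat n), 0 < ε ∧ ε ≤ 1 ∧ ε * Kε ≤ u ∧
      (∀ D ∈ psdBall n Λ, 0 ≤ P D) ∧
      (∀ (D : ℕ → Mat n) (D₀ : Mat n), (∀ j, D j ∈ psdBall n Λ) → D₀ ∈ psdBall n Λ →
        Tendsto D atTop (𝓝 D₀) → Tendsto (fun j => P (D j)) atTop (𝓝 (P D₀))) ∧
      (∀ D ∈ psdBall n Λ, ∀ Q : Mat n, Q.IsHermitian → Q * Q = Q → D * Q = 0 → P D * Q = 0) ∧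
      ∀ D ∈ psdBall n Λ, PData.V { d0 with ε := ε } D d0.b (P D)
        ≤ (∫ x in d0.a..d0.b, wKin D (d0.A' x))
          - (∫ x in d0.a..d0.b, wPow d0.γ D (d0.A x)) + 4 * u := by
  obtain ⟨Λ2, hΛ2, hbig⟩ := PData.exists_large hd0 hM Λ
  obtain ⟨C', hC'⟩ := PData.drift_crit hd0 hM Λ Λ2
  have hlen : 0 < d0.b - d0.a := sub_pos.2 hd0.hab
  set τ1 := u / (d0.b - d0.a + 1) with hτ1
  have hτ10 : 0 < τ1 := div_pos hu (by linarith)
  have hC'0 : 0 < |C'| + 1 := by positivity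
  set v := d0.δ * u with hv
  have hv0 : 0 < v := mul_pos hd0.hδ hu
  set ε := min 1 (min (v / ((n : ℝ) + 1)) (min (u / (Kε + 1)) ((τ1 / (|C'| + 1)) ^ 2))) with hε
  have hε0 : 0 < ε :=
    lt_min one_pos (lt_min (by positivity) (lt_min (by positivity) (by positivity)))
  have hε1 : ε ≤ 1 := min_le_left _ _
  have hεn : ε ≤ v / ((n : ℝ) + 1) := (min_le_right _ _).trans (min_le_left _ _)
  have hεK : ε ≤ u / (Kε + 1) :=
    (min_le_right _ _).trans ((min_le_right _ _).trans (min_le_left _ _))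
  have hεC : ε ≤ (τ1 / (|C'| + 1)) ^ 2 :=
    (min_le_right _ _).trans ((min_le_right _ _).trans (min_le_right _ _))
  rw [le_div_iff₀ (by positivity)] at hεn hεK
  set d : PData m n := { d0 with ε := ε } with hddef
  have hd : d.Ok := PData.ok_setEps hd0 hε0 hε1
  have hM' : MaxAPI (d.γ - 1 / 2) := hM
  have hcrit : ∀ D : Mat n, ∀ x, d.Pt D x → rtr D ≤ Λ → ∀ B ∈ psdBall n Λ2, d.Z D x B = 0 →
      d.drift D x B (d.M D x B) ≤ τ1 := by
    intro D x hx hD B hB hZ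
    refine (hC' ε ⟨hε0, hε1⟩ D x hx hD B hB hZ).trans ?_
    have h1 : Real.sqrt ε ≤ τ1 / (|C'| + 1) := (Real.sqrt_le_left (by positivity)).2 hεC
    rw [le_div_iff₀ hC'0] at h1
    have h2 := mul_le_mul_of_nonneg_right (le_abs_self C') (Real.sqrt_nonneg ε)
    linarith [Real.sqrt_nonneg ε]
  obtain ⟨K, hK, hquad⟩ := PData.drift_quad hd hM' hτ10 hcrit
  obtain ⟨Δ₀, hΔ₀, hstep⟩ := PData.step_le hd hM' hτ10 hK hquad
  obtain ⟨N, hNbig⟩ := exists_nat_gt ((d0.b - d0.a) * (K + 1 / Δ₀))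
  have hN0 : (0 : ℝ) < N := lt_of_le_of_lt (by positivity) hNbig
  set Δ := (d0.b - d0.a) / N with hΔ
  have hΔ0 : 0 < Δ := div_pos hlen hN0
  have hs1 : 0 ≤ (d0.b - d0.a) * (1 / Δ₀) := mul_nonneg hlen.le (by positivity)
  have hs2 : 0 ≤ (d0.b - d0.a) * K := mul_nonneg hlen.le hK.le
  have hKΔ : K * Δ ≤ 1 := by
    rw [hΔ, mul_div_assoc', div_le_one hN0]
    linarith
  have hΔle : Δ ≤ Δ₀ := by
    rw [hΔ, div_le_iff₀ hN0]
    have h1 : (d0.b - d0.a) * (1 / Δ₀) ≤ N := by linarith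
    rw [mul_one_div, div_le_iff₀ hΔ₀] at h1
    linarith
  have hg : PData.Grid d K Λ2 Δ N := by
    refine ⟨hK.le, hΛ2, hΔ0.le, hKΔ, ?_⟩
    show d0.a + N * Δ = d0.b
    rw [hΔ, mul_div_cancel₀ _ hN0.ne']
    ring
  refine ⟨ε, fun D => d.path K Λ2 Δ D N, hε0, hε1, by linarith,
    fun D hD => (PData.path_mem hd hM' hg hD.1 N le_rfl).1,
    fun D D₀ hD hD₀ h => PData.path_tendsto hd hM' hg (fun j => (hD j).1) hD₀.1 h N le_rfl,
    fun D hD Q hQ hQQ hDQ => PData.path_kernel hd hM' hg hD.1 hQ hQQ hDQ N le_rfl,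
    fun D hD => ?_⟩
  have hstart : (wKin D (d.A d.a) + d.ε * n) ^ 2 ≤ u * (4 * d.δ) := by
    show (wKin D (d0.A d0.a) + ε * n) ^ 2 ≤ u * (4 * d0.δ)
    have h1 : wKin D (d0.A d0.a) ≤ v :=
      ((wKin_le hD.1 _).trans (mul_le_mul hRa hD.2 (rtr_nonneg hD.1) hρ)).trans hρv
    have h0 : 0 ≤ wKin D (d0.A d0.a) :=
      rtr_mul_nonneg hD.1 (posSemidef_conjTranspose_mul_self _).nonneg
    refine (pow_le_pow_left₀ (by positivity) (show _ ≤ 2 * v by linarith) 2).trans ?_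
    have h3 : d0.δ * u ≤ 1 := mul_le_one₀ hδ1 hu.le hu1
    have h4 := mul_le_mul_of_nonneg_left h3 (mul_nonneg (mul_nonneg (by norm_num : (0:ℝ) ≤ 4) hd0.hδ.le) hu.le)
    rw [hv]
    linarith [show (2 * (d0.δ * u)) ^ 2 = 4 * d0.δ * u * (d0.δ * u) by ring]
  have h := path_end_le hd hM' hg (c := 3 * τ1 * Δ) (u := u) (by positivity) hu.le hD.1
    (fun x hx hx' B hB hB' => hstep Δ ⟨hΔ0, hΔle⟩ D x hx hx' hD.2 B hB hB')
    (fun x hx B hB hBt => hbig ε ⟨hε0, hε1⟩ D x hx hD.2 B hB hBt) hstart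
  have hNΔ : (N : ℝ) * (3 * τ1 * Δ) ≤ 3 * u := by
    have e : (N : ℝ) * (3 * τ1 * Δ) = 3 * (τ1 * (d0.b - d0.a)) := by
      rw [hΔ]; field_simp
    have : τ1 * (d0.b - d0.a + 1) = u := div_mul_cancel₀ _ (by linarith)
    linarith
  change _ ≤ (∫ x in d0.a..d0.b, wKin D (d0.A' x))
      - (∫ x in d0.a..d0.b, wPow d0.γ D (d0.A x)) + (u + N * (3 * τ1 * Δ)) at h
  show d.V D d0.b (d.path K Λ2 Δ D N) ≤ _
  change d.V D d0.b _ ≤ _ at h
  linarith

theorem error_bound {η ρ δ tDE SE Λ u : ℝ} (hη : 0 ≤ η) (hη1 : η ≤ 1) (hρ : 0 ≤ ρ) (hδ : 0 ≤ δ)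
    (hS : 0 ≤ SE) (h0 : 0 ≤ tDE) (hle : tDE ≤ Λ * SE) (h1 : 3 * η * (Λ * SE) ≤ u)
    (h2 : 4 * ρ * (Λ * SE) ≤ u) (h3 : 4 * (δ * SE) ≤ u) :
    (1 + η) ^ 2 * ((1 + ρ) * tDE + δ * SE) ≤ tDE + 3 * u := by
  have e0 : η ^ 2 ≤ η := by nlinarith
  have e1 : (1 + η) ^ 2 * (1 + ρ) ≤ 1 + (3 * η + 4 * ρ) := by
    nlinarith [mul_le_mul_of_nonneg_right e0 hρ, mul_le_mul_of_nonneg_right hη1 hρ]
  have e2 := mul_le_mul_of_nonneg_right e1 h0
  have e3 := mul_le_mul_of_nonneg_left hle (by linarith : 0 ≤ 3 * η + 4 * ρ)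
  have e4 : (1 + η) ^ 2 * (δ * SE) ≤ 4 * (δ * SE) :=
    mul_le_mul_of_nonneg_right (by nlinarith) (mul_nonneg hδ hS)
  linarith

/-- The dual inequality on one interval, given admissible parameters. -/
theorem dual_interval {d0 : PData m n} (hd0 : d0.Ok) (hM : MaxAPI (d0.γ - 1 / 2)) (hn : 0 < n)
    {E : Fin n → ℝ} (hE : ∀ i, 0 < E i) {T L Λ η ρ u : ℝ} {a' b' : ℝ}
    (hL : 0 < L) (hΛ : 1 ≤ Λ)
    (hΛbig : 4 * n * (T + rtr (diagonal fun i => ((2 * Real.sqrt (E i) : ℝ) : ℂ))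
        + (1 + rtr (diagonal fun i => ((2 * Real.sqrt (E i) : ℝ) : ℂ))) ^ 2 * (2 + n)
        + rtr (diagonal fun i => ((2 * Real.sqrt (E i) : ℝ) : ℂ)) ^ 2 + 3) + 1
      ≤ (Λ / (4 * n * L)) ^ ((d0.γ + 1 / 2) / (d0.γ - 1 / 2) - 1))
    (hη : 0 < η) (hη1 : η ≤ 1) (hρ : 0 < ρ) (hρ1 : ρ ≤ 1) (hu : 0 < u) (hu1 : u ≤ 1 / 12)
    (hδ1 : d0.δ ≤ 1) (hρv : ρ * Λ ≤ d0.δ * u)
    (hρt : ρ * (Λ * rtr (diagonal fun i => ((2 * Real.sqrt (E i) : ℝ) : ℂ))) ≤ u)
    (h1 : 3 * η * (Λ * ∑ i, E i) ≤ u) (h2 : 4 * ρ * (Λ * ∑ i, E i) ≤ u)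
    (h3 : 4 * (d0.δ * ∑ i, E i) ≤ u)
    (haa' : d0.a ≤ a') (hab' : a' ≤ b') (hb'b : b' ≤ d0.b) (hlen : b' - a' ≤ L)
    (hRa : rtr ((d0.A d0.a)ᴴ * d0.A d0.a) ≤ ρ) (hRb : rtr ((d0.A d0.b)ᴴ * d0.A d0.b) ≤ ρ)
    (hgram : gramInt d0.A d0.a d0.b ≤ (1 + ρ) • (1 : Mat n))
    (hhalf : (1 / 2 : ℝ) • (1 : Mat n) ≤ gramInt d0.A a' b')
    (hkin : (∫ x in d0.a..d0.b, rtr ((d0.A' x)ᴴ * d0.A' x)) ≤ T) :
    ∃ D : Mat n, 0 ≤ D ∧ rtr D ≤ Λ ∧
      (4 : ℝ) ^ d0.γ * beta0 d0.γ * (∑ i, E i ^ d0.γ)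
        ≤ rtr (D * Matrix.diagonal fun i => (E i : ℂ))
          + (∫ x in d0.a..d0.b, wKin D (d0.A' x))
          - (∫ x in d0.a..d0.b, wPow d0.γ D (d0.A x)) + 12 * u := by
  set AE : Mat n := diagonal fun i => ((2 * Real.sqrt (E i) : ℝ) : ℂ) with hAEdef
  set DE : Mat n := diagonal fun i => (E i : ℂ) with hDEdef
  have hAE : 0 ≤ AE := by
    rw [hAEdef]
    exact (posSemidef_diagonal_iff.2 fun i => Complex.zero_le_real.2
      (mul_nonneg zero_le_two (Real.sqrt_nonneg _))).nonneg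
  have hDE : 0 ≤ DE := by
    rw [hDEdef]
    exact (posSemidef_diagonal_iff.2 fun i => Complex.zero_le_real.2 (hE i).le).nonneg
  have hnR : (0 : ℝ) < n := Nat.cast_pos.2 hn
  have hΛ0 : 0 < Λ := one_pos.trans_le hΛ
  set tE := rtr AE
  have htE : 0 ≤ tE := rtr_nonneg hAE
  set kη := |lndet (((1 + η) / 2) • AE)| with hkη
  obtain ⟨ε, P, hε0, hε1, hεK, hP0, hPc, hPk, hPv⟩ := exists_endpoint_map hd0 hM hρ.le hu
    (by linarith) hρv hδ1 hRa (Kε := tE / η + kη)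
    (add_nonneg (div_nonneg htE hη.le) (abs_nonneg _))
  set d : PData m n := { d0 with ε := ε } with hddef
  have hd : d.Ok := PData.ok_setEps hd0 hε0 hε1
  have hbd : ∀ D ∈ psdBall n Λ, rtr D = Λ → tE < rtr (P D) := by
    intro D hD hDΛ
    have hQ := int_wPow_ge hd hn hD.1 haa' hab' hb'b hlen hL hΛ0 hDΛ hhalf
    refine boundary_gt hd hM hD.1 (hP0 D hD) hΛ hDΛ hδ1 (hRb.trans hρ1)
      (hgram.trans (smul_one_mono (by linarith))) hkin hQ ?_ ((hPv D hD).trans ?_)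
    · refine lt_of_lt_of_le ?_ (mul_le_mul_of_nonneg_right hΛbig (by positivity))
      have e : ∀ C : ℝ, (4 * n * C + 1) * (Λ / (4 * n)) = C * Λ + Λ / (4 * n) := fun C => by
        field_simp
      rw [e]
      linarith [show 0 < Λ / (4 * (n : ℝ)) by positivity]
    · show _ ≤ (∫ x in d0.a..d0.b, wKin D (d0.A' x))
        - (∫ x in d0.a..d0.b, wPow d0.γ D (d0.A x)) + 1
      linarith
  obtain ⟨D, hD, hPE⟩ := exists_target hΛ0 P AE hAE hP0 hPc hPk hbd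
  refine ⟨D, hD.1, hD.2, ?_⟩
  have hlo := value_target hd hM (⟨hD.1, hd.hab.le, le_rfl⟩ : d.Pt D d.b) hE hη (ρ := ρ) hgram
  have hhi := hPv D hD
  rw [hPE] at hhi
  have hDEtr : rtr DE = ∑ i, E i := by simp [rtr, hDEdef, Matrix.trace]
  have hle : rtr (D * DE) ≤ Λ * ∑ i, E i := by
    refine (rtr_mul_le_rtr hD.1 hDE).trans ?_
    rw [hDEtr, mul_comm]
    exact mul_le_mul_of_nonneg_right hD.2 (Finset.sum_nonneg fun i _ => (hE i).le)
  have he := error_bound hη.le hη1 hρ.le hd0.hδ.le (Finset.sum_nonneg fun i _ => (hE i).le)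
    (rtr_mul_nonneg hD.1 hDE) hle h1 h2 h3
  have e5 : tE * rtr (d.R D d.b) ≤ u := by
    rw [PData.R, ← wKin_eq hD.1]
    calc tE * wKin D (d0.A d0.b) ≤ tE * (ρ * Λ) := mul_le_mul_of_nonneg_left
            ((wKin_le hD.1 _).trans (mul_le_mul hRb hD.2 (rtr_nonneg hD.1) hρ.le)) htE
      _ ≤ u := by linarith
  change 4 ^ d0.γ * beta0 d0.γ * (∑ i, E i ^ d0.γ)
      - (1 + η) ^ 2 * ((1 + ρ) * rtr (D * DE) + d0.δ * ∑ i, E i) - tE * rtr (d.R D d.b)
      - ε * (tE / η + kη) ≤ d.V D d.b AE at hlo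
  change d.V D d.b AE ≤ _ at hhi
  linarith

theorem dualIneq {γ : ℝ} (hγ : γ ∈ Set.Ioo (1 / 2 : ℝ) 1) : DualIneq γ := by
  intro n E hE T₀ L₀
  rcases Nat.eq_zero_or_pos n with rfl | hn
  · refine ⟨0, fun τ hτ => ⟨1, one_pos,
      fun m A A' _ _ a a' b' b _ _ _ _ _ _ _ _ _ => ⟨0, le_rfl, by simp [rtr_zero], ?_⟩⟩⟩
    have h1 : ∀ x, wKin (0 : Mat 0) (A' x) = 0 := fun x => by simp [wKin, rtr]
    have h2 : ∀ x, wPow γ (0 : Mat 0) (A x) = 0 := fun x => by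
      rw [wPow_eq, rtr_fc (wDen_nonneg _ _).posSemidef.1]; simp
    simp only [h1, h2, rtr]
    simp [hτ.le]
  have hnR : (0 : ℝ) < n := Nat.cast_pos.2 hn
  set q := (γ + 1 / 2) / (γ - 1 / 2) with hq
  have hq1 : 0 < q - 1 := by
    rw [hq, sub_pos, one_lt_div (by linarith [hγ.1])]; linarith
  set tE := rtr (diagonal fun i => ((2 * Real.sqrt (E i) : ℝ) : ℂ)) with htEdef
  have htE : 0 ≤ tE := rtr_nonneg (posSemidef_diagonal_iff.2 fun i => Complex.zero_le_real.2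
    (mul_nonneg zero_le_two (Real.sqrt_nonneg _))).nonneg
  set SE := ∑ i, E i with hSE
  have hSE0 : 0 ≤ SE := Finset.sum_nonneg fun i _ => (hE i).le
  set L := max L₀ 1 with hL
  have hL0 : 0 < L := lt_max_of_lt_right one_pos
  set T := max T₀ 0 with hT
  set C := T + tE + (1 + tE) ^ 2 * (2 + n) + tE ^ 2 + 3 with hC
  have hC0 : 0 < C := by
    have : 0 ≤ T := le_max_right _ _
    positivity
  set Λ := max 1 (4 * n * L * (4 * n * C + 1) ^ (1 / (q - 1))) with hΛdef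
  have hΛ1 : 1 ≤ Λ := le_max_left _ _
  have hΛ0 : 0 < Λ := one_pos.trans_le hΛ1
  have hsC : 4 * n * C + 1 ≤ (Λ / (4 * n * L)) ^ (q - 1) := by
    have h1 : (4 * n * C + 1) ^ (1 / (q - 1)) ≤ Λ / (4 * n * L) := by
      rw [le_div_iff₀ (by positivity), mul_comm]; exact le_max_right _ _
    have h2 := Real.rpow_le_rpow (by positivity) h1 hq1.le
    rwa [← Real.rpow_mul (by positivity), one_div_mul_cancel hq1.ne', Real.rpow_one] at h2
  refine ⟨Λ, fun τ hτ => ?_⟩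
  set u := min τ 1 / 12 with hu
  have hu0 : 0 < u := div_pos (lt_min hτ one_pos) (by norm_num)
  have hu1 : u ≤ 1 / 12 := div_le_div_of_nonneg_right (min_le_right _ _) (by norm_num)
  have huτ : 12 * u ≤ τ := by rw [hu]; linarith [min_le_left τ 1]
  set η := min 1 (u / (3 * Λ * SE + 1)) with hη
  have hη0 : 0 < η := lt_min one_pos (by positivity)
  set δ := min 1 (u / (4 * SE + 1)) with hδ
  have hδ0 : 0 < δ := lt_min one_pos (by positivity)
  set ρ := min 1 (min (u / (4 * Λ * SE + 1)) (min (δ * u / Λ) (u / (Λ * tE + 1)))) with hρ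
  have hρ0 : 0 < ρ :=
    lt_min one_pos (lt_min (by positivity) (lt_min (by positivity) (by positivity)))
  have hρS : ρ ≤ u / (4 * Λ * SE + 1) := (min_le_right _ _).trans (min_le_left _ _)
  have hρv : ρ ≤ δ * u / Λ := (min_le_right _ _).trans ((min_le_right _ _).trans (min_le_left _ _))
  have hρt : ρ ≤ u / (Λ * tE + 1) :=
    (min_le_right _ _).trans ((min_le_right _ _).trans (min_le_right _ _))
  have hηS : η ≤ u / (3 * Λ * SE + 1) := min_le_right _ _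
  have hδS : δ ≤ u / (4 * SE + 1) := min_le_right _ _
  rw [le_div_iff₀ (by positivity)] at hρS hρv hρt hηS hδS
  refine ⟨ρ, hρ0, fun m A A' hA hA' a a' b' b haa' hab' hb'b hlen hRa hRb hgram hhalf hkin => ?_⟩
  have hab : a < b := lt_of_le_of_lt haa' (lt_of_lt_of_le hab' hb'b)
  obtain ⟨D, hD0, hDΛ, hD⟩ := dual_interval (d0 := ⟨γ, 1, δ, a, b, A, A'⟩)
    ⟨hγ, one_pos, le_rfl, hδ0, hab, hA, hA'⟩
    (maxAPI ⟨by linarith [hγ.1], by linarith [hγ.2]⟩) hn hE (T := T) (L := L) (η := η) (ρ := ρ)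
    (u := u) hL0 hΛ1 hsC hη0 (min_le_left _ _) hρ0 (min_le_left _ _) hu0 hu1 (min_le_left _ _)
    hρv (by linarith) (by linarith) (by linarith) (by linarith) haa' hab'.le hb'b
    (hlen.trans (le_max_left _ _)) hRa hRb hgram hhalf (hkin.trans (le_max_left _ _))
  refine ⟨D, hD0, hDΛ, ?_⟩
  linarith

end Vale.Agent.P371G
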