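import Vale.Agent.P371G.LowDefs
import Vale.Agent.P371G.Flow

/-! # From the dual inequality to the eigenvalue bound, `1/2 < γ < 1`

The weak eigenvalue equation gives `tr (D E) + ∫ tr (D du*du) = ∫ tr (D u*Wu)` for every weight
matrix `D`; the dual inequality is applied to `C¹` approximants on a large interval and the matrix
Young inequality to the weighted family. -/

namespace Vale.Agent.P371G

open Matrix Finset MeasureTheory Filter Topology Set
open scoped ComplexOrder MatrixOrder
open Vale.Agent.P371M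

variable {m n : ℕ}

/-! ### Functions in `H^1` -/

theorem h1_bounded {u du : ℝ → ℂ} (h : IsH1 u du) : ∃ B, ∀ t, ‖u t‖ ≤ B := by
  set S := ∫ x, ‖u x‖ ^ 2 with hS
  set T := ∫ x, ‖du x‖ ^ 2 with hT
  refine ⟨Real.sqrt (S + 1) + (1 + T) / 2, fun t => ?_⟩
  obtain ⟨s, hs, hus⟩ : ∃ s ∈ Icc t (t + 1), ‖u s‖ ^ 2 < S + 1 := by
    by_contra hc
    push Not at hc
    have h1 : (∫ _ in t..(t + 1), (S + 1)) ≤ ∫ x in t..(t + 1), ‖u x‖ ^ 2 :=
      intervalIntegral.integral_mono_on (by linarith) intervalIntegrable_const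
        h.sq_integrable.intervalIntegrable hc
    rw [intervalIntegral.integral_const, intervalIntegral.integral_of_le (by linarith : t ≤ t + 1)]
      at h1
    have h2 := setIntegral_le_integral (s := Ioc t (t + 1)) h.sq_integrable
      (Eventually.of_forall fun x => sq_nonneg ‖u x‖)
    simp only [add_sub_cancel_left, one_smul] at h1
    linarith
  have h3 : ‖u s - u t‖ ≤ (1 + T) / 2 := by
    rw [h.2.2 t s]
    refine (intervalIntegral.norm_integral_le_integral_norm hs.1).trans ?_
    refine (intervalIntegral.integral_mono_on (g := fun x => (1 + ‖du x‖ ^ 2) / 2) hs.1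
      (h.intInt t s).norm ((intervalIntegrable_const.add
        h.dsq_integrable.intervalIntegrable).div_const 2)
      fun x _ => by nlinarith [sq_nonneg (‖du x‖ - 1)]).trans ?_
    rw [intervalIntegral.integral_div, intervalIntegral.integral_add intervalIntegrable_const
      h.dsq_integrable.intervalIntegrable, intervalIntegral.integral_const,
      intervalIntegral.integral_of_le hs.1, smul_eq_mul, mul_one]
    have h2 := setIntegral_le_integral (s := Ioc t s) h.dsq_integrable
      (Eventually.of_forall fun x => sq_nonneg ‖du x‖)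
    have h4 := hs.2
    linarith
  have h5 : ‖u s‖ ≤ Real.sqrt (S + 1) := Real.le_sqrt_of_sq_le hus.le
  have h6 := norm_le_norm_add_norm_sub' (u t) (u s)
  rw [norm_sub_rev] at h6
  linarith

theorem h1_approx {u du : ℝ → ℂ} (h : IsH1 u du) {a b η : ℝ} (hab : a ≤ b) (hη : 0 < η) :
    ∃ v g : ℝ → ℂ, Continuous g ∧ (∀ x, HasDerivAt v (g x) x) ∧
      (∀ x ∈ Icc a b, ‖v x - u x‖ ≤ η * (b - a + 1)) ∧
      (∫ x in a..b, ‖g x - du x‖ ^ 2) ≤ η ^ 2 := by
  have h2 : MemLp du (ENNReal.ofReal 2) volume := by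
    rw [ENNReal.ofReal_ofNat]; exact h.2.1
  obtain ⟨g, -, hg, hgc, hgm⟩ :=
    h2.exists_hasCompactSupport_integral_rpow_sub_le two_pos (pow_pos hη 2)
  rw [ENNReal.ofReal_ofNat] at hgm
  have hd : Integrable fun x => ‖du x - g x‖ ^ 2 :=
    (memLp_two_iff_integrable_sq_norm (h.2.1.sub hgm).1).1 (h.2.1.sub hgm)
  have hg2 : (∫ x in a..b, ‖du x - g x‖ ^ 2) ≤ η ^ 2 := by
    rw [intervalIntegral.integral_of_le hab]
    refine le_trans (setIntegral_le_integral hd (Eventually.of_forall fun x => by positivity)) ?_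
    simpa using hg
  refine ⟨fun x => u a + ∫ t in a..x, g t, g, hgc,
    fun x => ((hgc.integral_hasStrictDerivAt a x).hasDerivAt).const_add _, fun x hx => ?_, ?_⟩
  · have e : u a + (∫ t in a..x, g t) - u x = ∫ t in a..x, (g t - du t) := by
      rw [intervalIntegral.integral_sub (hgc.intervalIntegrable _ _) (h.intInt a x), ← h.2.2 a x]
      ring
    rw [e]
    refine (intervalIntegral.norm_integral_le_integral_norm hx.1).trans ?_
    refine (intervalIntegral.integral_mono_interval le_rfl hx.1 hx.2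
      (Eventually.of_forall fun t => norm_nonneg _)
      ((hgc.intervalIntegrable _ _).sub (h.intInt a b)).norm).trans ?_
    calc (∫ x in a..b, ‖g x - du x‖)
        ≤ ∫ x in a..b, (η + (1 / η) * ‖du x - g x‖ ^ 2) := by
          refine intervalIntegral.integral_mono_on hab
            ((hgc.intervalIntegrable _ _).sub (h.intInt a b)).norm
            ((intervalIntegrable_const).add (hd.intervalIntegrable.const_mul _)) fun x _ => ?_
          rw [norm_sub_rev]
          have : 0 ≤ (1 / η) * (‖du x - g x‖ - η / 2) ^ 2 + 3 / 4 * η := by positivity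
          have e : (1 / η) * (‖du x - g x‖ - η / 2) ^ 2 + 3 / 4 * η
              = η + 1 / η * ‖du x - g x‖ ^ 2 - ‖du x - g x‖ := by field_simp; ring
          linarith
      _ = (b - a) * η + 1 / η * ∫ x in a..b, ‖du x - g x‖ ^ 2 := by
          rw [intervalIntegral.integral_add intervalIntegrable_const
            (hd.intervalIntegrable.const_mul _), intervalIntegral.integral_const,
            intervalIntegral.integral_const_mul, smul_eq_mul]
      _ ≤ (b - a) * η + 1 / η * η ^ 2 := by gcongr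
      _ = η * (b - a + 1) := by field_simp
  · simpa [norm_sub_rev] using hg2

/-! ### Quadratic densities -/

/-- The potential energy density of a family. -/
def qW (W : Mat m) (A : Matrix (Fin m) (Fin n) ℂ) : Mat n := Aᴴ * W * A

theorem qW_psd {W : Mat m} (hW : W.PosSemidef) (A : Matrix (Fin m) (Fin n) ℂ) :
    (qW W A).PosSemidef := hW.conjTranspose_mul_mul_same A

theorem norm_entry_le_rtr {P : Mat n} (hP : 0 ≤ P) (i j : Fin n) : ‖P i j‖ ≤ rtr P := by
  refine (norm_entry_le hP.posSemidef.1 i j).trans (Real.sqrt_le_iff.2 ⟨rtr_nonneg hP, ?_⟩)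
  rw [sq]
  exact rtr_mul_le_rtr hP hP

theorem qTr_le_rpow {q : ℝ} (hq : 1 ≤ q) (A : Matrix (Fin m) (Fin n) ℂ) :
    qTr q A ≤ frobSq A ^ (q - 1) * frobSq A := by
  have hR := posSemidef_conjTranspose_mul_self A
  rw [qTr, trPow_eq hR.1]
  have e : frobSq A = ∑ a, hR.1.eigenvalues a := by
    simpa [frobSq] using re_trace_pow hR.1 1
  calc ∑ a, hR.1.eigenvalues a ^ q
      ≤ ∑ a, frobSq A ^ (q - 1) * hR.1.eigenvalues a := Finset.sum_le_sum fun a _ => by
        have h0 := hR.eigenvalues_nonneg a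
        rw [show q = q - 1 + 1 by ring, Real.rpow_add_one' h0 (by linarith),
          show q - 1 + 1 - 1 = q - 1 by ring]
        refine mul_le_mul_of_nonneg_right (Real.rpow_le_rpow h0 ?_ (by linarith)) h0
        exact eigenvalues_le_trace hR a
    _ = _ := by rw [← Finset.mul_sum, ← e]

theorem qW_entry_le {γ : ℝ} (hγ : 1 / 2 < γ) {W : Mat m} (hW : W.PosSemidef)
    (A : Matrix (Fin m) (Fin n) ℂ) (i j : Fin n) :
    ‖qW W A i j‖ ≤ youngK γ * trPow (γ + 1 / 2) W
      + frobSq A ^ ((γ + 1 / 2) / (γ - 1 / 2) - 1) * frobSq A :=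
  (norm_entry_le_rtr (qW_psd hW A).nonneg i j).trans ((young_matrix_gen hγ hW A).trans
    (add_le_add_right (qTr_le_rpow (by rw [one_le_div (by linarith)]; linarith) A) _))

/-- The entrywise integral of a matrix valued function. -/
noncomputable def intMat (μ : Measure ℝ) (X : ℝ → Mat n) : Mat n :=
  Matrix.of fun i j => ∫ x, X x i j ∂μ

theorem rtr_mul_intMat {μ : Measure ℝ} {X : ℝ → Mat n}
    (hX : ∀ i j, Integrable (fun x => X x i j) μ) (D : Mat n) :
    Integrable (fun x => rtr (D * X x)) μ ∧ rtr (D * intMat μ X) = ∫ x, rtr (D * X x) ∂μ := by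
  simp only [rtr_mul_eq, intMat, Matrix.of_apply]
  have hi : ∀ i j, Integrable (fun x => (D i j * X x j i).re) μ := fun i j =>
    ((hX j i).const_mul (D i j)).re
  refine ⟨integrable_finsetSum _ fun i _ => integrable_finsetSum _ fun j _ => hi i j, ?_⟩
  rw [integral_finsetSum _ fun i _ => integrable_finsetSum _ fun j _ => hi i j]
  refine Finset.sum_congr rfl fun i _ => ?_
  rw [integral_finsetSum _ fun j _ => hi i j]
  refine Finset.sum_congr rfl fun j _ => ?_
  rw [← integral_const_mul]
  exact (integral_re ((hX j i).const_mul (D i j))).symm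

theorem rtr_mul_sub_le {D P Q : Mat n} {Λ τ : ℝ} (hD : 0 ≤ D) (hΛ : rtr D ≤ Λ) (hτ : 0 ≤ τ)
    (h : ∀ i j, ‖P i j - Q i j‖ ≤ τ) : rtr (D * P) ≤ rtr (D * Q) + (n : ℝ) ^ 2 * Λ * τ := by
  have h1 := (le_abs_self _).trans (abs_rtr_mul_entry (V := D) (X := P - Q) (w := τ) h)
  have h2 : (∑ i, ∑ j, ‖D i j‖) ≤ (n : ℝ) ^ 2 * Λ := by
    refine (Finset.sum_le_sum fun i _ => Finset.sum_le_sum fun j _ =>
      (norm_entry_le_rtr hD i j).trans hΛ).trans_eq ?_
    simp [sq, mul_assoc]
  have h3 := mul_le_mul_of_nonneg_right h2 hτ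
  rw [Matrix.mul_sub, rtr_sub] at h1
  linarith

theorem young_weighted {γ : ℝ} (hγ : 1 / 2 < γ) {W : Mat m} (hW : W.PosSemidef) {D : Mat n}
    (hD : 0 ≤ D) (A : Matrix (Fin m) (Fin n) ℂ) :
    rtr (D * qW W A) ≤ youngK γ * trPow (γ + 1 / 2) W + wPow γ D A := by
  have hS : (msqrt D)ᴴ = msqrt D := fc_herm _ _
  have hSS : msqrt D * msqrt D = D := by
    conv_rhs => rw [← fc_id hD.posSemidef.1]
    rw [msqrt, fc_mul]
    exact fc_congr hD.posSemidef.1 fun i =>
      Real.mul_self_sqrt (hD.posSemidef.eigenvalues_nonneg i)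
  have h := young_matrix_gen hγ hW (A * msqrt D)
  rw [Matrix.conjTranspose_mul, hS] at h
  have e1 : rtr (D * qW W A) = (trace (msqrt D * Aᴴ * W * (A * msqrt D))).re := by
    conv_lhs => rw [← hSS]
    rw [Matrix.mul_assoc, rtr_mul_comm, qW, rtr]
    simp only [Matrix.mul_assoc]
  have e2 : qTr ((γ + 1 / 2) / (γ - 1 / 2)) (A * msqrt D) = wPow γ D A := by
    rw [qTr, wPow, wDen, Matrix.conjTranspose_mul, hS]
    simp only [Matrix.mul_assoc]
  linarith

theorem kin_entry_le {A B : Matrix (Fin m) (Fin n) ℂ} {c : ℝ} (hc : 0 < c) (i j : Fin n) :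
    ‖(Bᴴ * B) i j - (Aᴴ * A) i j‖
      ≤ (1 + 1 / c) * frobSq (B - A) + c * frobSq A := by
  have hb : ∀ p k, ‖A p k‖ ^ 2 ≤ ∑ k, ‖A p k‖ ^ 2 := fun p k =>
    Finset.single_le_sum (f := fun k => ‖A p k‖ ^ 2) (fun _ _ => sq_nonneg _) (Finset.mem_univ k)
  have hd : ∀ p k, ‖(B - A) p k‖ ^ 2 ≤ ∑ k, ‖(B - A) p k‖ ^ 2 := fun p k =>
    Finset.single_le_sum (f := fun k => ‖(B - A) p k‖ ^ 2) (fun _ _ => sq_nonneg _)
      (Finset.mem_univ k)
  rw [frobSq_eq, frobSq_eq, Finset.sum_comm (γ := Fin n), Finset.sum_comm (γ := Fin n),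
    Finset.mul_sum, Finset.mul_sum, ← Finset.sum_add_distrib, Matrix.mul_apply, Matrix.mul_apply,
    ← Finset.sum_sub_distrib]
  refine (norm_sum_le _ _).trans (Finset.sum_le_sum fun p _ => ?_)
  simp only [Matrix.conjTranspose_apply]
  rw [show star (B p i) * B p j - star (A p i) * A p j
    = star ((B - A) p i) * (B - A) p j + star ((B - A) p i) * A p j
      + star (A p i) * (B - A) p j by simp only [Matrix.sub_apply, star_sub]; ring]
  refine ((norm_add_le _ _).trans (add_le_add (norm_add_le _ _) le_rfl)).trans ?_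
  simp only [norm_mul, norm_star]
  have mix : ∀ e x : ℝ, e * x ≤ (e ^ 2 / c + c * x ^ 2) / 2 := fun e x => by
    have h1 : 0 ≤ (e - c * x) ^ 2 / c := by positivity
    have h2 : (e - c * x) ^ 2 / c = e ^ 2 / c + c * x ^ 2 - 2 * (e * x) := by field_simp; ring
    linarith
  have k1 := mix ‖(B - A) p i‖ ‖A p j‖
  have k2 := mix ‖(B - A) p j‖ ‖A p i‖
  have k3 : ‖(B - A) p i‖ * ‖(B - A) p j‖ ≤ (‖(B - A) p i‖ ^ 2 + ‖(B - A) p j‖ ^ 2) / 2 := by
    nlinarith [sq_nonneg (‖(B - A) p i‖ - ‖(B - A) p j‖)]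
  have k4 := div_le_div_of_nonneg_right (hd p i) hc.le
  have k5 := div_le_div_of_nonneg_right (hd p j) hc.le
  have k6 := mul_le_mul_of_nonneg_left (hb p i) hc.le
  have k7 := mul_le_mul_of_nonneg_left (hb p j) hc.le
  have e : (∑ k, ‖(B - A) p k‖ ^ 2) / c = 1 / c * ∑ k, ‖(B - A) p k‖ ^ 2 := by ring
  linarith [hd p i, hd p j]

/-! ### The eigenvalue bound -/

theorem eig_bound_low {γ : ℝ} (hγ : γ ∈ Set.Ioo (1 / 2 : ℝ) 1) (hD : DualIneq γ)
    {W : ℝ → Matrix (Fin m) (Fin m) ℂ} (hW : IsPotential γ W)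
    {u du : Fin n → ℝ → Fin m → ℂ} {lam : Fin n → ℝ} (hE : IsEigFamily W u du lam) :
    ∑ i, |lam i| ^ γ ≤ LOne γ * ∫ x, trPow (γ + 1 / 2) (W x) := by
  obtain ⟨h, horth, hneg, hweak⟩ := hE
  have hγh : 1 / 2 < γ := hγ.1
  have hb := beta0_pos hγh
  set q := (γ + 1 / 2) / (γ - 1 / 2) with hq
  have hq1 : 1 ≤ q := by rw [hq, one_le_div (by linarith)]; linarith
  set E : Fin n → ℝ := fun i => -lam i with hEd
  have hE0 : ∀ i, 0 < E i := fun i => neg_pos.2 (hneg i)
  set U : ℝ → Matrix (Fin m) (Fin n) ℂ := fun x => Matrix.of fun p i => u i x p with hU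
  set dU : ℝ → Matrix (Fin m) (Fin n) ℂ := fun x => Matrix.of fun p i => du i x p with hdU
  have hUc : ∀ p i, Continuous fun x => U x p i := fun p i => (h i p).continuous
  have hF : Integrable fun x => frobSq (U x) := by
    simp only [frobSq_eq]
    exact integrable_finsetSum _ fun i _ => integrable_finsetSum _ fun p _ =>
      (h i p).sq_integrable
  have hdF : Integrable fun x => frobSq (dU x) := by
    simp only [frobSq_eq]
    exact integrable_finsetSum _ fun i _ => integrable_finsetSum _ fun p _ =>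
      (h i p).dsq_integrable
  have hF0 : ∀ A : Matrix (Fin m) (Fin n) ℂ, 0 ≤ frobSq A := fun A => by
    rw [frobSq_eq]; positivity
  obtain ⟨BF, hBF⟩ : ∃ BF, ∀ x, frobSq (U x) ≤ BF := by
    choose B hB using fun i p => h1_bounded (h i p)
    refine ⟨∑ i, ∑ p, B i p ^ 2, fun x => ?_⟩
    rw [frobSq_eq]
    exact Finset.sum_le_sum fun i _ => Finset.sum_le_sum fun p _ =>
      pow_le_pow_left₀ (norm_nonneg _) (hB i p x) 2
  have hP := hW.2.2
  have hP0 : ∀ x, 0 ≤ trPow (γ + 1 / 2) (W x) := fun x => trPow_nonneg (hW.1 x) _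
  have hk0 : 0 ≤ youngK γ := by
    have := (by linarith : 0 < γ - 1 / 2)
    unfold youngK; positivity
  -- the integrable densities
  have hQm : ∀ (A : ℝ → Matrix (Fin m) (Fin n) ℂ), (∀ p i, Continuous fun x => A x p i) →
      ∀ i j, Measurable fun x => qW (W x) (A x) i j := by
    intro A hA i j
    simp only [qW, Matrix.mul_apply, Matrix.conjTranspose_apply]
    exact Finset.measurable_fun_sum _ fun b _ => Measurable.mul
      (Finset.measurable_fun_sum _ fun c _ => ((hA c i).star.measurable).mul (hW.2.1 c b))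
      (hA b j).measurable
  have hQi : ∀ i j, Integrable fun x => qW (W x) (U x) i j := fun i j => by
    refine ((hP.const_mul (youngK γ)).add (hF.const_mul (BF ^ (q - 1)))).mono'
      (hQm U hUc i j).aestronglyMeasurable (Eventually.of_forall fun x => ?_)
    exact (qW_entry_le hγh (hW.1 x) (U x) i j).trans (add_le_add_right
      (mul_le_mul_of_nonneg_right (Real.rpow_le_rpow (hF0 _) (hBF x) (by linarith)) (hF0 _)) _)
  have hKi : ∀ i j, Integrable fun x => ((dU x)ᴴ * dU x) i j := fun i j => by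
    simp only [Matrix.mul_apply, Matrix.conjTranspose_apply, hdU, Matrix.of_apply]
    exact integrable_finsetSum _ fun p _ => (h i p).2.1.star.integrable_mul (h j p).2.1
  have hRi : ∀ i j, Integrable fun x => ((U x)ᴴ * U x) i j := fun i j => by
    simp only [Matrix.mul_apply, Matrix.conjTranspose_apply, hU, Matrix.of_apply]
    exact integrable_finsetSum _ fun p _ => (h i p).mul_integrable (h j p)
  set GQ := intMat volume fun x => qW (W x) (U x) with hGQ
  set GK := intMat volume fun x => (dU x)ᴴ * dU x with hGK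
  have hdiag : Matrix.diagonal (fun i => (E i : ℂ)) = GQ - GK := by
    ext j i
    have e1 : GQ j i = ∫ x, star (u j x) ⬝ᵥ (W x *ᵥ u i x) := by
      simp only [hGQ, intMat, Matrix.of_apply]
      refine integral_congr_ae (Eventually.of_forall fun x => ?_)
      simp only [qW, hU, Matrix.mul_apply, Matrix.conjTranspose_apply,
        Matrix.of_apply, dotProduct, mulVec, Pi.star_apply, Finset.mul_sum, Finset.sum_mul]
      rw [Finset.sum_comm]
      exact Finset.sum_congr rfl fun a _ => Finset.sum_congr rfl fun b _ => mul_assoc _ _ _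
    have e2 : GK j i = ∫ x, star (du j x) ⬝ᵥ du i x := by
      simp only [hGK, intMat, Matrix.of_apply]
      refine integral_congr_ae (Eventually.of_forall fun x => ?_)
      simp only [hdU, Matrix.mul_apply, Matrix.conjTranspose_apply, Matrix.of_apply, dotProduct,
        Pi.star_apply]
    have := hweak i (u j) (du j) (h j)
    rw [horth j i] at this
    rw [Matrix.sub_apply, e1, e2, ← neg_sub, this]
    by_cases hij : j = i
    · subst hij; simp [hEd]
    · simp [hij]
  set PP := ∫ x, trPow (γ + 1 / 2) (W x) with hPP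
  have hPP0 : 0 ≤ PP := integral_nonneg hP0
  -- a fixed interval carrying most of the Gram matrix
  obtain ⟨c, hc1, hc⟩ : ∃ c : ℝ, 1 ≤ c ∧
      (3 / 4 : ℝ) • (1 : Mat n) ≤ gramInt U (-c) c := by
    have hlim : Tendsto (fun k : ℕ => ∑ i, ∑ j, ‖(1 : Mat n) i j - gramInt U (-(k:ℝ)) k i j‖)
        atTop (𝓝 0) := by
      have := tendsto_finsetSum (Finset.univ : Finset (Fin n)) fun i _ =>
        tendsto_finsetSum (Finset.univ : Finset (Fin n)) fun j _ =>
          ((intervalIntegral_tendsto_integral (hRi i j)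
            (tendsto_neg_atTop_atBot.comp tendsto_natCast_atTop_atTop)
            tendsto_natCast_atTop_atTop).const_sub ((1 : Mat n) i j)).norm
      have e : ∀ i j, (∫ x, ((U x)ᴴ * U x) i j) = (1 : Mat n) i j := fun i j => by
        rw [Matrix.one_apply, ← horth i j]
        refine integral_congr_ae (Eventually.of_forall fun x => ?_)
        simp [hU, Matrix.mul_apply, dotProduct]
      simpa [gramInt, e] using this
    obtain ⟨k, hk, hk1⟩ := ((hlim.eventually (eventually_le_nhds
      (by norm_num : (0:ℝ) < 1 / 4))).and (eventually_ge_atTop 1)).exists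
    refine ⟨k, by exact_mod_cast hk1, ?_⟩
    have hG := (gram_psd hUc (by linarith [(Nat.cast_nonneg k : (0:ℝ) ≤ k)] :
      -(k:ℝ) ≤ k)).1
    have h1 := (posSemidef_smul_one_sub (Matrix.isHermitian_one.sub hG) (by simpa [gramInt, Rmat] using hk)).nonneg
    rw [← sub_nonneg]
    refine h1.trans_eq ?_
    rw [Complex.coe_smul, gramInt]
    simp only [Rmat]
    module
  set T₀ := (∫ x, frobSq (dU x)) + 1 with hT₀
  obtain ⟨Λ₁, hΛ⟩ := hD n E hE0 T₀ (2 * c)
  set Λ := max Λ₁ 0 with hΛd
  have hΛ0 : 0 ≤ Λ := le_max_right _ _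
  suffices key : ∀ τ > (0 : ℝ), (4 : ℝ) ^ γ * beta0 γ * ∑ i, E i ^ γ
      ≤ youngK γ * PP + τ * (1 + 3 * (n : ℝ) ^ 2 * Λ) by
    have hS : (4 : ℝ) ^ γ * beta0 γ * ∑ i, E i ^ γ ≤ youngK γ * PP := by
      refine le_of_forall_pos_le_add fun e he => ?_
      have := key (e / (1 + 3 * (n : ℝ) ^ 2 * Λ)) (by positivity)
      rwa [div_mul_cancel₀ _ (by positivity)] at this
    have e : ∀ i, |lam i| ^ γ = E i ^ γ := fun i => by rw [abs_of_neg (hneg i)]
    simp only [e]
    rw [LOne_eq hγh, div_mul_eq_mul_div, le_div_iff₀ (by positivity), mul_comm]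
    exact hS
  intro τ hτ
  obtain ⟨ρ, hρ, hrho⟩ := hΛ τ hτ
  -- far endpoints with small boundary values and small tails
  choose bb hb1 hb2 using fun k : ℕ => exists_small_right hF (k : ℝ) (δ := ρ) hρ
  choose aa ha1 ha2 using fun k : ℕ => exists_small_left hF (-(k : ℝ)) (δ := ρ) hρ
  have hta : Tendsto aa atTop atBot := tendsto_atBot_mono (fun k => (ha1 k).le)
    (tendsto_neg_atTop_atBot.comp tendsto_natCast_atTop_atTop)
  have htb : Tendsto bb atTop atTop :=
    tendsto_atTop_mono (fun k => (hb1 k).le) tendsto_natCast_atTop_atTop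
  have htail : ∀ᶠ k in atTop, ∀ i j,
      ‖(∫ x, qW (W x) (U x) i j) - ∫ x in aa k..bb k, qW (W x) (U x) i j‖ ≤ τ :=
    eventually_all.2 fun i => eventually_all.2 fun j => by
      have := (((intervalIntegral_tendsto_integral (hQi i j) hta htb).const_sub
        (∫ x, qW (W x) (U x) i j))).norm
      simp only [sub_self, norm_zero] at this
      exact this.eventually (eventually_le_nhds hτ)
  obtain ⟨k₀, hk₀, hka, hkb⟩ := (htail.and ((hta.eventually (eventually_le_atBot (-c))).and
    (htb.eventually (eventually_ge_atTop c)))).exists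
  set a := aa k₀
  set b := bb k₀
  have hab : a ≤ b := by linarith
  -- approximants
  set η : ℕ → ℝ := fun k => 1 / ((k : ℝ) + 1) with hη
  have hηp : ∀ k, 0 < η k := fun k => by simp only [hη]; positivity
  have hη1 : ∀ k, η k ≤ 1 := fun k => by
    simp only [hη]; rw [div_le_one (by positivity)]; linarith [(Nat.cast_nonneg k : (0:ℝ) ≤ k)]
  have hη0 : Tendsto η atTop (𝓝 0) := tendsto_one_div_add_atTop_nhds_zero_nat
  choose V G hGc hVd hVu hG2 using fun k p i => h1_approx (h i p) hab (hηp k)
  set A : ℕ → ℝ → Matrix (Fin m) (Fin n) ℂ := fun k x => Matrix.of fun p i => V k p i x with hA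
  set A' : ℕ → ℝ → Matrix (Fin m) (Fin n) ℂ := fun k x => Matrix.of fun p i => G k p i x with hA'
  have hAc : ∀ k p i, Continuous fun x => A k x p i := fun k p i =>
    continuous_iff_continuousAt.2 fun x => (hVd k p i x).continuousAt
  set BU := Real.sqrt BF + (b - a + 1) with hBU
  set CF := ∑ _i : Fin n, ∑ _p : Fin m, BU ^ 2 with hCF
  have hconv : ∀ x ∈ Icc a b, ∀ p i, Tendsto (fun k => A k x p i) atTop (𝓝 (U x p i)) := by
    intro x hx p i
    refine tendsto_iff_norm_sub_tendsto_zero.2 (squeeze_zero (fun k => norm_nonneg _)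
      (fun k => hVu k p i x hx) ?_)
    simpa using hη0.mul_const (b - a + 1)
  have hAB : ∀ k, ∀ x ∈ Icc a b, frobSq (A k x) ≤ CF := by
    intro k x hx
    rw [frobSq_eq]
    refine Finset.sum_le_sum fun i _ => Finset.sum_le_sum fun p _ =>
      pow_le_pow_left₀ (norm_nonneg _) ?_ 2
    have h1 := hVu k p i x hx
    have h2 : η k * (b - a + 1) ≤ b - a + 1 := mul_le_of_le_one_left (by linarith) (hη1 k)
    have h3 : ‖U x p i‖ ≤ Real.sqrt BF := by
      refine Real.le_sqrt_of_sq_le (le_trans ?_ (hBF x))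
      rw [frobSq_eq]
      exact le_trans (Finset.single_le_sum (f := fun p => ‖U x p i‖ ^ 2)
        (fun p _ => sq_nonneg _) (Finset.mem_univ p))
        (Finset.single_le_sum (f := fun i => ∑ p, ‖U x p i‖ ^ 2)
          (fun i _ => Finset.sum_nonneg fun p _ => sq_nonneg _) (Finset.mem_univ i))
    have h4 := norm_le_norm_add_norm_sub' (A k x p i) (U x p i)
    have h5 : ‖A k x p i - U x p i‖ ≤ η k * (b - a + 1) := h1
    linarith
  have htoM : ∀ x ∈ Icc a b, Tendsto (fun k => A k x) atTop (𝓝 (U x)) := fun x hx =>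
    tendsto_pi_nhds.2 fun p => tendsto_pi_nhds.2 fun i => hconv x hx p i
  have hQA : ∀ i j, Tendsto (fun k => ∫ x in a..b, qW (W x) (A k x) i j) atTop
      (𝓝 (∫ x in a..b, qW (W x) (U x) i j)) := by
    intro i j
    refine intervalIntegral.tendsto_integral_filter_of_dominated_convergence
      (fun x => youngK γ * trPow (γ + 1 / 2) (W x) + CF ^ (q - 1) * CF)
      (Eventually.of_forall fun k => (hQm _ (hAc k) i j).aestronglyMeasurable)
      (Eventually.of_forall fun k => Eventually.of_forall fun x hx => ?_)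
      ((hP.const_mul _).intervalIntegrable.add intervalIntegrable_const)
      (Eventually.of_forall fun x hx => ?_)
    · rw [uIoc_of_le hab] at hx
      have h1 := hAB k x (Ioc_subset_Icc_self hx)
      exact (qW_entry_le hγh (hW.1 x) (A k x) i j).trans (add_le_add_right (mul_le_mul
        (Real.rpow_le_rpow (hF0 _) h1 (by linarith)) h1 (hF0 _)
        (Real.rpow_nonneg ((hF0 _).trans h1) _)) _)
    · rw [uIoc_of_le hab] at hx
      have hc : Continuous fun Y : Matrix (Fin m) (Fin n) ℂ => qW (W x) Y i j := by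
        unfold qW; fun_prop
      exact (hc.tendsto _).comp (htoM x (Ioc_subset_Icc_self hx))
  have hRA : ∀ a₁ b₁, a ≤ a₁ → a₁ ≤ b₁ → b₁ ≤ b → ∀ i j,
      Tendsto (fun k => gramInt (A k) a₁ b₁ i j) atTop (𝓝 (gramInt U a₁ b₁ i j)) := by
    intro a₁ b₁ h1 h2 h3 i j
    refine intervalIntegral.tendsto_integral_filter_of_dominated_convergence (fun _ => CF)
      (Eventually.of_forall fun k => ?_) (Eventually.of_forall fun k => Eventually.of_forall
        fun x hx => ?_) intervalIntegrable_const (Eventually.of_forall fun x hx => ?_)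
    · simp only [Matrix.mul_apply, Matrix.conjTranspose_apply]
      exact (continuous_finsetSum _ fun p _ =>
        (hAc k p i).star.mul (hAc k p j)).aestronglyMeasurable
    · rw [uIoc_of_le h2] at hx
      exact (norm_entry_le_rtr (posSemidef_conjTranspose_mul_self (A k x)).nonneg i j).trans
        (hAB k x ⟨by linarith [hx.1], hx.2.trans h3⟩)
    · rw [uIoc_of_le h2] at hx
      have hc : Continuous fun Y : Matrix (Fin m) (Fin n) ℂ => (Yᴴ * Y) i j := by fun_prop
      exact (hc.tendsto _).comp (htoM x ⟨by linarith [hx.1], hx.2.trans h3⟩)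
  have hKA : ∀ i j, Tendsto (fun k => ∫ x in a..b, ((A' k x)ᴴ * A' k x) i j) atTop
      (𝓝 (∫ x in a..b, ((dU x)ᴴ * dU x) i j)) := by
    intro i j
    have hKc : ∀ k, IntervalIntegrable (fun x => ((A' k x)ᴴ * A' k x) i j) volume a b := by
      intro k
      simp only [Matrix.mul_apply, Matrix.conjTranspose_apply, hA', Matrix.of_apply]
      exact (continuous_finsetSum _ fun p _ =>
        (hGc k p i).star.mul (hGc k p j)).intervalIntegrable _ _
    have hd : ∀ k p i, IntervalIntegrable (fun x => ‖G k p i x - du i x p‖ ^ 2) volume a b := by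
      intro k p i
      have hcg : Continuous fun x => 2 * ‖G k p i x‖ ^ 2 := by
        have := hGc k p i; fun_prop
      refine (intervalIntegrable_iff_integrableOn_Ioc_of_le hab).2 (Integrable.mono'
        (g := fun x => 2 * ‖G k p i x‖ ^ 2 + 2 * ‖du i x p‖ ^ 2)
        (Integrable.add (hcg.integrableOn_Ioc (a := a) (b := b))
          ((h i p).dsq_integrable.const_mul 2).restrict)
        (((hGc k p i).aestronglyMeasurable.sub (h i p).2.1.1.restrict).norm.pow 2)
        (Eventually.of_forall fun x => ?_))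
      rw [Real.norm_of_nonneg (sq_nonneg _)]
      refine (pow_le_pow_left₀ (norm_nonneg _) (norm_sub_le _ _) 2).trans ?_
      nlinarith [sq_nonneg (‖G k p i x‖ - ‖du i x p‖)]
    have hfd : ∀ k, IntervalIntegrable (fun x => frobSq (A' k x - dU x)) volume a b := fun k => by
      simp only [frobSq_eq, Matrix.sub_apply, hA', hdU, Matrix.of_apply]
      simpa only [Finset.sum_fn] using IntervalIntegrable.sum Finset.univ fun i _ => by
        simpa only [Finset.sum_fn] using IntervalIntegrable.sum Finset.univ fun p _ => hd k p i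
    have hfd2 : ∀ k, (∫ x in a..b, frobSq (A' k x - dU x)) ≤ (n * m : ℝ) * η k ^ 2 := fun k => by
      simp only [frobSq_eq, Matrix.sub_apply, hA', hdU, Matrix.of_apply]
      rw [intervalIntegral.integral_finsetSum fun i _ => by
        simpa only [Finset.sum_fn] using IntervalIntegrable.sum Finset.univ fun p _ => hd k p i]
      refine (Finset.sum_le_sum fun i _ => (intervalIntegral.integral_finsetSum fun p _ =>
        hd k p i).le.trans (Finset.sum_le_sum fun p _ => hG2 k p i)).trans_eq ?_
      simp only [Finset.sum_const, Finset.card_univ, Fintype.card_fin, nsmul_eq_mul]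
      ring
    refine tendsto_iff_norm_sub_tendsto_zero.2 (squeeze_zero (fun k => norm_nonneg _) (g := fun k =>
      (η k + 1) * ((n * m : ℝ) * η k) + η k * ∫ x in a..b, frobSq (dU x)) (fun k => ?_) ?_)
    · rw [← intervalIntegral.integral_sub (hKc k) (hKi i j).intervalIntegrable]
      refine (intervalIntegral.norm_integral_le_integral_norm hab).trans ?_
      refine (intervalIntegral.integral_mono_on (g := fun x => (1 + 1 / η k) *
        frobSq (A' k x - dU x) + η k * frobSq (dU x)) hab
        ((hKc k).sub (hKi i j).intervalIntegrable).norm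
        (((hfd k).const_mul _).add (hdF.intervalIntegrable.const_mul _))
        fun x _ => kin_entry_le (hηp k) i j).trans ?_
      rw [intervalIntegral.integral_add ((hfd k).const_mul _)
        (hdF.intervalIntegrable.const_mul _), intervalIntegral.integral_const_mul,
        intervalIntegral.integral_const_mul]
      refine add_le_add_left ((mul_le_mul_of_nonneg_left (hfd2 k)
        (by have := hηp k; positivity)).trans_eq ?_) _
      have := (hηp k).ne'
      field_simp
    · have t1 := (hη0.add_const 1).mul (hη0.const_mul (n * m : ℝ))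
      have t2 := hη0.mul_const (∫ x in a..b, frobSq (dU x))
      simpa using t1.add t2
  have hfrobK : Tendsto (fun k => ∫ x in a..b, rtr ((A' k x)ᴴ * A' k x)) atTop
      (𝓝 (∫ x in a..b, frobSq (dU x))) := by
    have e : ∀ (B : ℝ → Matrix (Fin m) (Fin n) ℂ),
        (∀ i j, IntervalIntegrable (fun x => ((B x)ᴴ * B x) i j) volume a b) →
        (∫ x in a..b, rtr ((B x)ᴴ * B x)) = ∑ i, (∫ x in a..b, ((B x)ᴴ * B x) i i).re := by
      intro B hB
      have := rtr_mul_intMat (μ := volume.restrict (Ioc a b))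
        (X := fun x => (B x)ᴴ * B x) (fun i j => (hB i j).1) 1
      simp only [Matrix.one_mul] at this
      rw [intervalIntegral.integral_of_le hab, ← this.2, rtr, Matrix.trace, Complex.re_sum]
      simp [intMat, Matrix.diag_apply, intervalIntegral.integral_of_le hab]
    have hKc : ∀ k i j, IntervalIntegrable (fun x => ((A' k x)ᴴ * A' k x) i j) volume a b := by
      intro k i j
      simp only [Matrix.mul_apply, Matrix.conjTranspose_apply, hA', Matrix.of_apply]
      exact (continuous_finsetSum _ fun p _ =>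
        (hGc k p i).star.mul (hGc k p j)).intervalIntegrable _ _
    have eU : (∫ x in a..b, frobSq (dU x)) = ∑ i, (∫ x in a..b, ((dU x)ᴴ * dU x) i i).re :=
      e dU fun i j => (hKi i j).intervalIntegrable
    rw [eU]
    simp only [fun k => e (A' k) (hKc k)]
    exact tendsto_finsetSum _ fun i _ => (Complex.continuous_re.tendsto _).comp (hKA i i)
  have hlow : frobSq (U a) < ρ ∧ frobSq (U b) < ρ := ⟨ha2 k₀, hb2 k₀⟩
  have hfr : Continuous (frobSq (m := m) (n := n)) := by unfold frobSq; fun_prop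
  have hT : (∫ x in a..b, frobSq (dU x)) < T₀ := by
    rw [intervalIntegral.integral_of_le hab]
    linarith [setIntegral_le_integral (s := Ioc a b) hdF (Eventually.of_forall fun x => hF0 _)]
  have hgA : ∀ a₁ b₁, a ≤ a₁ → a₁ ≤ b₁ → b₁ ≤ b → ∀ δ > (0 : ℝ), ∀ᶠ k in atTop,
      -(δ • (1 : Mat n)) ≤ gramInt (A k) a₁ b₁ - gramInt U a₁ b₁ ∧
        gramInt (A k) a₁ b₁ - gramInt U a₁ b₁ ≤ δ • (1 : Mat n) := by
    intro a₁ b₁ h1 h2 h3 δ hδ
    have hz : Tendsto (fun k => ∑ i, ∑ j, ‖(gramInt (A k) a₁ b₁ - gramInt U a₁ b₁) i j‖) atTop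
        (𝓝 0) := by
      have := tendsto_finsetSum (Finset.univ : Finset (Fin n)) fun i _ =>
        tendsto_finsetSum (Finset.univ : Finset (Fin n)) fun j _ =>
          ((hRA a₁ b₁ h1 h2 h3 i j).sub_const (gramInt U a₁ b₁ i j)).norm
      simpa using this
    filter_upwards [hz.eventually (eventually_le_nhds hδ)] with k hk
    have hH := (gram_psd (hAc k) h2).1.sub (gram_psd hUc h2).1
    have l1 := (posSemidef_smul_one_sub (D := gramInt (A k) a₁ b₁ - gramInt U a₁ b₁) hH hk).nonneg
    have l2 := (posSemidef_smul_one_sub (D := -(gramInt (A k) a₁ b₁ - gramInt U a₁ b₁))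
      hH.neg (by simpa only [Matrix.neg_apply, norm_neg] using hk)).nonneg
    rw [Complex.coe_smul] at l1 l2
    exact ⟨neg_le.1 (sub_nonneg.1 l2), sub_nonneg.1 l1⟩
  obtain ⟨k, hQk, hKk, hga, hgb, hTk, hlo, hup⟩ :=
    ((eventually_all.2 fun i => eventually_all.2 fun j =>
      ((tendsto_iff_norm_sub_tendsto_zero.1 (hQA i j)).eventually (eventually_le_nhds hτ))).and
    ((eventually_all.2 fun i => eventually_all.2 fun j =>
      ((tendsto_iff_norm_sub_tendsto_zero.1 (hKA i j)).eventually (eventually_le_nhds hτ))).and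
    ((((hfr.tendsto _).comp (htoM a (left_mem_Icc.2 hab))).eventually
      (eventually_le_nhds hlow.1)).and
    ((((hfr.tendsto _).comp (htoM b (right_mem_Icc.2 hab))).eventually
      (eventually_le_nhds hlow.2)).and
    ((hfrobK.eventually (eventually_le_nhds hT)).and
    ((hgA (-c) c hka (by linarith) hkb (1 / 4) (by norm_num)).and
      (hgA a b le_rfl hab le_rfl ρ hρ))))))).exists
  have hone : gramInt U a b ≤ (1 : Mat n) := (gram_le h horth a b hab).nonneg |> sub_nonneg.1
  have hupper : gramInt (A k) a b ≤ (1 + ρ) • (1 : Mat n) := by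
    rw [add_comm (1 : ℝ), add_smul, one_smul]
    exact (sub_le_iff_le_add.1 hup.2).trans (add_le_add_right hone _)
  have hlower : (1 / 2 : ℝ) • (1 : Mat n) ≤ gramInt (A k) (-c) c := by
    have h2 := add_le_add hlo.1 hc
    rw [sub_add_cancel] at h2
    refine le_of_eq_of_le ?_ h2
    module
  obtain ⟨D, hD0, hDΛ, hineq⟩ := hrho m (A k) (A' k) (fun p i x => hVd k p i x)
    (fun p i => hGc k p i) a (-c) c b hka (by linarith) hkb (le_of_eq (by ring)) hga hgb hupper
    hlower hTk
  have hDΛ' : rtr D ≤ Λ := hDΛ.trans (le_max_left _ _)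
  set μ := volume.restrict (Ioc a b) with hμ
  -- the identity on the line
  have e0 : rtr (D * Matrix.diagonal fun i => (E i : ℂ)) = rtr (D * GQ) - rtr (D * GK) := by
    rw [hdiag, Matrix.mul_sub, rtr_sub]
  have hQA' : ∀ i j, Integrable (fun x => qW (W x) (A k x) i j) μ := by
    intro i j
    refine Integrable.mono' (g := fun x => youngK γ * trPow (γ + 1 / 2) (W x) + CF ^ (q - 1) * CF)
      (((hP.const_mul _).restrict).add (integrable_const _))
      (hQm _ (hAc k) i j).aestronglyMeasurable ?_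
    filter_upwards [ae_restrict_mem measurableSet_Ioc] with x hx
    have h1 := hAB k x (Ioc_subset_Icc_self hx)
    exact (qW_entry_le hγh (hW.1 x) (A k x) i j).trans (add_le_add_right (mul_le_mul
      (Real.rpow_le_rpow (hF0 _) h1 (by linarith)) h1 (hF0 _)
      (Real.rpow_nonneg ((hF0 _).trans h1) _)) _)
  have hKA' : ∀ i j, Integrable (fun x => ((A' k x)ᴴ * A' k x) i j) μ := by
    intro i j
    simp only [Matrix.mul_apply, Matrix.conjTranspose_apply, hA', Matrix.of_apply]
    exact ((continuous_finsetSum _ fun p _ =>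
      (hGc k p i).star.mul (hGc k p j)).integrableOn_Ioc)
  obtain ⟨iQ, eQ⟩ := rtr_mul_intMat (X := fun x => qW (W x) (A k x)) hQA' D
  obtain ⟨-, eK⟩ := rtr_mul_intMat (X := fun x => (A' k x)ᴴ * A' k x) hKA' D
  obtain ⟨iU, eU⟩ := rtr_mul_intMat (X := fun x => (dU x)ᴴ * dU x) hKi D
  obtain ⟨-, eUab⟩ := rtr_mul_intMat (μ := μ) (X := fun x => (dU x)ᴴ * dU x)
    (fun i j => (hKi i j).restrict) D
  have s1 : rtr (D * intMat μ fun x => (dU x)ᴴ * dU x) ≤ rtr (D * GK) := by
    rw [hGK, eU, eUab]
    exact setIntegral_le_integral iU (Eventually.of_forall fun x =>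
      rtr_mul_nonneg hD0 (posSemidef_conjTranspose_mul_self _).nonneg)
  have s2 : rtr (D * intMat μ fun x => (A' k x)ᴴ * A' k x)
      ≤ rtr (D * intMat μ fun x => (dU x)ᴴ * dU x) + (n : ℝ) ^ 2 * Λ * τ :=
    rtr_mul_sub_le hD0 hDΛ' hτ.le fun i j => by
      simpa [intMat, hμ, intervalIntegral.integral_of_le hab] using hKk i j
  have s3 : rtr (D * GQ) ≤ rtr (D * intMat μ fun x => qW (W x) (U x)) + (n : ℝ) ^ 2 * Λ * τ :=
    rtr_mul_sub_le hD0 hDΛ' hτ.le fun i j => by
      simpa [hGQ, intMat, hμ, intervalIntegral.integral_of_le hab] using hk₀ i j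
  have s4 : rtr (D * intMat μ fun x => qW (W x) (U x))
      ≤ rtr (D * intMat μ fun x => qW (W x) (A k x)) + (n : ℝ) ^ 2 * Λ * τ :=
    rtr_mul_sub_le hD0 hDΛ' hτ.le fun i j => by
      rw [norm_sub_rev]
      simpa [intMat, hμ, intervalIntegral.integral_of_le hab] using hQk i j
  have hAk : ∀ p i, Continuous fun x => A k x p i := hAc k
  have hw : Continuous fun x => wPow γ D (A k x) := by
    have e : ∀ Y : Matrix (Fin m) (Fin n) ℂ, wPow γ D Y = qTr q (Y * msqrt D) := fun Y => by
      rw [qTr, wPow, wDen, Matrix.conjTranspose_mul,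
        show (msqrt D)ᴴ = msqrt D from fc_herm _ _, hq]
      simp only [Matrix.mul_assoc]
    simp only [e]
    exact continuous_comp_matrix ((qTr_continuous (by linarith : 0 ≤ q)).comp
      (by fun_prop : Continuous fun Y : Matrix (Fin m) (Fin n) ℂ => Y * msqrt D)) hAk
  have s5 : rtr (D * intMat μ fun x => qW (W x) (A k x))
      ≤ youngK γ * PP + ∫ x in a..b, wPow γ D (A k x) := by
    rw [eQ, intervalIntegral.integral_of_le hab]
    refine (integral_mono iQ ((hP.const_mul _).restrict.add hw.integrableOn_Ioc)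
      fun x => young_weighted hγh (hW.1 x) hD0 (A k x)).trans ?_
    simp only [Pi.add_apply]
    rw [integral_add (hP.const_mul _).restrict hw.integrableOn_Ioc, integral_const_mul]
    exact add_le_add_left (mul_le_mul_of_nonneg_left
      (setIntegral_le_integral hP (Eventually.of_forall hP0)) hk0) _
  have e6 : (∫ x in a..b, wKin D (A' k x))
      = rtr (D * intMat μ fun x => (A' k x)ᴴ * A' k x) := by
    rw [eK, intervalIntegral.integral_of_le hab]
    rfl
  have e7 : τ * (1 + 3 * (n : ℝ) ^ 2 * Λ) = τ + 3 * ((n : ℝ) ^ 2 * Λ * τ) := by ring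
  linarith

end Vale.Agent.P371G
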