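import Vale.Agent.P371G.PsiDefs

/-! # Bounds and compactness for the minimax objective -/

namespace Vale.Agent.P371G

open Matrix Filter Topology
open scoped ComplexOrder MatrixOrder Matrix.Norms.L2Operator

variable {n : ℕ}

theorem rtr_continuous : Continuous (rtr : Mat n → ℝ) := by
  unfold rtr; fun_prop

theorem rtr_sq_eq {P : Mat n} (hP : P.IsHermitian) :
    rtr (P * P) = ∑ i, hP.eigenvalues i ^ 2 := by
  conv_lhs => rw [← fc_id hP]
  rw [fc_mul, rtr_fc hP]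
  simp only [sq]

theorem rtr_sq_nonneg {P : Mat n} (hP : P.IsHermitian) : 0 ≤ rtr (P * P) := by
  rw [rtr_sq_eq hP]; positivity

theorem rtr_eq_sum_eig {P : Mat n} (hP : P.IsHermitian) : rtr P = ∑ i, hP.eigenvalues i := by
  conv_lhs => rw [← fc_id hP]
  rw [rtr_fc hP]

theorem abs_eig_le_sqrt {P : Mat n} (hP : P.IsHermitian) (i : Fin n) :
    |hP.eigenvalues i| ≤ Real.sqrt (rtr (P * P)) := by
  rw [← Real.sqrt_sq_eq_abs, rtr_sq_eq hP]
  exact Real.sqrt_le_sqrt (Finset.single_le_sum (f := fun j => hP.eigenvalues j ^ 2)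
    (fun j _ => sq_nonneg _) (Finset.mem_univ i))

theorem le_sqrt_smul_one {P : Mat n} (hP : P.IsHermitian) :
    P ≤ Real.sqrt (rtr (P * P)) • (1 : Mat n) :=
  le_smul_one_of_eig hP fun i => (le_abs_self _).trans (abs_eig_le_sqrt hP i)

theorem neg_sqrt_smul_one_le {P : Mat n} (hP : P.IsHermitian) :
    (-Real.sqrt (rtr (P * P))) • (1 : Mat n) ≤ P :=
  smul_one_le_of_eig hP fun i => neg_le.1 ((neg_le_abs _).trans (abs_eig_le_sqrt hP i))

theorem sq_le_smul_one {P : Mat n} (hP : P.IsHermitian) {T : ℝ} (hT : rtr (P * P) ≤ T ^ 2) :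
    P * P ≤ (T * T) • (1 : Mat n) := by
  rw [← fc_const hP (T * T)]
  conv_lhs => rw [← fc_id hP, fc_mul]
  refine fc_mono hP fun i => ?_
  have h1 := Finset.single_le_sum (f := fun j => hP.eigenvalues j ^ 2)
    (fun j _ => sq_nonneg _) (Finset.mem_univ i)
  rw [← rtr_sq_eq hP] at h1
  nlinarith

theorem norm_entry_le {P : Mat n} (hP : P.IsHermitian) (i j : Fin n) :
    ‖P i j‖ ≤ Real.sqrt (rtr (P * P)) := by
  refine (Real.le_sqrt (norm_nonneg _) (rtr_sq_nonneg hP)).2 ?_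
  have e : rtr (P * P) = ∑ a, ∑ b, ‖P a b‖ ^ 2 := by
    rw [rtr, Matrix.trace, Complex.re_sum]
    refine Finset.sum_congr rfl fun a _ => ?_
    rw [Matrix.diag_apply, Matrix.mul_apply, Complex.re_sum]
    refine Finset.sum_congr rfl fun b _ => ?_
    rw [← hP.apply b a, RCLike.star_def, Complex.mul_conj', ← Complex.ofReal_pow,
      Complex.ofReal_re]
  rw [e]
  exact le_trans (Finset.single_le_sum (f := fun b => ‖P i b‖ ^ 2) (fun b _ => sq_nonneg _)
    (Finset.mem_univ j)) (Finset.single_le_sum (f := fun a => ∑ b, ‖P a b‖ ^ 2)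
    (fun a _ => Finset.sum_nonneg fun b _ => sq_nonneg _) (Finset.mem_univ i))

theorem tendsto_rtr_mul {A B : ℕ → Mat n} {A₀ B₀ : Mat n} (hA : Tendsto A atTop (𝓝 A₀))
    (hB : Tendsto B atTop (𝓝 B₀)) :
    Tendsto (fun k => rtr (A k * B k)) atTop (𝓝 (rtr (A₀ * B₀))) :=
  (rtr_continuous.tendsto _).comp (hA.mul hB)

theorem exists_smul_one_le {X : Mat n} (hX : X.PosDef) : ∃ δ > (0 : ℝ), δ • (1 : Mat n) ≤ X := by
  have hs : (0:ℝ) ≤ ∑ i, (hX.1.eigenvalues i)⁻¹ :=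
    Finset.sum_nonneg fun i _ => (inv_pos.2 (hX.eigenvalues_pos i)).le
  refine ⟨(1 + ∑ i, (hX.1.eigenvalues i)⁻¹ : ℝ)⁻¹, inv_pos.2 (by linarith),
    smul_one_le_of_eig hX.1 fun i => ?_⟩
  refine inv_le_of_inv_le₀ (hX.eigenvalues_pos i) ?_
  have := Finset.single_le_sum (f := fun i => (hX.1.eigenvalues i)⁻¹)
    (fun j _ => (inv_pos.2 (hX.eigenvalues_pos j)).le) (Finset.mem_univ i)
  linarith

theorem eventually_smul_one_le {P : ℕ → Mat n} {Q : Mat n} (hQ : Q.PosDef)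
    (hP : ∀ k, (P k).IsHermitian) (h : Tendsto P atTop (𝓝 Q)) :
    ∃ δ > (0 : ℝ), ∀ᶠ k in atTop, δ • (1 : Mat n) ≤ P k := by
  obtain ⟨δ, hδ, hle⟩ := exists_smul_one_le hQ
  have hδ2 : 0 < δ / 2 := half_pos hδ
  refine ⟨δ / 2, hδ2, ?_⟩
  have hd : Tendsto (fun k => Real.sqrt (rtr ((P k - Q) * (P k - Q)))) atTop (𝓝 0) := by
    have := (tendsto_rtr_mul (h.sub_const Q) (h.sub_const Q)).sqrt
    simpa [rtr_zero] using this
  filter_upwards [hd.eventually (eventually_le_nhds (half_pos hδ))] with k hk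
  have h1 := neg_sqrt_smul_one_le ((hP k).sub hQ.1)
  have h2 : (-(δ / 2)) • (1 : Mat n) ≤ P k - Q :=
    le_trans (by
      rw [← sub_nonneg, ← sub_smul]
      exact smul_nonneg (by linarith) zero_le_one) h1
  refine le_of_eq_of_le ?_ ((add_le_add h2 hle).trans_eq (sub_add_cancel (P k) Q))
  rw [← add_smul]
  ring_nf

theorem eventually_posDef_seq {P : ℕ → Mat n} {Q : Mat n} (hQ : Q.PosDef)
    (hP : ∀ k, (P k).IsHermitian) (h : Tendsto P atTop (𝓝 Q)) :
    ∀ᶠ k in atTop, (P k).PosDef := by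
  obtain ⟨δ, hδ, hev⟩ := eventually_smul_one_le hQ hP h
  exact hev.mono fun k hk => posDef_of_le hδ hk

theorem smul_one_le_of_lndet {P : Mat n} (hP : P.PosDef) {T c : ℝ} (hT0 : 0 ≤ T)
    (hT : rtr P ≤ T) (hc : c ≤ lndet P) : Real.exp (c - n * T) • (1 : Mat n) ≤ P := by
  refine smul_one_le_of_eig hP.1 fun i => ?_
  rw [← Real.exp_log (hP.eigenvalues_pos i), Real.exp_le_exp]
  rw [lndet, rtr_fc hP.1, ← Finset.add_sum_erase _ _ (Finset.mem_univ i)] at hc
  have hb : ∀ j, Real.log (hP.1.eigenvalues j) ≤ T := fun j => by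
    have h1 := Finset.single_le_sum (f := hP.1.eigenvalues)
      (fun j _ => (hP.eigenvalues_pos j).le) (Finset.mem_univ j)
    rw [← rtr_eq_sum_eig hP.1] at h1
    have := Real.log_le_sub_one_of_pos (hP.eigenvalues_pos j)
    linarith
  have h2 : ∑ j ∈ Finset.univ.erase i, Real.log (hP.1.eigenvalues j) ≤ n * T := by
    refine (Finset.sum_le_sum fun j _ => hb j).trans ?_
    rw [Finset.sum_const, nsmul_eq_mul]
    refine mul_le_mul_of_nonneg_right ?_ hT0
    exact_mod_cast le_trans (Finset.card_erase_le) (by simp)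
  linarith

theorem lndet_one : lndet (1 : Mat n) = 0 := by
  rw [lndet_eq_log_det PosDef.one, Matrix.det_one, Complex.one_re, Real.log_one]

theorem lndet_le_rtr {X : Mat n} (hX : X.PosDef) : lndet X ≤ rtr X - n := by
  have := lndet_le_tangent hX (PosDef.one : (1 : Mat n).PosDef)
  rw [inv_one, Matrix.mul_one, rtr_sub, rtr_one, lndet_one] at this
  linarith

theorem lndet_tendsto {P : ℕ → Mat n} {Q : Mat n} (hQ : Q.PosDef)
    (hP : ∀ᶠ k in atTop, (P k).PosDef) (h : Tendsto P atTop (𝓝 Q)) :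
    Tendsto (fun k => lndet (P k)) atTop (𝓝 (lndet Q)) := by
  have h1 : Tendsto (fun k => (P k).det.re) atTop (𝓝 Q.det.re) :=
    ((Complex.continuous_re.comp (continuous_id.matrix_det)).tendsto Q).comp h
  rw [lndet_eq_log_det hQ]
  refine (((Real.continuousAt_log (Complex.pos_iff.1 hQ.det_pos).1.ne').tendsto).comp h1).congr' ?_
  filter_upwards [hP] with k hk
  exact (lndet_eq_log_det hk).symm

/-- Sequential compactness from bounds on trace and log determinant. -/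
theorem exists_subseq_posDef {P : ℕ → Mat n} {T c : ℝ}
    (h : ∀ᶠ k in atTop, (P k).PosDef ∧ rtr (P k) ≤ T ∧ c ≤ lndet (P k)) :
    ∃ Q : Mat n, ∃ φ : ℕ → ℕ, Q.PosDef ∧ StrictMono φ ∧ Tendsto (P ∘ φ) atTop (𝓝 Q) := by
  set η := Real.exp (c - n * max T 0)
  set S : Set (Mat n) :=
    (Set.univ.pi fun _ : Fin n => Set.univ.pi fun _ : Fin n =>
      Metric.closedBall (0 : ℂ) (max T 0)) ∩ Set.Ici (η • 1) with hS
  have hc : IsCompact S := IsCompact.inter_right
    (isCompact_univ_pi fun _ => isCompact_univ_pi fun _ => isCompact_closedBall _ _) isClosed_Ici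
  have hmem : ∀ᶠ k in atTop, P k ∈ S := by
    filter_upwards [h] with k hk
    obtain ⟨hp, hT, hl⟩ := hk
    refine ⟨?_, smul_one_le_of_lndet hp (le_max_right _ _) (hT.trans (le_max_left _ _)) hl⟩
    intro i _ j _
    rw [mem_closedBall_zero_iff]
    refine (norm_entry_le hp.1 i j).trans (le_trans ?_ (hT.trans (le_max_left _ _)))
    rw [Real.sqrt_le_iff]
    refine ⟨rtr_nonneg hp.posSemidef.nonneg, ?_⟩
    rw [rtr_sq_eq hp.1, rtr_eq_sum_eig hp.1]
    exact Finset.sum_sq_le_sq_sum_of_nonneg fun i _ => (hp.eigenvalues_pos i).le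
  obtain ⟨Q, hQ, φ, hφ, hlim⟩ := hc.tendsto_subseq' hmem.frequently
  exact ⟨Q, φ, posDef_of_le (Real.exp_pos _) hQ.2, hφ, hlim⟩

section scalar

theorem gval_le_lin {α a m : ℝ} (hα : α ∈ Set.Ioo (1 / 2 : ℝ) 1) (ha : 0 ≤ a) (hm : a ≤ 2 * m) :
    gval α a m ≤ a * (1 + 2 * a * m) := by
  have hα0 : 0 ≤ α := by linarith [hα.1]
  refine mul_le_mul_of_nonneg_left ?_ ha
  have hc : Continuous fun θ : ℝ => (θ * a * (2 * m - θ * a)) ^ α :=
    Continuous.rpow_const (by fun_prop) fun θ => Or.inr hα0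
  refine (intervalIntegral.integral_mono_on (g := fun _ => 1 + 2 * a * m) zero_le_one
    (hc.intervalIntegrable _ _) intervalIntegrable_const fun θ hθ => ?_).trans_eq (by simp)
  have h0 : 0 ≤ θ * a * (2 * m - θ * a) :=
    mul_nonneg (mul_nonneg hθ.1 ha) (by nlinarith [hθ.2])
  have h1 : θ * a * (2 * m - θ * a) ≤ 2 * a * m := by
    nlinarith [mul_nonneg hθ.1 ha, mul_le_mul_of_nonneg_right hθ.2 (mul_nonneg ha (ha.trans hm))]
  rcases le_total (θ * a * (2 * m - θ * a)) 1 with h | h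
  · linarith [Real.rpow_le_one h0 h hα0, h0.trans h1]
  · exact (Real.rpow_le_self_of_one_le h hα.2.le).trans (by linarith)

theorem gval_nonneg {α a m : ℝ} (ha : 0 ≤ a) (hm : a ≤ 2 * m) : 0 ≤ gval α a m :=
  mul_nonneg ha (intervalIntegral.integral_nonneg zero_le_one fun θ hθ =>
    Real.rpow_nonneg (mul_nonneg (mul_nonneg hθ.1 ha) (by nlinarith [hθ.2])) _)

theorem gval_diag_ge {α a : ℝ} (hα : α ∈ Set.Ioo (1 / 2 : ℝ) 1) (ha : 0 < a) :
    a ^ (2 * α + 1) / 2 ≤ gval α a a := by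
  have hα0 : 0 ≤ α := by linarith [hα.1]
  have e : a ^ (2 * α + 1) / 2 = a * ((a ^ 2) ^ α * ∫ θ in (0:ℝ)..1, θ) := by
    rw [integral_id, Real.rpow_add_one ha.ne', Real.rpow_mul ha.le, Real.rpow_two]
    ring
  rw [e, gval, ← intervalIntegral.integral_const_mul]
  refine mul_le_mul_of_nonneg_left ?_ ha.le
  refine intervalIntegral.integral_mono_on zero_le_one
    ((continuous_const.mul continuous_id).intervalIntegrable _ _)
    ((Continuous.rpow_const (by fun_prop) fun θ => Or.inr hα0).intervalIntegrable _ _)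
    fun θ hθ => ?_
  rw [show θ * a * (2 * a - θ * a) = a ^ 2 * (θ * (2 - θ)) by ring,
    Real.mul_rpow (sq_nonneg a) (mul_nonneg hθ.1 (by linarith [hθ.2]))]
  refine mul_le_mul_of_nonneg_left ?_ (by positivity)
  calc θ = θ ^ (1:ℝ) := (Real.rpow_one θ).symm
    _ ≤ θ ^ α := Real.rpow_le_rpow_of_exponent_ge_of_imp hθ.1 hθ.2 hα.2.le (fun _ h => absurd h (by linarith [hα.1]))
    _ ≤ _ := Real.rpow_le_rpow hθ.1 (by nlinarith [hθ.1, hθ.2]) hα0

theorem coercive {α : ℝ} (hα : α ∈ Set.Ioo (1 / 2 : ℝ) 1) (K : ℝ) :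
    ∃ C, ∀ a : ℝ, 0 < a → a ^ 2 - C ≤ a ^ (2 * α + 1) / 2 - K * a ^ 2 := by
  set L := max (2 * (K + 1)) 1
  have hL : 1 ≤ L := le_max_right _ _
  set a0 := L ^ (1 / (2 * α - 1))
  refine ⟨(|K| + 1) * a0 ^ 2, fun a ha => ?_⟩
  have h1 : 0 < 2 * α - 1 := by linarith [hα.1]
  rcases le_total a a0 with h | h
  · have h2 : a ^ 2 ≤ a0 ^ 2 := pow_le_pow_left₀ ha.le h 2
    have h3 : 0 ≤ a ^ (2 * α + 1) := Real.rpow_nonneg ha.le _
    nlinarith [mul_le_mul_of_nonneg_left h2 (show 0 ≤ |K| + 1 by positivity), le_abs_self K,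
      sq_nonneg a]
  · have h2 : L ≤ a ^ (2 * α - 1) := by
      have := Real.rpow_le_rpow (by positivity) h h1.le
      rwa [← Real.rpow_mul (by linarith), one_div_mul_cancel h1.ne', Real.rpow_one] at this
    have h3 : a ^ (2 * α + 1) = a ^ (2 * α - 1) * a ^ 2 := by
      rw [← Real.rpow_two, ← Real.rpow_add ha]; ring_nf
    have h4 := mul_le_mul_of_nonneg_right ((le_max_left _ _).trans h2) (sq_nonneg a)
    have h5 : 0 ≤ (|K| + 1) * a0 ^ 2 := by positivity
    nlinarith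

end scalar

end Vale.Agent.P371G
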