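import Vale.Agent.P371G.Spec

/-! # Order facts: inverse convexity, square monotonicity, Jensen on diagonals, Klein for log -/

namespace Vale.Agent.P371G

open Matrix Finset
open scoped ComplexOrder MatrixOrder

variable {n : ℕ} {X Y : Mat n}

theorem smul_one_herm (r : ℝ) : (r • (1 : Mat n)).IsHermitian := by
  rw [IsHermitian, Matrix.conjTranspose_smul, Matrix.conjTranspose_one, star_trivial]

theorem herm_of_le (hY : Y.IsHermitian) (h : Y ≤ X) : X.IsHermitian := by
  simpa using (sub_nonneg.2 h).posSemidef.1.add hY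

theorem herm_of_nonneg (h : 0 ≤ X) : X.IsHermitian := h.posSemidef.1

/-- Diagonal entry of `X` in the eigenbasis of `Y`. -/
noncomputable def dia (hY : Y.IsHermitian) (X : Mat n) (i : Fin n) : ℝ :=
  (inBases hY hY X i i).re

theorem dia_sub (hY : Y.IsHermitian) (A B : Mat n) (i : Fin n) :
    dia hY (A - B) i = dia hY A i - dia hY B i := by
  simp [dia, inBases_sub]

theorem dia_add (hY : Y.IsHermitian) (A B : Mat n) (i : Fin n) :
    dia hY (A + B) i = dia hY A i + dia hY B i := by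
  simp [dia, inBases_add]

theorem dia_nonneg (hY : Y.IsHermitian) (h : 0 ≤ X) (i : Fin n) : 0 ≤ dia hY X i :=
  (Complex.nonneg_iff.1
    ((h.posSemidef.conjTranspose_mul_mul_same (hY.eigenvectorUnitary : Mat n)).diag_nonneg
      (i := i))).1

theorem dia_mono (hY : Y.IsHermitian) {A B : Mat n} (h : A ≤ B) (i : Fin n) :
    dia hY A i ≤ dia hY B i := by
  have := dia_nonneg hY (sub_nonneg.2 h) i
  rw [dia_sub] at this
  linarith

theorem dia_fc (hX : X.IsHermitian) (hY : Y.IsHermitian) (f : ℝ → ℝ) (i : Fin n) :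
    dia hY (fc f X) i = ∑ j, ov hY hX i j * f (hX.eigenvalues j) := by
  have e : inBases hY hY (fc f X)
      = inBases hY hX 1 * diagonal (fun j => (f (hX.eigenvalues j) : ℂ)) * inBases hX hY 1 := by
    rw [fc_diag hX]
    simp [inBases, Matrix.mul_assoc]
  rw [dia, e, Matrix.mul_apply, Complex.re_sum]
  refine Finset.sum_congr rfl fun j _ => ?_
  have e2 : inBases hX hY 1 j i = star (inBases hY hX 1 i j) := by
    rw [← Matrix.conjTranspose_apply, inBases_star, Matrix.conjTranspose_one]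
  rw [Matrix.mul_diagonal, e2, RCLike.star_def, mul_right_comm, Complex.mul_conj',
    ← Complex.ofReal_pow, ← Complex.ofReal_mul, Complex.ofReal_re, ov]

theorem dia_self (hX : X.IsHermitian) (i : Fin n) : dia hX X i = hX.eigenvalues i := by
  have h : inBases hX hX X i i = hX.eigenvalues i * inBases hX hX 1 i i := by
    rw [← inBases_fc_left hX hX (fun x => x), fc_id hX, Matrix.mul_one]
  have h1 : inBases hX hX 1 i i = 1 := by simp [inBases, eU_star_mul]
  simp [dia, h, h1]

theorem dia_smul_one (hY : Y.IsHermitian) (r : ℝ) (i : Fin n) :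
    dia hY (r • (1 : Mat n)) i = r := by
  simp [dia, inBases, eU_star_mul]

theorem le_eig (hX : X.IsHermitian) {r : ℝ} (h : r • (1 : Mat n) ≤ X) (i : Fin n) :
    r ≤ hX.eigenvalues i := by
  simpa [dia_self, dia_smul_one] using dia_mono hX h i

theorem eig_le (hX : X.IsHermitian) {r : ℝ} (h : X ≤ r • (1 : Mat n)) (i : Fin n) :
    hX.eigenvalues i ≤ r := by
  simpa [dia_self, dia_smul_one] using dia_mono hX h i

theorem eig_mono_dia (hX : X.IsHermitian) {Z : Mat n} (h : X ≤ Z) (i : Fin n) :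
    hX.eigenvalues i ≤ dia hX Z i := by
  simpa [dia_self] using dia_mono hX h i

theorem smul_one_le_of_eig (hX : X.IsHermitian) {r : ℝ} (h : ∀ i, r ≤ hX.eigenvalues i) :
    r • (1 : Mat n) ≤ X := by
  rw [← fc_const hX r]
  exact (fc_mono hX h).trans_eq (fc_id hX)

theorem le_smul_one_of_eig (hX : X.IsHermitian) {r : ℝ} (h : ∀ i, hX.eigenvalues i ≤ r) :
    X ≤ r • (1 : Mat n) := by
  rw [← fc_const hX r]
  exact (fc_id hX).symm.trans_le (fc_mono hX h)

theorem rtr_fc_mul (hY : Y.IsHermitian) (f : ℝ → ℝ) (A : Mat n) :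
    rtr (fc f Y * A) = ∑ i, f (hY.eigenvalues i) * dia hY A i := by
  rw [fc_diag hY, Matrix.mul_assoc, Matrix.mul_assoc, rtr, Matrix.trace_mul_comm,
    Matrix.mul_assoc, Matrix.mul_assoc, Matrix.trace, Complex.re_sum]
  refine Finset.sum_congr rfl fun i _ => ?_
  rw [Matrix.diag_apply, Matrix.diagonal_mul, Complex.re_ofReal_mul, dia, inBases,
    Matrix.mul_assoc]

theorem rtr_eq_sum_dia (hY : Y.IsHermitian) (A : Mat n) : rtr A = ∑ i, dia hY A i := by
  simpa [fc_one hY] using rtr_fc_mul hY (fun _ => 1) A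

/-- Jensen's inequality for the diagonal in an arbitrary eigenbasis. -/
theorem jensen_dia (hX : X.IsHermitian) (hY : Y.IsHermitian) {s : Set ℝ} {g : ℝ → ℝ}
    (hg : ConvexOn ℝ s g) (hs : ∀ j, hX.eigenvalues j ∈ s) :
    ∑ i, g (dia hY X i) ≤ rtr (fc g X) := by
  have e : ∀ i, dia hY X i = ∑ j, ov hY hX i j * hX.eigenvalues j := fun i => by
    have := dia_fc hX hY (fun x => x) i
    rwa [fc_id hX] at this
  rw [rtr_fc hX, ← sum_right hY hX g]
  refine Finset.sum_le_sum fun i _ => ?_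
  rw [e]
  have := hg.map_sum_le (t := Finset.univ) (w := fun j => ov hY hX i j)
    (p := fun j => hX.eigenvalues j) (fun j _ => ov_nonneg _ _ _ _) (sum_ov_right hY hX i)
    fun j _ => hs j
  simpa [mul_comm] using this

/-- Monotonicity of the trace of a monotone convex function. -/
theorem rtr_fc_mono_convex (hX : X.IsHermitian) (hY : Y.IsHermitian) (h : X ≤ Y) {g : ℝ → ℝ}
    (hg : ConvexOn ℝ (Set.Ici 0) g) (hm : MonotoneOn g (Set.Ici 0)) (hX0 : 0 ≤ X) :
    rtr (fc g X) ≤ rtr (fc g Y) := by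
  have hY0 : 0 ≤ Y := hX0.trans h
  refine le_trans ?_ (jensen_dia hY hX hg fun j => hY0.posSemidef.eigenvalues_nonneg j)
  rw [rtr_fc hX]
  exact Finset.sum_le_sum fun i _ => hm (hX0.posSemidef.eigenvalues_nonneg i)
    (dia_nonneg hX hY0 i) (eig_mono_dia hX h i)

/-- Functional calculus of a diagonal matrix, in trace. -/
theorem rtr_fc_diagonal (d : Fin n → ℝ) (f : ℝ → ℝ) :
    rtr (fc f (diagonal fun i => (d i : ℂ))) = ∑ i, f (d i) := by
  have hD : (diagonal fun i => (d i : ℂ)).IsHermitian :=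
    Matrix.isHermitian_diagonal_of_self_adjoint _ (by ext i; simp)
  set U : Mat n := (hD.eigenvectorUnitary : Mat n) with hU
  have hint : ∀ i j, (d i : ℂ) * U i j = U i j * hD.eigenvalues j := by
    intro i j
    have h : (diagonal fun i => (d i : ℂ)) * U
        = U * diagonal (fun j => (hD.eigenvalues j : ℂ)) := by
      conv_lhs => rw [← fc_id hD, fc_diag hD]
      rw [← hU, Matrix.mul_assoc, hU, eU_star_mul, Matrix.mul_one]
    have := congrFun (congrFun h i) j
    rwa [Matrix.diagonal_mul, Matrix.mul_diagonal] at this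
  have hrow : ∀ i, ∑ j, ‖U i j‖ ^ 2 = 1 := fun i => by
    have h := congrArg Complex.re (congrFun (congrFun (eU_mul_star hD) i) i)
    rw [Matrix.mul_apply, Complex.re_sum, Matrix.one_apply_eq, ← hU] at h
    simpa [Matrix.conjTranspose_apply, Complex.mul_conj', ← Complex.ofReal_pow] using h
  have hcol : ∀ j, ∑ i, ‖U i j‖ ^ 2 = 1 := fun j => by
    have h := congrArg Complex.re (congrFun (congrFun (eU_star_mul hD) j) j)
    rw [Matrix.mul_apply, Complex.re_sum, Matrix.one_apply_eq, ← hU] at h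
    simpa [Matrix.conjTranspose_apply, Complex.conj_mul', ← Complex.ofReal_pow] using h
  rw [rtr_fc hD]
  calc ∑ j, f (hD.eigenvalues j) = ∑ j, ∑ i, f (hD.eigenvalues j) * ‖U i j‖ ^ 2 := by
        simp [← Finset.mul_sum, hcol]
    _ = ∑ i, ∑ j, f (d i) * ‖U i j‖ ^ 2 := by
        rw [Finset.sum_comm]
        refine Finset.sum_congr rfl fun i _ => Finset.sum_congr rfl fun j _ => ?_
        rcases eq_or_ne (U i j) 0 with h0 | h0
        · simp [h0]
        · have := hint i j
          rw [mul_comm (U i j)] at this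
          rw [Complex.ofReal_inj.1 (mul_right_cancel₀ h0 this)]
    _ = _ := by simp [← Finset.mul_sum, hrow]

section inverse

theorem inv_eq_fc (hX : X.IsHermitian) (h : ∀ i, hX.eigenvalues i ≠ 0) :
    X⁻¹ = fc (fun x => x⁻¹) X := by
  refine Matrix.inv_eq_left_inv ?_
  conv_lhs => enter [2]; rw [← fc_id hX]
  rw [fc_mul, ← fc_one hX]
  exact fc_congr hX fun i => inv_mul_cancel₀ (h i)

theorem posDef_eig (hX : X.IsHermitian) (h : ∀ i, 0 < hX.eigenvalues i) : X.PosDef :=
  hX.posDef_iff_eigenvalues_pos.2 h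

theorem posDef_of_le {r : ℝ} (hr : 0 < r) (h : r • (1 : Mat n) ≤ X) : X.PosDef :=
  posDef_eig (herm_of_le (smul_one_herm r) h) fun i => hr.trans_le (le_eig _ h i)

theorem posDef_mono (hX : X.PosDef) (h : X ≤ Y) : Y.PosDef := by
  simpa using hX.add_posSemidef (sub_nonneg.2 h).posSemidef

theorem posDef_mul_inv (hX : X.PosDef) : X * X⁻¹ = 1 :=
  Matrix.mul_nonsing_inv _ ((Matrix.isUnit_iff_isUnit_det X).1 hX.isUnit)

theorem posDef_inv_mul (hX : X.PosDef) : X⁻¹ * X = 1 :=
  Matrix.nonsing_inv_mul _ ((Matrix.isUnit_iff_isUnit_det X).1 hX.isUnit)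

/-- Midpoint convexity and antitonicity of the inverse, in one statement. -/
theorem inv_midpoint {P P₀ P₁ : Mat n} (hP : P.PosDef) (h₀ : P₀.PosDef) (h₁ : P₁.PosDef)
    (h : P₀ + P₁ ≤ (2 : ℝ) • P) : (2 : ℝ) • P⁻¹ ≤ P₀⁻¹ + P₁⁻¹ := by
  set Q := P⁻¹ with hQ
  have hQh : Qᴴ = Q := hP.inv.1.eq
  have key : ∀ R : Mat n, R.PosDef → 0 ≤ R⁻¹ - Q - Q + Q * R * Q := by
    intro R hR
    have h := hR.posSemidef.conjTranspose_mul_mul_same (R⁻¹ - Q)
    rw [Matrix.conjTranspose_sub, hR.inv.1.eq, hQh] at h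
    refine h.nonneg.trans_eq ?_
    rw [Matrix.sub_mul, posDef_inv_mul hR, Matrix.sub_mul, Matrix.mul_sub, Matrix.mul_sub,
      Matrix.one_mul, Matrix.one_mul, Matrix.mul_assoc Q R R⁻¹, posDef_mul_inv hR, Matrix.mul_one]
    abel
  have h3 : 0 ≤ Q * ((2 : ℝ) • P - (P₀ + P₁)) * Q := by
    have := (sub_nonneg.2 h).posSemidef.conjTranspose_mul_mul_same Q
    rw [hQh] at this
    exact this.nonneg
  have h4 := add_nonneg (add_nonneg (key P₀ h₀) (key P₁ h₁)) h3
  rw [← sub_nonneg]
  refine h4.trans_eq ?_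
  have hQP : Q * P * Q = Q := by rw [hQ, posDef_inv_mul hP, Matrix.one_mul]
  simp only [Matrix.mul_sub, Matrix.sub_mul, Matrix.mul_add, Matrix.add_mul, Matrix.mul_smul,
    Matrix.smul_mul, hQP]
  module

theorem inv_antitone {P R : Mat n} (hR : R.PosDef) (h : R ≤ P) : P⁻¹ ≤ R⁻¹ := by
  have := inv_midpoint (posDef_mono hR h) hR hR (by
    rw [two_smul]; exact add_le_add h h)
  rw [two_smul] at this
  have h2 := sub_nonneg.2 this
  rw [show R⁻¹ + R⁻¹ - (P⁻¹ + P⁻¹) = (2 : ℝ) • (R⁻¹ - P⁻¹) by module] at h2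
  have h3 : 0 ≤ (1 / 2 : ℝ) • ((2 : ℝ) • (R⁻¹ - P⁻¹)) := smul_nonneg (by norm_num) h2
  rw [smul_smul, show (1 / 2 : ℝ) * 2 = 1 by norm_num, one_smul, sub_nonneg] at h3
  exact h3

/-- The square is order reflecting. -/
theorem le_of_sq_le {P Q : Mat n} (hP : P.IsHermitian) (hQ : Q.IsHermitian) (hPQ : (Q + P).PosDef)
    (h : P * P ≤ Q * Q) : P ≤ Q := by
  rw [← sub_nonneg]
  have hD : (Q - P).IsHermitian := hQ.sub hP
  refine (fc_id hD).symm ▸ fc_nonneg hD fun i => ?_
  by_contra hneg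
  push Not at hneg
  set U : Mat n := (hD.eigenvectorUnitary : Mat n)
  have h1 : 0 ≤ dia hD (Q * Q - P * P) i := dia_nonneg hD (sub_nonneg.2 h) i
  have h2 : 0 < dia hD (Q + P) i := by
    have hpd : (Uᴴ * (Q + P) * U).PosDef := by
      refine hPQ.conjTranspose_mul_mul_same ?_
      exact Matrix.mulVec_injective_iff_isUnit.2
        (IsUnit.of_mul_eq_one _ (eU_mul_star hD))
    exact (Complex.pos_iff.1 hpd.diag_pos).1
  have h3 : dia hD (Q * Q - P * P) i = hD.eigenvalues i * dia hD (Q + P) i := by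
    rw [show Q * Q - P * P = Q * fc (fun x => x) (Q - P) + fc (fun x => x) (Q - P) * P by
      rw [fc_id hD, Matrix.mul_sub, Matrix.sub_mul]; abel, dia_add, dia_add, dia, dia, dia, dia,
      inBases_fc_left, inBases_fc_right, Complex.re_ofReal_mul, mul_comm (inBases hD hD Q i i),
      Complex.re_ofReal_mul]
    ring
  nlinarith

end inverse

section log

/-- Log determinant through the functional calculus. -/
noncomputable def lndet (X : Mat n) : ℝ := rtr (fc Real.log X)

theorem lndet_eq_log_det (hX : X.PosDef) : lndet X = Real.log (X.det.re) := by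
  rw [lndet, rtr_fc hX.1, hX.1.det_eq_prod_eigenvalues]
  have e : (∏ i, ((hX.1.eigenvalues i : ℝ) : ℂ)).re = ∏ i, hX.1.eigenvalues i := by
    rw [← Complex.ofReal_prod, Complex.ofReal_re]
  exact (Real.log_prod (fun i _ => (hX.eigenvalues_pos i).ne')).symm.trans
    (congrArg Real.log e.symm)

/-- Nonnegative gap in the tangent inequality of the logarithm. -/
theorem lndet_le_tangent (hX : X.PosDef) (hY : Y.PosDef) :
    lndet X ≤ lndet Y + rtr ((X - Y) * Y⁻¹) := by
  have h := klein hX.1 hY.1 (Finset.univ : Finset (Fin 3))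
    ![fun x => -Real.log x, fun _ => 1, fun x => x]
    ![fun _ => 1, fun y => Real.log y - 1, fun y => y⁻¹] fun i j => by
      have hx := hX.eigenvalues_pos i
      have hy := hY.eigenvalues_pos j
      have := Real.log_le_sub_one_of_pos (div_pos hx hy)
      rw [Real.log_div hx.ne' hy.ne', div_eq_mul_inv] at this
      simp only [Fin.sum_univ_three, Matrix.cons_val_zero, Matrix.cons_val_one, Matrix.cons_val]
      linarith
  simp only [Fin.sum_univ_three, Matrix.cons_val_zero, Matrix.cons_val_one, Matrix.cons_val] at h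
  rw [fc_one hY.1, fc_one hX.1, fc_id hX.1, Matrix.mul_one, Matrix.one_mul,
    ← inv_eq_fc hY.1 (fun i => (hY.eigenvalues_pos i).ne')] at h
  have e1 : rtr (fc (fun x => -Real.log x) X) = -lndet X := by
    rw [lndet, rtr_fc hX.1, rtr_fc hX.1, Finset.sum_neg_distrib]
  have e2 : rtr (fc (fun y => Real.log y - 1) Y) = lndet Y - n := by
    rw [lndet, rtr_fc hY.1, rtr_fc hY.1, Finset.sum_sub_distrib]; simp
  have e3 : rtr ((X - Y) * Y⁻¹) = rtr (X * Y⁻¹) - n := by
    rw [Matrix.sub_mul, posDef_mul_inv hY, rtr_sub, rtr_one]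
  linarith

/-- Equality in the tangent inequality forces equality of the matrices. -/
theorem eq_of_lndet_tangent (hX : X.PosDef) (hY : Y.PosDef)
    (h : lndet Y + rtr ((X - Y) * Y⁻¹) ≤ lndet X) : X = Y := by
  have hx := hX.eigenvalues_pos
  have hy := hY.eigenvalues_pos
  set φ : Fin n → Fin n → ℝ := fun i j =>
    Real.log (hY.1.eigenvalues j) + hX.1.eigenvalues i * (hY.1.eigenvalues j)⁻¹ - 1
      - Real.log (hX.1.eigenvalues i) with hφ
  have hsum : ∑ i, ∑ j, φ i j * ov hX.1 hY.1 i j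
      = lndet Y + rtr ((X - Y) * Y⁻¹) - lndet X := by
    have e1 : rtr (X * Y⁻¹) = ∑ i, ∑ j,
        hX.1.eigenvalues i * (hY.1.eigenvalues j)⁻¹ * ov hX.1 hY.1 i j := by
      rw [inv_eq_fc hY.1 (fun j => (hy j).ne')]
      conv_lhs => enter [1, 1]; rw [← fc_id hX.1]
      exact rtr_fc_fc hX.1 hY.1 _ _
    rw [Matrix.sub_mul, posDef_mul_inv hY, rtr_sub, rtr_one, e1, lndet, lndet, rtr_fc hX.1,
      rtr_fc hY.1, ← sum_left hX.1 hY.1 Real.log, ← sum_right hX.1 hY.1 Real.log]
    simp only [hφ, sub_mul, add_mul, one_mul, Finset.sum_sub_distrib, Finset.sum_add_distrib,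
      sum_ov_right, Finset.sum_const, Finset.card_univ, Fintype.card_fin, nsmul_eq_mul, mul_one]
    ring
  have hnn : ∀ i j, 0 ≤ φ i j * ov hX.1 hY.1 i j := fun i j => by
    refine mul_nonneg ?_ (ov_nonneg _ _ _ _)
    have := Real.log_le_sub_one_of_pos (div_pos (hx i) (hy j))
    rw [Real.log_div (hx i).ne' (hy j).ne', div_eq_mul_inv] at this
    simp only [hφ]; linarith
  have hz : ∀ i j, φ i j * ov hX.1 hY.1 i j = 0 := by
    intro i j
    refine le_antisymm ?_ (hnn i j)
    have h1 : φ i j * ov hX.1 hY.1 i j ≤ ∑ j, φ i j * ov hX.1 hY.1 i j :=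
      Finset.single_le_sum (fun b _ => hnn i b) (Finset.mem_univ j)
    have h2 : (∑ j, φ i j * ov hX.1 hY.1 i j) ≤ ∑ i, ∑ j, φ i j * ov hX.1 hY.1 i j :=
      Finset.single_le_sum (f := fun a => ∑ j, φ a j * ov hX.1 hY.1 a j)
        (fun a _ => Finset.sum_nonneg fun b _ => hnn a b) (Finset.mem_univ i)
    linarith
  have hd : inBases hX.1 hY.1 (X - Y) = 0 := by
    ext i j
    rw [inBases_diff, Matrix.zero_apply]
    rcases mul_eq_zero.1 (hz i j) with h0 | h0
    · have hne : hX.1.eigenvalues i / hY.1.eigenvalues j = 1 := by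
        by_contra hne
        have := Real.log_lt_sub_one_of_pos (div_pos (hx i) (hy j)) hne
        rw [Real.log_div (hx i).ne' (hy j).ne', div_eq_mul_inv] at this
        simp only [hφ] at h0; linarith
      rw [div_eq_one_iff_eq (hy j).ne'] at hne
      rw [hne, sub_self, zero_mul]
    · have : inBases hX.1 hY.1 1 i j = 0 := by simpa [ov] using h0
      rw [this, mul_zero]
  have := inBases_back hX.1 hY.1 (X - Y)
  rw [hd] at this
  exact sub_eq_zero.1 (by simpa using this.symm)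

/-- Strict midpoint concavity of the log determinant. -/
theorem lndet_midpoint {P P₀ P₁ : Mat n} (hP : P.PosDef) (h₀ : P₀.PosDef) (h₁ : P₁.PosDef)
    (h : P₀ + P₁ ≤ (2 : ℝ) • P) :
    lndet P₀ + lndet P₁ ≤ 2 * lndet P ∧ (lndet P₀ + lndet P₁ = 2 * lndet P → P₀ = P₁) := by
  have t0 := lndet_le_tangent h₀ hP
  have t1 := lndet_le_tangent h₁ hP
  have hs : rtr ((P₀ - P) * P⁻¹) + rtr ((P₁ - P) * P⁻¹) ≤ 0 := by
    have := rtr_mul_nonneg (sub_nonneg.2 h) hP.inv.posSemidef.nonneg
    rw [← rtr_add, ← Matrix.add_mul]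
    rw [show P₀ - P + (P₁ - P) = -((2 : ℝ) • P - (P₀ + P₁)) by module, Matrix.neg_mul, rtr_neg]
    linarith
  refine ⟨by linarith, fun he => ?_⟩
  rw [eq_of_lndet_tangent h₀ hP (by linarith), eq_of_lndet_tangent h₁ hP (by linarith)]

end log

end Vale.Agent.P371G
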