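import Vale.Agent.P371G.PathDefs

/-! # The descent path: compactness and continuity of the data -/

namespace Vale.Agent.P371G

open Matrix Filter Topology MeasureTheory
open scoped ComplexOrder MatrixOrder Matrix.Norms.L2Operator
open Vale.Agent.P371M

variable {m n : ℕ}

/-- Positive semidefinite matrices of trace at most `c`. -/
def psdBall (n : ℕ) (c : ℝ) : Set (Mat n) := {X | 0 ≤ X ∧ rtr X ≤ c}

theorem isCompact_psdBall (c : ℝ) : IsCompact (psdBall n c) := by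
  set S : Set (Mat n) := (Set.univ.pi fun _ : Fin n => Set.univ.pi fun _ : Fin n =>
      Metric.closedBall (0 : ℂ) (max c 0)) ∩ (Set.Ici 0 ∩ {X | rtr X ≤ c}) with hS
  have hc : IsCompact S := IsCompact.inter_right
    (isCompact_univ_pi fun _ => isCompact_univ_pi fun _ => isCompact_closedBall _ _)
    (isClosed_Ici.inter (isClosed_le rtr_continuous continuous_const))
  convert hc using 1
  ext X
  refine ⟨fun h => ⟨?_, h⟩, fun h => h.2⟩
  intro i _ j _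
  rw [mem_closedBall_zero_iff]
  have hX := h.1.posSemidef
  refine (norm_entry_le hX.1 i j).trans ?_
  rw [Real.sqrt_le_iff]
  refine ⟨le_max_right _ _, le_trans ?_ (pow_le_pow_left₀ (rtr_nonneg h.1)
    (h.2.trans (le_max_left _ _)) 2)⟩
  rw [rtr_sq_eq hX.1, rtr_eq_sum_eig hX.1]
  exact Finset.sum_sq_le_sq_sum_of_nonneg fun i _ => hX.eigenvalues_nonneg i

/-- Scale down to trace at most `L`. -/
noncomputable def clampT (L : ℝ) (X : Mat n) : Mat n := (L / max L (rtr X)) • X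

theorem clampT_nonneg {L : ℝ} (hL : 0 < L) {X : Mat n} (h : 0 ≤ X) : 0 ≤ clampT L X :=
  smul_nonneg (div_nonneg hL.le (hL.le.trans (le_max_left _ _))) h

theorem clampT_of_le {L : ℝ} (hL : 0 < L) {X : Mat n} (h : rtr X ≤ L) : clampT L X = X := by
  rw [clampT, max_eq_left h, div_self hL.ne', one_smul]

theorem clampT_of_gt {L : ℝ} (hL : 0 < L) {X : Mat n} (h : L < rtr X) :
    rtr (clampT L X) = L := by
  rw [clampT, max_eq_right h.le, rtr_smul, div_mul_cancel₀ _ (ne_of_gt (hL.trans h))]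

theorem clampT_mem {L : ℝ} (hL : 0 < L) {X : Mat n} (h : 0 ≤ X) :
    clampT L X ∈ psdBall n L := by
  refine ⟨clampT_nonneg hL h, ?_⟩
  rcases le_or_gt (rtr X) L with h' | h'
  · rw [clampT_of_le hL h']; exact h'
  · rw [clampT_of_gt hL h']

theorem continuous_clampT {L : ℝ} (hL : 0 < L) : Continuous (clampT (n := n) L) := by
  refine Continuous.smul (continuous_const.div (continuous_const.max rtr_continuous) fun X => ?_)
    continuous_id
  exact (hL.trans_le (le_max_left _ _)).ne'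

theorem tendsto_fc {f : ℝ → ℝ} (hf : Continuous f) {X : ℕ → Mat n} {X₀ : Mat n}
    (hX : ∀ k, (X k).IsHermitian) (h₀ : X₀.IsHermitian) (h : Tendsto X atTop (𝓝 X₀)) :
    Tendsto (fun k => fc f (X k)) atTop (𝓝 (fc f X₀)) := by
  have hc := continuousOn_fc (n := n) (S := {Y : Mat n | Y.IsHermitian}) hf continuousOn_id
    fun Y hY => hY
  exact (hc X₀ h₀).tendsto.comp (tendsto_nhdsWithin_iff.2 ⟨h, Eventually.of_forall hX⟩)

theorem tendsto_msqrt {X : ℕ → Mat n} {X₀ : Mat n} (hX : ∀ k, 0 ≤ X k) (h₀ : 0 ≤ X₀)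
    (h : Tendsto X atTop (𝓝 X₀)) : Tendsto (fun k => msqrt (X k)) atTop (𝓝 (msqrt X₀)) :=
  tendsto_fc Real.continuous_sqrt (fun k => herm_of_nonneg (hX k)) (herm_of_nonneg h₀) h

theorem tendsto_inv_posDef {P : ℕ → Mat n} {P₀ : Mat n} (h₀ : P₀.PosDef)
    (h : Tendsto P atTop (𝓝 P₀)) : Tendsto (fun k => (P k)⁻¹) atTop (𝓝 P₀⁻¹) := by
  have h2 : ContinuousAt Ring.inverse P₀.det := by
    rw [Ring.inverse_eq_inv']
    exact continuousAt_inv₀ ((Matrix.isUnit_iff_isUnit_det P₀).1 h₀.isUnit).ne_zero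
  exact (continuousAt_matrix_inv P₀ h2).tendsto.comp h

theorem tendsto_penGrad {A M : ℕ → Mat n} {A₀ M₀ : Mat n} (hd : GDom A₀ M₀)
    (hA : Tendsto A atTop (𝓝 A₀)) (hM : Tendsto M atTop (𝓝 M₀)) :
    Tendsto (fun k => penGrad (A k) (M k)) atTop (𝓝 (penGrad A₀ M₀)) := by
  have hi := tendsto_inv_posDef hd.2 ((hM.const_smul (2 : ℝ)).sub hA)
  exact ((hi.mul hA).add (hA.mul hi)).add (((hi.mul hA).mul hA).mul hi)

theorem adm_of_gdom {A M : Mat n} (h : GDom A M) : Adm A M := by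
  refine ⟨h.1, sub_nonneg.1 h.2.posSemidef.nonneg, ?_⟩
  have e : M = (1 / 2 : ℝ) • (A + ((2 : ℝ) • M - A)) := by module
  rw [e]
  exact (PosDef.posSemidef_add h.1.posSemidef h.2).smul (by norm_num)

namespace PData

variable {d : PData m n}

/-- Points at which the data are evaluated. -/
def Pt (d : PData m n) (D : Mat n) (x : ℝ) : Prop := 0 ≤ D ∧ x ∈ Set.Icc d.a d.b

theorem A_cont (hd : d.Ok) : Continuous d.A :=
  continuous_pi fun i => continuous_pi fun j =>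
    continuous_iff_continuousAt.2 fun x => (hd.hA i j x).continuousAt

theorem A'_cont (hd : d.Ok) : Continuous d.A' :=
  continuous_pi fun i => continuous_pi fun j => hd.hA' i j

theorem gram_hasDeriv (hd : d.Ok) (x : ℝ) (i j : Fin n) :
    HasDerivAt (fun y => gramInt d.A d.a y i j) (((d.A x)ᴴ * d.A x) i j) x := by
  have hc : Continuous fun y => ((d.A y)ᴴ * d.A y) i j := by
    have := A_cont hd
    fun_prop
  exact (hc.integral_hasStrictDerivAt d.a x).hasDerivAt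

theorem gram_cont (hd : d.Ok) : Continuous fun x => gramInt d.A d.a x :=
  continuous_pi fun i => continuous_pi fun j =>
    continuous_iff_continuousAt.2 fun x => (gram_hasDeriv hd x i j).continuousAt

theorem gram_nonneg (hd : d.Ok) {x : ℝ} (hx : d.a ≤ x) : 0 ≤ gramInt d.A d.a x :=
  (gram_psd (fun i j => continuous_iff_continuousAt.2 fun y => (hd.hA i j y).continuousAt)
    hx).nonneg

theorem R_nonneg (D : Mat n) (x : ℝ) : 0 ≤ d.R D x := wDen_nonneg _ _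

theorem X_ge (hd : d.Ok) {D : Mat n} {x : ℝ} (hx : d.a ≤ x) : d.δ • (1 : Mat n) ≤ d.X D x := by
  rw [X, ← sub_nonneg, add_sub_cancel_right]
  have := ((gram_nonneg hd hx).posSemidef.conjTranspose_mul_mul_same (msqrt D)).nonneg
  rwa [(msqrt_herm D).eq] at this

theorem X_pos (hd : d.Ok) {D : Mat n} {x : ℝ} (hx : d.a ≤ x) : (d.X D x).PosDef :=
  posDef_of_le hd.hδ (X_ge hd hx)

section seq

variable {D : ℕ → Mat n} {x : ℕ → ℝ} {B : ℕ → Mat n} {D₀ : Mat n} {x₀ : ℝ} {B₀ : Mat n}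

theorem R_tendsto (hd : d.Ok) (hD : ∀ k, 0 ≤ D k) (hD₀ : 0 ≤ D₀)
    (hDt : Tendsto D atTop (𝓝 D₀)) (hxt : Tendsto x atTop (𝓝 x₀)) :
    Tendsto (fun k => d.R (D k) (x k)) atTop (𝓝 (d.R D₀ x₀)) := by
  have hw := tendsto_msqrt hD hD₀ hDt
  have ha : Tendsto (fun k => (d.A (x k))ᴴ * d.A (x k)) atTop (𝓝 ((d.A x₀)ᴴ * d.A x₀)) :=
    (((A_cont hd).matrix_conjTranspose.matrix_mul (A_cont hd)).tendsto x₀).comp hxt
  exact (hw.mul ha).mul hw

theorem X_tendsto (hd : d.Ok) (hD : ∀ k, 0 ≤ D k) (hD₀ : 0 ≤ D₀)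
    (hDt : Tendsto D atTop (𝓝 D₀)) (hxt : Tendsto x atTop (𝓝 x₀)) :
    Tendsto (fun k => d.X (D k) (x k)) atTop (𝓝 (d.X D₀ x₀)) := by
  have hw := tendsto_msqrt hD hD₀ hDt
  have hg : Tendsto (fun k => gramInt d.A d.a (x k)) atTop (𝓝 (gramInt d.A d.a x₀)) :=
    ((gram_cont hd).tendsto x₀).comp hxt
  exact ((hw.mul hg).mul hw).add_const _

theorem M_tendsto (hd : d.Ok) (hM : MaxAPI (d.γ - 1 / 2)) (hD : ∀ k, d.Pt (D k) (x k))
    (h₀ : d.Pt D₀ x₀) (hB : ∀ k, 0 ≤ B k) (hB₀ : 0 ≤ B₀) (hDt : Tendsto D atTop (𝓝 D₀))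
    (hxt : Tendsto x atTop (𝓝 x₀)) (hBt : Tendsto B atTop (𝓝 B₀)) :
    Tendsto (fun k => d.M (D k) (x k) (B k)) atTop (𝓝 (d.M D₀ x₀ B₀)) ∧
    Tendsto (fun k => d.V (D k) (x k) (B k)) atTop (𝓝 (d.V D₀ x₀ B₀)) :=
  hM.tend hd.hε hd.hε1 (fun k => R_nonneg _ _)
    (R_tendsto hd (fun k => (hD k).1) h₀.1 hDt hxt) (R_nonneg _ _)
    (fun k => X_pos hd (hD k).2.1) (X_tendsto hd (fun k => (hD k).1) h₀.1 hDt hxt)
    (X_pos hd h₀.2.1) hB hBt hB₀

theorem M_spec (hd : d.Ok) (hM : MaxAPI (d.γ - 1 / 2)) {D B : Mat n} {x : ℝ} (h : d.Pt D x)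
    (hB : 0 ≤ B) :
    GMax (d.γ - 1 / 2) d.ε (d.R D x) (d.X D x) B (d.M D x B) :=
  hM.spec hd.hε hd.hε1 (R_nonneg _ _) (X_pos hd h.2.1) hB

theorem alpha_mem (hd : d.Ok) : d.γ - 1 / 2 ∈ Set.Ioo (0 : ℝ) 1 :=
  ⟨by linarith [hd.hγ.1], by linarith [hd.hγ.2]⟩

theorem G_herm (hd : d.Ok) (hM : MaxAPI (d.γ - 1 / 2)) {D B : Mat n} {x : ℝ} (h : d.Pt D x)
    (hB : 0 ≤ B) : (d.G D x B).IsHermitian :=
  ggrad_herm (herm_of_nonneg (R_nonneg _ _)) (herm_of_nonneg hB) (M_spec hd hM h hB).1.2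

theorem G_tendsto (hd : d.Ok) (hM : MaxAPI (d.γ - 1 / 2)) (hD : ∀ k, d.Pt (D k) (x k))
    (h₀ : d.Pt D₀ x₀) (hB : ∀ k, 0 ≤ B k) (hB₀ : 0 ≤ B₀) (hDt : Tendsto D atTop (𝓝 D₀))
    (hxt : Tendsto x atTop (𝓝 x₀)) (hBt : Tendsto B atTop (𝓝 B₀)) :
    Tendsto (fun k => d.G (D k) (x k) (B k)) atTop (𝓝 (d.G D₀ x₀ B₀)) := by
  have hm := (M_tendsto hd hM hD h₀ hB hB₀ hDt hxt hBt).1
  refine ((Rhat_tendsto (alpha_mem hd) (fun k => adm_of_gdom (M_spec hd hM (hD k) (hB k)).1)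
    (adm_of_gdom (M_spec hd hM h₀ hB₀).1) hBt hm).sub
      (R_tendsto hd (fun k => (hD k).1) h₀.1 hDt hxt)).sub ?_
  exact (tendsto_penGrad (M_spec hd hM h₀ hB₀).1 hBt hm).const_smul d.ε

theorem Z_tendsto (hd : d.Ok) (hM : MaxAPI (d.γ - 1 / 2)) (hD : ∀ k, d.Pt (D k) (x k))
    (h₀ : d.Pt D₀ x₀) (hB : ∀ k, 0 ≤ B k) (hB₀ : 0 ≤ B₀) (hDt : Tendsto D atTop (𝓝 D₀))
    (hxt : Tendsto x atTop (𝓝 x₀)) (hBt : Tendsto B atTop (𝓝 B₀)) :
    Tendsto (fun k => d.Z (D k) (x k) (B k)) atTop (𝓝 (d.Z D₀ x₀ B₀)) :=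
  (tendsto_fc (continuous_id.max continuous_const)
    (fun k => (herm_of_nonneg (hB k)).sub (G_herm hd hM (hD k) (hB k)))
    ((herm_of_nonneg hB₀).sub (G_herm hd hM h₀ hB₀))
    (hBt.sub (G_tendsto hd hM hD h₀ hB hB₀ hDt hxt hBt))).sub hBt

theorem wPow_tendsto (hd : d.Ok) (hD : ∀ k, 0 ≤ D k) (hD₀ : 0 ≤ D₀)
    (hDt : Tendsto D atTop (𝓝 D₀)) (hxt : Tendsto x atTop (𝓝 x₀)) :
    Tendsto (fun k => wPow d.γ (D k) (d.A (x k))) atTop (𝓝 (wPow d.γ D₀ (d.A x₀))) := by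
  have hq : 0 ≤ (d.γ + 1 / 2) / (d.γ - 1 / 2) :=
    div_nonneg (by linarith [hd.hγ.1]) (by linarith [hd.hγ.1])
  exact ((continuousOn_trPow hq) _ (R_nonneg (d := d) D₀ x₀).posSemidef).tendsto.comp
    (tendsto_nhdsWithin_iff.2 ⟨R_tendsto hd hD hD₀ hDt hxt,
      Eventually.of_forall fun k => (R_nonneg (d := d) (D k) (x k)).posSemidef⟩)

theorem src_tendsto (hd : d.Ok) (hD : ∀ k, 0 ≤ D k) (hD₀ : 0 ≤ D₀)
    (hDt : Tendsto D atTop (𝓝 D₀)) (hxt : Tendsto x atTop (𝓝 x₀)) :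
    Tendsto (fun k => d.src (D k) (x k)) atTop (𝓝 (d.src D₀ x₀)) :=
  (tendsto_rtr_mul hDt ((((A'_cont hd).matrix_conjTranspose.matrix_mul (A'_cont hd)).tendsto
    x₀).comp hxt)).sub (wPow_tendsto hd hD hD₀ hDt hxt)

theorem drift_tendsto (hd : d.Ok) (hD : ∀ k, 0 ≤ D k) (hD₀ : 0 ≤ D₀)
    (hDt : Tendsto D atTop (𝓝 D₀)) (hxt : Tendsto x atTop (𝓝 x₀))
    (hBt : Tendsto B atTop (𝓝 B₀)) {N : ℕ → Mat n} {N₀ : Mat n}
    (hNt : Tendsto N atTop (𝓝 N₀)) :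
    Tendsto (fun k => d.drift (D k) (x k) (B k) (N k)) atTop (𝓝 (d.drift D₀ x₀ B₀ N₀)) := by
  have hw := tendsto_msqrt hD hD₀ hDt
  have ha : Tendsto (fun k => (d.A' (x k))ᴴ * d.A (x k) + (d.A (x k))ᴴ * d.A' (x k)) atTop
      (𝓝 ((d.A' x₀)ᴴ * d.A x₀ + (d.A x₀)ᴴ * d.A' x₀)) :=
    ((((A'_cont hd).matrix_conjTranspose.matrix_mul (A_cont hd)).add
      ((A_cont hd).matrix_conjTranspose.matrix_mul (A'_cont hd))).tendsto x₀).comp hxt
  exact ((tendsto_rtr_mul ((hw.mul ha).mul hw) (hNt.sub hBt)).sub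
    (tendsto_rtr_mul (hNt.mul hNt) (R_tendsto hd hD hD₀ hDt hxt))).sub
    (src_tendsto hd hD hD₀ hDt hxt)

end seq

theorem src_cont (hd : d.Ok) {D : Mat n} (hD : 0 ≤ D) : Continuous (d.src D) :=
  continuous_iff_seqContinuous.2 fun _u _x₀ hu =>
    src_tendsto hd (fun _ => hD) hD tendsto_const_nhds hu

theorem rtr_mul_deriv {F : ℝ → Mat n} {F' : Mat n} {x : ℝ}
    (h : ∀ i j, HasDerivAt (fun y => F y i j) (F' i j) x) (P : Mat n) :
    HasDerivAt (fun y => rtr (P * F y)) (rtr (P * F')) x := by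
  simp only [rtr_mul_eq]
  exact HasDerivAt.fun_sum fun i _ => HasDerivAt.fun_sum fun j _ =>
    Complex.reCLM.hasFDerivAt.comp_hasDerivAt x ((h j i).const_mul (P i j))

theorem R_hasDeriv (hd : d.Ok) (D : Mat n) (x : ℝ) (P : Mat n) :
    HasDerivAt (fun y => rtr (P * d.R D y)) (rtr (P * wDen' D (d.A x) (d.A' x))) x := by
  have e : ∀ Y : Mat n, rtr (P * (msqrt D * Y * msqrt D))
      = rtr ((msqrt D * P * msqrt D) * Y) := fun Y => by
    rw [← Matrix.mul_assoc P, rtr_mul_comm, ← Matrix.mul_assoc, ← Matrix.mul_assoc]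
  simp only [R, wDen, wDen', e]
  refine rtr_mul_deriv (fun i j => ?_) _
  simp only [Matrix.mul_apply, Matrix.conjTranspose_apply, Matrix.add_apply,
    ← Finset.sum_add_distrib]
  exact HasDerivAt.fun_sum fun p _ => (hd.hA p i x).star.fun_mul (hd.hA p j x)

theorem X_hasDeriv (hd : d.Ok) (D : Mat n) (x : ℝ) (P : Mat n) :
    HasDerivAt (fun y => rtr (P * d.X D y)) (rtr (P * d.R D x)) x := by
  have e : ∀ Y : Mat n, rtr (P * (msqrt D * Y * msqrt D))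
      = rtr ((msqrt D * P * msqrt D) * Y) := fun Y => by
    rw [← Matrix.mul_assoc P, rtr_mul_comm, ← Matrix.mul_assoc, ← Matrix.mul_assoc]
  simp only [X, R, wDen, Matrix.mul_add, rtr_add, e]
  exact (rtr_mul_deriv (fun i j => gram_hasDeriv hd x i j) _).add_const _

end PData

end Vale.Agent.P371G
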