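import Vale.Agent.P371G.Crit

/-! # The descent path: definitions and the interface of the maximiser -/

namespace Vale.Agent.P371G

open Matrix Filter Topology MeasureTheory
open scoped ComplexOrder MatrixOrder Matrix.Norms.L2Operator
open Vale.Agent.P371M

variable {m n : ℕ}

/-- The properties of `gArg` that the path uses. -/
structure MaxAPI (α : ℝ) : Prop where
  /-- existence -/
  spec : ∀ {n : ℕ} {ε : ℝ} {R X A : Mat n}, 0 < ε → ε ≤ 1 → 0 ≤ R → X.PosDef → 0 ≤ A →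
    GMax α ε R X A (gArg α ε R X A)
  /-- uniqueness -/
  uniq : ∀ {n : ℕ} {ε : ℝ} {R X A M₀ M₁ : Mat n}, 0 < ε → ε ≤ 1 → 0 ≤ R → X.PosDef →
    GMax α ε R X A M₀ → GMax α ε R X A M₁ → M₀ = M₁
  /-- continuity of the maximiser and of the value -/
  tend : ∀ {n : ℕ} {ε : ℝ} {R X A : ℕ → Mat n} {R₀ X₀ A₀ : Mat n}, 0 < ε → ε ≤ 1 →
    (∀ k, 0 ≤ R k) → Tendsto R atTop (𝓝 R₀) → 0 ≤ R₀ →
    (∀ k, (X k).PosDef) → Tendsto X atTop (𝓝 X₀) → X₀.PosDef →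
    (∀ k, 0 ≤ A k) → Tendsto A atTop (𝓝 A₀) → 0 ≤ A₀ →
    Tendsto (fun k => gArg α ε (R k) (X k) (A k)) atTop (𝓝 (gArg α ε R₀ X₀ A₀)) ∧
    Tendsto (fun k => gVal α ε (R k) (X k) (A k)) atTop (𝓝 (gVal α ε R₀ X₀ A₀))
  /-- the value at `A = 0` -/
  zero_le : ∀ {n : ℕ} {ε δ : ℝ} {R X : Mat n}, 0 < ε → ε ≤ 1 → 0 < δ → 0 ≤ R →
    δ • (1 : Mat n) ≤ X → gVal α ε R X 0 ≤ (rtr R + ε * n) ^ 2 / (4 * δ)
  /-- large `A` has very negative value -/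
  large : ∀ {n : ℕ} (δ : ℝ), 0 < δ → ∀ Kr C : ℝ, ∃ Λ : ℝ, ∀ ε ∈ Set.Ioc (0 : ℝ) 1,
    ∀ R X A : Mat n, 0 ≤ R → rtr R ≤ Kr → δ • (1 : Mat n) ≤ X → 0 ≤ A → Λ ≤ rtr A →
    gVal α ε R X A ≤ -C
  /-- bound of the maximiser, uniform in `ε` -/
  level : ∀ {n : ℕ} (δ : ℝ), 0 < δ → ∀ Kr Kx Ka : ℝ, ∃ K : ℝ, ∀ ε ∈ Set.Ioc (0 : ℝ) 1,
    ∀ R X A M : Mat n, 0 ≤ R → rtr R ≤ Kr → δ • (1 : Mat n) ≤ X → rtr X ≤ Kx → 0 ≤ A →
    rtr A ≤ Ka → GMax α ε R X A M → rtr (M * M) ≤ K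
  /-- stationarity along `M + t` -/
  pen_stat : ∀ {n : ℕ} {ε : ℝ} {R X A M : Mat n}, 0 < ε → ε ≤ 1 → 0 ≤ R → X.PosDef →
    GMax α ε R X A M →
    ε * rtr (A * ((2 : ℝ) • M - A)⁻¹ * ((2 : ℝ) • M - A)⁻¹ * A) ≤ rtr (M * X)

/-- The data of the descent. -/
structure PData (m n : ℕ) where
  /-- the exponent -/
  γ : ℝ
  /-- the barrier parameter -/
  ε : ℝ
  /-- the regularisation of the Gram matrix -/
  δ : ℝ
  /-- left endpoint -/
  a : ℝ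
  /-- right endpoint -/
  b : ℝ
  /-- the family -/
  A : ℝ → Matrix (Fin m) (Fin n) ℂ
  /-- its derivative -/
  A' : ℝ → Matrix (Fin m) (Fin n) ℂ

/-- The standing assumptions. -/
structure PData.Ok (d : PData m n) : Prop where
  hγ : d.γ ∈ Set.Ioo (1 / 2 : ℝ) 1
  hε : 0 < d.ε
  hε1 : d.ε ≤ 1
  hδ : 0 < d.δ
  hab : d.a < d.b
  hA : ∀ i j x, HasDerivAt (fun u => d.A u i j) (d.A' x i j) x
  hA' : ∀ i j, Continuous fun u => d.A' u i j

namespace PData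

variable (d : PData m n)

/-- the weighted density -/
noncomputable def R (D : Mat n) (x : ℝ) : Mat n := wDen D (d.A x)

/-- the weighted Gram matrix, regularised -/
noncomputable def X (D : Mat n) (x : ℝ) : Mat n :=
  msqrt D * gramInt d.A d.a x * msqrt D + d.δ • 1

/-- the maximiser -/
noncomputable def M (D : Mat n) (x : ℝ) (B : Mat n) : Mat n :=
  gArg (d.γ - 1 / 2) d.ε (d.R D x) (d.X D x) B

/-- the value -/
noncomputable def V (D : Mat n) (x : ℝ) (B : Mat n) : ℝ :=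
  gVal (d.γ - 1 / 2) d.ε (d.R D x) (d.X D x) B

/-- the gradient -/
noncomputable def G (D : Mat n) (x : ℝ) (B : Mat n) : Mat n :=
  ggrad (d.γ - 1 / 2) d.ε (d.R D x) B (d.M D x B)

/-- the projected gradient direction -/
noncomputable def Z (D : Mat n) (x : ℝ) (B : Mat n) : Mat n := mpos (B - d.G D x B) - B

/-- the source `T - Q` -/
noncomputable def src (D : Mat n) (x : ℝ) : ℝ := wKin D (d.A' x) - wPow d.γ D (d.A x)

/-- the drift -/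
noncomputable def drift (D : Mat n) (t : ℝ) (B N : Mat n) : ℝ :=
  rtr (wDen' D (d.A t) (d.A' t) * (N - B)) - rtr (N * N * d.R D t) - d.src D t

end PData

end Vale.Agent.P371G
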