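import Vale.Agent.P371G.LowDefs
import Vale.Agent.P371G.PsiProps

/-! # Functional calculus through interpolating polynomials: conjugation, commutation, kernels -/

namespace Vale.Agent.P371G

open Matrix MeasureTheory Set Polynomial
open scoped ComplexOrder MatrixOrder

variable {n : ℕ}

/-- A polynomial agreeing with `f` on a given finite set. -/
theorem exists_poly (f : ℝ → ℝ) (S : Finset ℝ) : ∃ p : ℝ[X], ∀ x ∈ S, p.eval x = f x :=
  ⟨Lagrange.interpolate S id f, fun _ hx => Lagrange.eval_interpolate_at_node f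
    (Function.injective_id.injOn) hx⟩

theorem fc_eq_aeval {A : Mat n} (hA : A.IsHermitian) {f : ℝ → ℝ} {p : ℝ[X]}
    (h : ∀ x ∈ spectrum ℝ A, p.eval x = f x) : fc f A = aeval A p := by
  rw [← cfc_polynomial (R := ℝ) p A hA]
  exact cfc_congr fun x hx => (h x hx).symm

theorem exists_poly_two (f : ℝ → ℝ) {A B : Mat n} (hA : A.IsHermitian) (hB : B.IsHermitian)
    (c : ℝ) : ∃ p : ℝ[X], fc f A = aeval A p ∧ fc f B = aeval B p ∧ p.eval c = f c := by
  classical
  obtain ⟨p, hp⟩ := exists_poly f (insert c ((Matrix.finite_real_spectrum (A := A)).toFinset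
    ∪ (Matrix.finite_real_spectrum (A := B)).toFinset))
  exact ⟨p, fc_eq_aeval hA fun x hx => hp x (by simp [hx]),
    fc_eq_aeval hB fun x hx => hp x (by simp [hx]), hp c (by simp)⟩

/-- Conjugation by a unitary. -/
theorem fc_conj {U X : Mat n} (hU : Uᴴ * U = 1) (hU' : U * Uᴴ = 1) (hX : X.IsHermitian)
    (f : ℝ → ℝ) : fc f (U * X * Uᴴ) = U * fc f X * Uᴴ := by
  obtain ⟨p, h1, h2, -⟩ := exists_poly_two f
    (Matrix.isHermitian_mul_mul_conjTranspose U hX) hX 0
  rw [h1, h2]
  clear h1 h2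
  induction p using Polynomial.induction_on' with
  | add p q hp hq => simp [hp, hq, Matrix.mul_add, Matrix.add_mul]
  | monomial k a =>
    simp only [aeval_monomial, ← Algebra.smul_def, Matrix.mul_smul, Matrix.smul_mul]
    congr 1
    induction k with
    | zero => simp [hU']
    | succ k ih =>
      rw [pow_succ, ih, pow_succ]
      calc U * X ^ k * Uᴴ * (U * X * Uᴴ) = U * X ^ k * (Uᴴ * U) * X * Uᴴ := by
            simp only [Matrix.mul_assoc]
        _ = _ := by rw [hU, Matrix.mul_one, Matrix.mul_assoc U]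

theorem fc_comm {X P : Mat n} (hX : X.IsHermitian) (h : X * P = P * X) (f : ℝ → ℝ) :
    fc f X * P = P * fc f X := by
  obtain ⟨p, h1, -, -⟩ := exists_poly_two f hX hX 0
  rw [h1]
  clear h1
  induction p using Polynomial.induction_on' with
  | add p q hp hq => simp [hp, hq, Matrix.mul_add, Matrix.add_mul]
  | monomial k a =>
    simp only [aeval_monomial, ← Algebra.smul_def, Matrix.mul_smul, Matrix.smul_mul]
    rw [(Commute.pow_left h k).eq]

theorem fc_mul_congr {X Z P : Mat n} (hX : X.IsHermitian) (hZ : Z.IsHermitian)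
    (_hXP : X * P = P * X) (hZP : Z * P = P * Z) (h : X * P = Z * P) (f : ℝ → ℝ) :
    fc f X * P = fc f Z * P := by
  obtain ⟨p, h1, h2, -⟩ := exists_poly_two f hX hZ 0
  rw [h1, h2]
  clear h1 h2
  induction p using Polynomial.induction_on' with
  | add p q hp hq => simp [hp, hq, Matrix.add_mul]
  | monomial k a =>
    simp only [aeval_monomial, ← Algebra.smul_def, Matrix.smul_mul]
    congr 1
    induction k with
    | zero => simp
    | succ k ih =>
      rw [pow_succ, pow_succ, Matrix.mul_assoc, h, hZP, ← Matrix.mul_assoc, ih, Matrix.mul_assoc,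
        ← hZP, ← Matrix.mul_assoc]

theorem fc_mul_kernel {X P : Mat n} (hX : X.IsHermitian) (h : X * P = 0) {f : ℝ → ℝ}
    (hf : f 0 = 0) : fc f X * P = 0 := by
  obtain ⟨p, h1, -, h0⟩ := exists_poly_two f hX hX 0
  rw [h1]
  have key : ∀ q : ℝ[X], aeval X q * P = q.eval 0 • P := by
    intro q
    induction q using Polynomial.induction_on' with
    | add p q hp hq => simp [hp, hq, Matrix.add_mul, add_smul]
    | monomial k a =>
      simp only [aeval_monomial, ← Algebra.smul_def, Matrix.smul_mul, eval_monomial]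
      rcases k with _ | k
      · simp
      · simp [pow_succ, Matrix.mul_assoc, h]
  rw [key, h0, hf, zero_smul]

section conj

variable {U : Mat n} (hU : Uᴴ * U = 1) (hU' : U * Uᴴ = 1)
include hU

theorem conj_mul (A B : Mat n) : U * A * Uᴴ * (U * B * Uᴴ) = U * (A * B) * Uᴴ := by
  calc U * A * Uᴴ * (U * B * Uᴴ) = U * A * (Uᴴ * U) * B * Uᴴ := by simp only [Matrix.mul_assoc]
    _ = _ := by rw [hU, Matrix.mul_one, Matrix.mul_assoc U]

theorem rtr_conj (A : Mat n) : rtr (U * A * Uᴴ) = rtr A := by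
  rw [rtr_mul_comm, ← Matrix.mul_assoc, hU, Matrix.one_mul]

include hU'

theorem breg_conj {X Y : Mat n} (hX : X.IsHermitian) (hY : Y.IsHermitian) :
    breg (U * X * Uᴴ) (U * Y * Uᴴ) = breg X Y := by
  simp only [breg, fc_conj hU hU' hX, fc_conj hU hU' hY, rtr_conj hU, ← Matrix.sub_mul,
    ← Matrix.mul_sub, conj_mul hU]

theorem LM_conj {M : Mat n} (hM : M.IsHermitian) (s : ℝ) :
    LM s (U * M * Uᴴ) = U * LM s M * Uᴴ := by
  rw [LM, LM, conj_mul hU, ← fc_conj hU hU' (by rw [sq_add_eq hM]; exact fc_herm _ _)]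
  congr 1
  rw [Matrix.mul_add, Matrix.add_mul, Matrix.mul_smul, Matrix.smul_mul, Matrix.mul_one, hU']

theorem HH_conj {A M : Mat n} (hA : A.IsHermitian) (hM : M.IsHermitian) (s : ℝ) :
    HH s (U * A * Uᴴ) (U * M * Uᴴ) = HH s A M := by
  simp only [HH, cM, dM, LM_conj hU hU' hM, ← Matrix.sub_mul, ← Matrix.mul_sub, ← Matrix.add_mul,
    ← Matrix.mul_add]
  have hc : (LM s M - M).IsHermitian := (LM_herm hM s).sub hM
  have hd : (LM s M + M).IsHermitian := (LM_herm hM s).add hM
  rw [breg_conj hU hU' (hc.add hA) hc, breg_conj hU hU' (hd.sub hA) hd]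

theorem Psi_conj (α : ℝ) {A M : Mat n} (h : Adm A M) :
    Psi α (U * A * Uᴴ) (U * M * Uᴴ) = Psi α A M := by
  simp only [Psi, HH_conj hU hU' h.herm h.posDef.1]

theorem lndet_conj {X : Mat n} (hX : X.IsHermitian) : lndet (U * X * Uᴴ) = lndet X := by
  rw [lndet, lndet, fc_conj hU hU' hX, rtr_conj hU]

omit hU in
theorem inv_conj (hU : Uᴴ * U = 1) (X : Mat n) : (U * X * Uᴴ)⁻¹ = U * X⁻¹ * Uᴴ := by
  rw [Matrix.mul_inv_rev, Matrix.mul_inv_rev, Matrix.inv_eq_left_inv hU,
    Matrix.inv_eq_left_inv hU', ← Matrix.mul_assoc]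

theorem pen_conj (A M : Mat n) : pen (U * A * Uᴴ) (U * M * Uᴴ) = pen A M := by
  have e : (2 : ℝ) • (U * M * Uᴴ) - U * A * Uᴴ = U * ((2 : ℝ) • M - A) * Uᴴ := by
    simp [Matrix.mul_sub, Matrix.sub_mul]
  rw [pen, pen, e, inv_conj hU' hU, conj_mul hU, conj_mul hU, rtr_conj hU]

end conj

/-- The gradient vanishes on the common kernel. -/
theorem Rhat_mul_kernel {α : ℝ} (hα : α ∈ Ioo (0 : ℝ) 1) {A M P : Mat n} (h : Adm A M)
    (hP : P.IsHermitian) (hAP : A * P = 0) (hMP : M * P = P * M) : Rhat α A M * P = 0 := by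
  have hM := h.posDef.1
  have hPA : P * A = 0 := by
    simpa [hP.eq, h.herm.eq] using congrArg Matrix.conjTranspose hAP
  have key : ∀ s ∈ Ioi (0 : ℝ), Lam s A M * P = 0 := by
    intro s hs
    have hs : 0 < s := hs
    have hL : LM s M * P = P * LM s M := by
      rw [LM_eq hM]; exact fc_comm hM hMP _
    have hc : cM s M * P = P * cM s M := by
      rw [cM, Matrix.sub_mul, Matrix.mul_sub, hL, hMP]
    have hd : dM s M * P = P * dM s M := by
      rw [dM, Matrix.add_mul, Matrix.mul_add, hL, hMP]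
    have e1 : (cM s M + A) * P = cM s M * P := by rw [Matrix.add_mul, hAP, add_zero]
    have e2 : (dM s M - A) * P = dM s M * P := by rw [Matrix.sub_mul, hAP, sub_zero]
    have f1 := fc_mul_congr ((cM_herm hM s).add h.herm) (cM_herm hM s)
      (by rw [e1, Matrix.mul_add, hPA, add_zero, hc]) hc e1 Real.log
    have f2 := fc_mul_congr ((dM_herm hM s).sub h.herm) (dM_herm hM s)
      (by rw [e2, Matrix.mul_sub, hPA, sub_zero, hd]) hd e2 Real.log
    have e3 : fc Real.log (cM s M) + fc Real.log (dM s M) = Real.log s • (1 : Mat n) := by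
      rw [cM_eq hM, dM_eq hM, fc_comp hM, fc_comp hM, fc_add, ← fc_const hM (Real.log s)]
      refine fc_congr hM fun i => ?_
      set x := hM.eigenvalues i
      have h1 := sqrt_gt hs x
      have h2 := le_abs_self x
      have h3 := neg_abs_le x
      rw [← Real.log_mul (by linarith) (by linarith)]
      congr 1
      have := Real.mul_self_sqrt (show 0 ≤ x ^ 2 + s by positivity)
      linear_combination this
    rw [Lam, Matrix.sub_mul, Matrix.add_mul, f1, f2, ← Matrix.add_mul, e3, sub_self]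
  ext i j
  simp only [Matrix.mul_apply, Rhat, Matrix.of_apply, Matrix.zero_apply, mul_assoc,
    ← integral_mul_const]
  rw [← Finset.mul_sum, ← integral_finsetSum _ fun k _ =>
    ((Lam_integrable hα h i k).mul_const (P k j)).congr
      (Filter.Eventually.of_forall fun s => by simp [mul_assoc])]
  refine mul_eq_zero_of_right _ (setIntegral_eq_zero_of_forall_eq_zero fun s hs => ?_)
  rw [← Finset.mul_sum, ← Matrix.mul_apply, key s hs, Matrix.zero_apply, mul_zero]

end Vale.Agent.P371G
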