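import Vale.Agent.P371G.PathBase
import Vale.Agent.P371G.Poly

/-! # The descent path: one step -/

namespace Vale.Agent.P371G

open Matrix Filter Topology MeasureTheory
open scoped ComplexOrder MatrixOrder Matrix.Norms.L2Operator
open Vale.Agent.P371M

variable {m n : ℕ}

namespace PData

variable {d : PData m n}

theorem bounds_RX (hd : d.Ok) (Λ : ℝ) : ∃ Kr Kx : ℝ, ∀ D : Mat n, ∀ x, d.Pt D x → rtr D ≤ Λ →
    rtr (d.R D x) ≤ Kr ∧ rtr (d.X D x) ≤ Kx := by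
  have h1 : Continuous fun x => rtr ((d.A x)ᴴ * d.A x) :=
    rtr_continuous.comp ((A_cont hd).matrix_conjTranspose.matrix_mul (A_cont hd))
  obtain ⟨c, hc⟩ := (isCompact_Icc (a := d.a) (b := d.b)).bddAbove_image h1.continuousOn
  obtain ⟨g, hg⟩ := (isCompact_Icc (a := d.a) (b := d.b)).bddAbove_image
    (rtr_continuous.comp (gram_cont hd)).continuousOn
  refine ⟨max c 0 * max Λ 0, max g 0 * max Λ 0 + d.δ * n, fun D x h hΛ => ⟨?_, ?_⟩⟩
  · rw [R, ← wKin_eq h.1, wKin]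
    have hρ := (posSemidef_conjTranspose_mul_self (d.A x)).nonneg
    refine (rtr_mul_le_rtr h.1 hρ).trans ?_
    exact mul_le_mul ((hc ⟨x, h.2, rfl⟩).trans (le_max_left _ _)) (hΛ.trans (le_max_left _ _))
      (rtr_nonneg h.1) (le_max_right _ _)
  · rw [X, rtr_add, rtr_smul, rtr_one, rtr_mul_comm, ← Matrix.mul_assoc, msqrt_mul_self h.1]
    refine add_le_add ((rtr_mul_le_rtr h.1 (gram_nonneg hd h.2.1)).trans ?_) le_rfl
    exact mul_le_mul ((hg ⟨x, h.2, rfl⟩).trans (le_max_left _ _)) (hΛ.trans (le_max_left _ _))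
      (rtr_nonneg h.1) (le_max_right _ _)

theorem ok_setEps (hd : d.Ok) {ε : ℝ} (hε : 0 < ε) (hε1 : ε ≤ 1) :
    PData.Ok { d with ε := ε } :=
  ⟨hd.hγ, hε, hε1, hd.hδ, hd.hab, hd.hA, hd.hA'⟩

/-- At critical points the drift is `O(√ε)`, uniformly. -/
theorem drift_crit (hd0 : d.Ok) (hM : MaxAPI (d.γ - 1 / 2)) (Λ Λ2 : ℝ) :
    ∃ C : ℝ, ∀ ε ∈ Set.Ioc (0 : ℝ) 1, ∀ D : Mat n, ∀ x, d.Pt D x → rtr D ≤ Λ →
      ∀ B ∈ psdBall n Λ2, PData.Z { d with ε := ε } D x B = 0 →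
        PData.drift { d with ε := ε } D x B (PData.M { d with ε := ε } D x B)
          ≤ C * Real.sqrt ε := by
  obtain ⟨Kr, Kx, hRX⟩ := bounds_RX hd0 Λ
  obtain ⟨K, hK⟩ := hM.level (n := n) d.δ hd0.hδ Kr Kx Λ2
  set KM := Real.sqrt K + 1 with hKM
  have hKM1 : 1 ≤ KM := le_add_of_nonneg_left (Real.sqrt_nonneg _)
  have hf : Continuous fun p : Mat n × Mat n => rtr (((2 : ℝ) • Cm p.1 p.2 + p.1 * p.1) *
      ((2 : ℝ) • Cm p.1 p.2 + p.1 * p.1)) := by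
    unfold Cm rtr; fun_prop
  obtain ⟨Kh, hKh⟩ := ((isCompact_psdBall (n := n) Λ2).prod
    (isCompact_psdBall (n := n) (n * KM))).bddAbove_image hf.continuousOn
  set Kr' := (n : ℝ) * |rhatW (d.γ - 1 / 2) KM| with hKr'
  set q := (d.γ + 1 / 2) / (d.γ - 1 / 2) with hq
  refine ⟨(KM * max Kx 0 + max Kh 0) / 2 + |n * (q * (Kr' + 1) ^ (q - 1))|,
    fun ε hε D x hP hΛ B hB hZ => ?_⟩
  set d' : PData m n := { d with ε := ε }
  have hd : d'.Ok := ok_setEps hd0 hε.1 hε.2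
  have hP' : d'.Pt D x := hP
  obtain ⟨hR', hX'⟩ := hRX D x hP hΛ
  have hspec : GMax (d.γ - 1 / 2) ε (d.R D x) (d.X D x) B (d'.M D x B) :=
    M_spec hd hM hP' hB.1
  set M := d'.M D x B with hMdef
  have hadm := adm_of_gdom hspec.1
  have hMM := hK ε hε _ _ _ _ (R_nonneg D x) hR' (X_ge hd0 hP.2.1) hX' hB.1 hB.2 hspec
  have hMle : M ≤ KM • (1 : Mat n) := (le_sqrt_smul_one hadm.posDef.1).trans
    (smul_one_mono ((Real.sqrt_le_sqrt hMM).trans (le_add_of_nonneg_right zero_le_one)))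
  have hMball : M ∈ psdBall n (n * KM) := by
    refine ⟨hadm.posDef.posSemidef.nonneg, (rtr_mono hMle).trans_eq ?_⟩
    rw [rtr_smul, rtr_one, mul_comm]
  have hX0 : 0 ≤ d.X D x := (X_pos hd0 hP.2.1).posSemidef.nonneg
  have hp : ε * rtr (B * ((2 : ℝ) • M - B)⁻¹ * ((2 : ℝ) • M - B)⁻¹ * B) ≤ KM * max Kx 0 := by
    refine (hM.pen_stat hε.1 hε.2 (R_nonneg D x) (X_pos hd0 hP.2.1) hspec).trans ?_
    rw [rtr_mul_comm]
    refine (rtr_mul_le_left hX0 hMle).trans ?_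
    rw [Matrix.mul_smul, Matrix.mul_one, rtr_smul]
    exact mul_le_mul_of_nonneg_left (hX'.trans (le_max_left _ _)) (by linarith)
  have hh : rtr (((2 : ℝ) • Cm B M + B * B) * ((2 : ℝ) • Cm B M + B * B)) ≤ max Kh 0 :=
    (hKh ⟨(B, M), ⟨hB, hMball⟩, rfl⟩).trans (le_max_left _ _)
  have hGh : (d'.G D x B).IsHermitian := G_herm hd hM hP' hB.1
  have hproj : mpos (B - d'.G D x B) = B := sub_eq_zero.1 hZ
  obtain ⟨hG, hGB⟩ := crit_of_proj hB.1 hGh hproj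
  have hcb := crit_bound (Kr := Kr') hd0.hγ hε.1 hε.2 (R_nonneg (d := d) D x) hspec.1 hG hGB
    (by positivity) (Rhat_le (alpha_mem hd0) hadm hKM1 hMle) hp hh
  have hdr := drift_le (γ := d.γ) hP.1 (d.A x) (d.A' x) (A := B) (M := M)
    (hadm.posDef.1.sub (herm_of_nonneg hB.1))
  have hsε : ε ≤ Real.sqrt ε := by
    have h1 : Real.sqrt ε ≤ 1 := by rw [Real.sqrt_le_one]; exact hε.2
    nlinarith [Real.mul_self_sqrt hε.1.le, Real.sqrt_nonneg ε]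
  have h2 := mul_le_mul_of_nonneg_left hsε (abs_nonneg ((n : ℝ) * (q * (Kr' + 1) ^ (q - 1))))
  have h3 := mul_le_mul_of_nonneg_right (le_abs_self ((n : ℝ) * (q * (Kr' + 1) ^ (q - 1)))) hε.1.le
  simp only [drift, src, R] at hdr hcb ⊢
  linarith

/-- The drift is controlled by the projected gradient. -/
theorem drift_quad (hd : d.Ok) (hM : MaxAPI (d.γ - 1 / 2)) {Λ Λ2 τ : ℝ} (hτ : 0 < τ)
    (hc : ∀ D : Mat n, ∀ x, d.Pt D x → rtr D ≤ Λ → ∀ B ∈ psdBall n Λ2, d.Z D x B = 0 →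
      d.drift D x B (d.M D x B) ≤ τ) :
    ∃ K > (0 : ℝ), ∀ D : Mat n, ∀ x, d.Pt D x → rtr D ≤ Λ → ∀ B ∈ psdBall n Λ2,
      d.drift D x B (d.M D x B) ≤ 2 * τ + K * rtr (d.Z D x B * d.Z D x B) := by
  by_contra h
  push Not at h
  choose D x hP hΛ B hB hgt using fun k : ℕ => h (k + 1) (by positivity)
  obtain ⟨⟨D₀, x₀, B₀⟩, ⟨hD₀, hx₀, hB₀⟩, φ, hφ, hlim⟩ :=
    ((isCompact_psdBall (n := n) Λ).prod ((isCompact_Icc (a := d.a) (b := d.b)).prod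
      (isCompact_psdBall (n := n) Λ2))).tendsto_subseq (x := fun k => (D k, x k, B k))
      fun k => ⟨⟨(hP k).1, hΛ k⟩, (hP k).2, hB k⟩
  have hDt : Tendsto (fun k => D (φ k)) atTop (𝓝 D₀) := hlim.fst_nhds
  have hxt : Tendsto (fun k => x (φ k)) atTop (𝓝 x₀) := hlim.snd_nhds.fst_nhds
  have hBt : Tendsto (fun k => B (φ k)) atTop (𝓝 B₀) := hlim.snd_nhds.snd_nhds
  have hP₀ : d.Pt D₀ x₀ := ⟨hD₀.1, hx₀⟩
  have hMt := (M_tendsto hd hM (fun k => hP (φ k)) hP₀ (fun k => (hB (φ k)).1) hB₀.1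
    hDt hxt hBt).1
  have hZt := Z_tendsto hd hM (fun k => hP (φ k)) hP₀ (fun k => (hB (φ k)).1) hB₀.1 hDt hxt hBt
  have hdt := drift_tendsto hd (fun k => (hP (φ k)).1) hD₀.1 hDt hxt hBt hMt
  set z : ℕ → ℝ := fun k => rtr (d.Z (D (φ k)) (x (φ k)) (B (φ k)) *
    d.Z (D (φ k)) (x (φ k)) (B (φ k))) with hz
  have hz0 : ∀ k, 0 ≤ z k := fun k => rtr_sq_nonneg
    ((fc_herm _ _).sub (herm_of_nonneg (hB (φ k)).1))
  obtain ⟨L, hL⟩ := hdt.bddAbove_range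
  have hzt : Tendsto z atTop (𝓝 0) := by
    have h2 : Tendsto (fun k => (L - 2 * τ) / ((φ k : ℝ) + 1)) atTop (𝓝 0) := by
      have h3 : Tendsto (fun k : ℕ => (L - 2 * τ) / ((k : ℝ) + 1)) atTop (𝓝 0) :=
        tendsto_const_nhds.div_atTop
          (tendsto_atTop_add_const_right _ _ tendsto_natCast_atTop_atTop)
      exact h3.comp hφ.tendsto_atTop
    refine squeeze_zero hz0 (fun k => ?_) h2
    rw [le_div_iff₀ (by positivity)]
    have := hgt (φ k)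
    have := hL ⟨k, rfl⟩
    simp only [hz]
    linarith
  have hZ0 : d.Z D₀ x₀ B₀ = 0 := by
    have h1 := tendsto_nhds_unique (tendsto_rtr_mul hZt hZt) hzt
    have hH : (d.Z D₀ x₀ B₀).IsHermitian := (fc_herm _ _).sub (herm_of_nonneg hB₀.1)
    ext i j
    have h2 := norm_entry_le hH i j
    rw [h1, Real.sqrt_zero, norm_le_zero_iff] at h2
    simpa using h2
  have h4 := hc D₀ x₀ hP₀ hD₀.2 B₀ hB₀ hZ0
  have h5 : 2 * τ ≤ d.drift D₀ x₀ B₀ (d.M D₀ x₀ B₀) :=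
    ge_of_tendsto' hdt fun k => (le_add_of_nonneg_right
      (mul_nonneg (by positivity) (hz0 k))).trans (hgt (φ k)).le
  linarith

/-- One step of the discretised descent. -/
theorem step_le (hd : d.Ok) (hM : MaxAPI (d.γ - 1 / 2)) {Λ Λ2 τ K : ℝ} (hτ : 0 < τ)
    (hK : 0 < K)
    (hquad : ∀ D : Mat n, ∀ x, d.Pt D x → rtr D ≤ Λ → ∀ B ∈ psdBall n Λ2,
      d.drift D x B (d.M D x B) ≤ 2 * τ + K * rtr (d.Z D x B * d.Z D x B)) :
    ∃ Δ₀ > (0 : ℝ), ∀ Δ ∈ Set.Ioc 0 Δ₀, ∀ D : Mat n, ∀ x, d.Pt D x → d.Pt D (x + Δ) →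
      rtr D ≤ Λ → ∀ B ∈ psdBall n Λ2, B + (K * Δ) • d.Z D x B ∈ psdBall n Λ2 →
      d.V D (x + Δ) (B + (K * Δ) • d.Z D x B) - d.V D x B - (∫ t in x..x + Δ, d.src D t)
        ≤ 3 * τ * Δ := by
  by_contra h
  push Not at h
  choose Δ hΔ D x hP hP' hΛ B hB hB' hgt using fun k : ℕ => h (1 / (k + 1)) (by positivity)
  obtain ⟨⟨D₀, x₀, B₀⟩, ⟨hD₀, hx₀, hB₀⟩, φ, hφ, hlim⟩ :=
    ((isCompact_psdBall (n := n) Λ).prod ((isCompact_Icc (a := d.a) (b := d.b)).prod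
      (isCompact_psdBall (n := n) Λ2))).tendsto_subseq (x := fun k => (D k, x k, B k))
      fun k => ⟨⟨(hP k).1, hΛ k⟩, (hP k).2, hB k⟩
  have hDt : Tendsto (fun k => D (φ k)) atTop (𝓝 D₀) := hlim.fst_nhds
  have hxt : Tendsto (fun k => x (φ k)) atTop (𝓝 x₀) := hlim.snd_nhds.fst_nhds
  have hBt : Tendsto (fun k => B (φ k)) atTop (𝓝 B₀) := hlim.snd_nhds.snd_nhds
  have hP₀ : d.Pt D₀ x₀ := ⟨hD₀.1, hx₀⟩
  have hΔt : Tendsto (fun k => Δ (φ k)) atTop (𝓝 0) :=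
    (squeeze_zero (fun k => (hΔ k).1.le) (fun k => (hΔ k).2)
      tendsto_one_div_add_atTop_nhds_zero_nat).comp hφ.tendsto_atTop
  have hD0 : ∀ k, 0 ≤ D (φ k) := fun k => (hP (φ k)).1
  have hx't : Tendsto (fun k => x (φ k) + Δ (φ k)) atTop (𝓝 x₀) := by
    simpa using hxt.add hΔt
  have hZt := Z_tendsto hd hM (fun k => hP (φ k)) hP₀ (fun k => (hB (φ k)).1) hB₀.1 hDt hxt hBt
  have hB't : Tendsto (fun k => B (φ k) + (K * Δ (φ k)) • d.Z (D (φ k)) (x (φ k)) (B (φ k)))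
      atTop (𝓝 B₀) := by
    simpa using hBt.add ((hΔt.const_mul K).smul hZt)
  set N : ℕ → Mat n := fun k => d.M (D k) (x k + Δ k) (B k + (K * Δ k) • d.Z (D k) (x k) (B k))
    with hN
  have hspec' : ∀ k, GMax (d.γ - 1 / 2) d.ε (d.R (D k) (x k + Δ k)) (d.X (D k) (x k + Δ k))
      (B k + (K * Δ k) • d.Z (D k) (x k) (B k)) (N k) := fun k =>
    M_spec hd hM (hP' k) (hB' k).1
  have hNh : ∀ k, (N k).IsHermitian := fun k => (adm_of_gdom (hspec' k).1).posDef.1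
  have hNt : Tendsto (fun k => N (φ k)) atTop (𝓝 (d.M D₀ x₀ B₀)) :=
    (M_tendsto hd hM (fun k => hP' (φ k)) hP₀ (fun k => (hB' (φ k)).1) hB₀.1
      hDt hx't hB't).1
  have hd₀ := (M_spec hd hM hP₀ hB₀.1).1
  obtain ⟨k₀, hk₀⟩ := eventually_atTop.1 (eventually_posDef_seq hd₀.2
    (fun k => (smul_herm (hNh (φ k)) 2).sub (herm_of_nonneg (hB (φ k)).1))
    ((hNt.const_smul (2 : ℝ)).sub hBt))
  set ψ : ℕ → ℕ := fun k => φ (k + k₀) with hψ
  have sh : ∀ {α : Type} [TopologicalSpace α] {f : ℕ → α} {l : α},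
      Tendsto (fun k => f (φ k)) atTop (𝓝 l) → Tendsto (fun k => f (ψ k)) atTop (𝓝 l) :=
    fun hf => (tendsto_add_atTop_iff_nat (f := fun k => _) k₀).2 hf
  have hGd : ∀ k, GDom (B (ψ k)) (N (ψ k)) := fun k =>
    ⟨(hB (ψ k)).1, hk₀ _ (Nat.le_add_left _ _)⟩
  set Z : ℕ → Mat n := fun k => d.Z (D k) (x k) (B k) with hZdef
  have hex : ∀ k, ∃ t ∈ Set.Icc (x (ψ k)) (x (ψ k) + Δ (ψ k)), ∃ s ∈ Set.Icc (0 : ℝ) 1,
      3 * τ < d.drift (D (ψ k)) t (B (ψ k) + (K * Δ (ψ k)) • Z (ψ k)) (N (ψ k)) + K *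
        (rtr (Z (ψ k) * Rhat (d.γ - 1 / 2) (B (ψ k) + s • ((K * Δ (ψ k)) • Z (ψ k))) (N (ψ k)))
          - rtr (Z (ψ k) * d.R (D (ψ k)) (x (ψ k)))
          - d.ε * rtr (Z (ψ k) * penGrad (B (ψ k)) (N (ψ k)))) := by
    intro k
    set j := ψ k
    set e := K * Δ j with he
    set D₁ := D j
    set B₁ := B j
    set B₂ := B₁ + e • Z j with hB₂
    set M₂ := N j
    have hΔp : 0 < Δ j := (hΔ j).1
    have hg : GDom B₁ M₂ := hGd k
    have hg' : GDom B₂ M₂ := (hspec' j).1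
    have hZh : (Z j).IsHermitian := (fc_herm _ _).sub (herm_of_nonneg (hB j).1)
    set f : ℝ → ℝ := fun t => rtr ((M₂ - B₂) * d.R D₁ t) - rtr (M₂ * M₂ * d.X D₁ t)
      - ∫ u in d.a..t, d.src D₁ u with hf
    have hsc := src_cont hd (hP j).1
    have hfd : ∀ t, HasDerivAt f (d.drift D₁ t B₂ M₂) t := fun t => by
      refine (((R_hasDeriv hd D₁ t (M₂ - B₂)).sub (X_hasDeriv hd D₁ t (M₂ * M₂))).sub
        ((hsc.integral_hasStrictDerivAt d.a t).hasDerivAt)).congr_deriv ?_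
      rw [drift, rtr_mul_comm (wDen' _ _ _)]
    obtain ⟨t, ht, ht'⟩ := exists_hasDerivAt_eq_slope f (fun t => d.drift D₁ t B₂ M₂)
      (show x j < x j + Δ j by linarith)
      (fun u _ => (hfd u).continuousAt.continuousWithinAt) (fun u _ => hfd u)
    rw [add_sub_cancel_left, eq_div_iff hΔp.ne'] at ht'
    obtain ⟨s, hs, hs'⟩ := psi_segment (alpha_mem hd) hg hg' (smul_herm hZh e)
    refine ⟨t, Set.Ioo_subset_Icc_self ht, s, hs, ?_⟩
    have hpen := pen_gradient_le (herm_of_nonneg (hB j).1) (smul_herm hZh e) hg.2 hg'.2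
    have hle : gpot (d.γ - 1 / 2) d.ε (d.R D₁ (x j)) (d.X D₁ (x j)) B₁ M₂ ≤ d.V D₁ (x j) B₁ :=
      (M_spec hd hM (hP j) (hB j).1).2 _ hg
    have heq : d.V D₁ (x j + Δ j) B₂
        = gpot (d.γ - 1 / 2) d.ε (d.R D₁ (x j + Δ j)) (d.X D₁ (x j + Δ j)) B₂ M₂ := rfl
    have hint : (∫ u in d.a..x j + Δ j, d.src D₁ u) - (∫ u in d.a..x j, d.src D₁ u)
        = ∫ u in x j..x j + Δ j, d.src D₁ u :=
      intervalIntegral.integral_interval_sub_left (hsc.intervalIntegrable _ _)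
        (hsc.intervalIntegrable _ _)
    have hgt' : 3 * τ * Δ j < d.V D₁ (x j + Δ j) B₂ - d.V D₁ (x j) B₁
        - ∫ u in x j..x j + Δ j, d.src D₁ u := hgt j
    have c1 : ∀ t, rtr (d.R D₁ t * (M₂ - B₂)) = rtr ((M₂ - B₂) * d.R D₁ t) := fun t =>
      rtr_mul_comm _ _
    have c2 : rtr (d.R D₁ (x j) * (M₂ - B₁)) - rtr (d.R D₁ (x j) * (M₂ - B₂))
        = e * rtr (Z j * d.R D₁ (x j)) := by
      rw [← rtr_sub, ← Matrix.mul_sub, hB₂, show M₂ - B₁ - (M₂ - (B₁ + e • Z j)) = e • Z j by abel,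
        Matrix.mul_smul, rtr_smul, rtr_mul_comm]
    have hpen' := mul_le_mul_of_nonneg_left hpen hd.hε.le
    rw [Matrix.smul_mul, rtr_smul] at hs' hpen'
    simp only [hf, ← c1] at ht'
    simp only [gpot] at hle
    rw [heq] at hgt'
    simp only [gpot] at hgt'
    refine lt_of_mul_lt_mul_of_nonneg_right (lt_of_lt_of_le hgt' ?_) hΔp.le
    simp only [← hB₂] at *
    rw [he] at c2 hs' hpen'
    nlinarith
  choose t ht s hs hlt using hex
  have htt : Tendsto t atTop (𝓝 x₀) :=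
    tendsto_of_tendsto_of_tendsto_of_le_of_le (sh hxt) (sh (f := fun j => x j + Δ j) hx't)
      (fun k => (ht k).1) fun k => (ht k).2
  have hZ' : Tendsto (fun k => Z (ψ k)) atTop (𝓝 (d.Z D₀ x₀ B₀)) := sh (f := Z) hZt
  have hst : Tendsto (fun k => s k • ((K * Δ (ψ k)) • Z (ψ k))) atTop (𝓝 0) := by
    have h2 : Tendsto (fun k => s k * (K * Δ (ψ k))) atTop (𝓝 0) := by
      refine squeeze_zero (fun k => mul_nonneg (hs k).1 (mul_nonneg hK.le (hΔ _).1.le))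
        (fun k => mul_le_of_le_one_left (mul_nonneg hK.le (hΔ _).1.le) (hs k).2) ?_
      simpa using (sh hΔt).const_mul K
    simpa [smul_smul] using h2.smul hZ'
  have hRh : Tendsto (fun k => Rhat (d.γ - 1 / 2) (B (ψ k) + s k • ((K * Δ (ψ k)) • Z (ψ k)))
      (N (ψ k))) atTop (𝓝 (Rhat (d.γ - 1 / 2) B₀ (d.M D₀ x₀ B₀))) := by
    refine Rhat_tendsto (alpha_mem hd) (fun k => ?_) (adm_of_gdom hd₀)
      (by simpa using (sh hBt).add hst) (sh (f := N) hNt)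
    refine adm_of_gdom ⟨?_, ?_⟩
    · refine (add_nonneg (smul_nonneg (hs k).1 (hB' (ψ k)).1)
        (smul_nonneg (sub_nonneg.2 (hs k).2) (hB (ψ k)).1)).trans_eq ?_
      simp only [hZdef]; module
    · have h1 := hGd k
      have h2 := (hspec' (ψ k)).1.2
      rcases (hs k).1.eq_or_lt with h0 | h0
      · simpa [← h0] using h1.2
      have := PosDef.add_posSemidef (h2.smul h0)
        (h1.2.posSemidef.smul (sub_nonneg.2 (hs k).2))
      convert this using 1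
      simp only [hZdef]; module
  have hlimit := (drift_tendsto hd (fun k => hD0 (k + k₀)) hD₀.1 (sh hDt) htt
    (sh (f := fun j => B j + (K * Δ j) • Z j) hB't) (sh (f := N) hNt)).add
    ((((tendsto_rtr_mul hZ' hRh).sub (tendsto_rtr_mul hZ'
      (sh (f := fun j => d.R (D j) (x j)) (R_tendsto hd hD0 hD₀.1 hDt hxt)))).sub
      ((tendsto_rtr_mul hZ' (tendsto_penGrad hd₀ (sh hBt) (sh (f := N) hNt))).const_mul
        d.ε)).const_mul K)
  have h6 := ge_of_tendsto' hlimit fun k => (hlt k).le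
  have hG : rtr (d.Z D₀ x₀ B₀ * d.G D₀ x₀ B₀)
      ≤ -rtr (d.Z D₀ x₀ B₀ * d.Z D₀ x₀ B₀) := by
    rw [rtr_mul_comm]; exact proj_ineq hB₀.1 (G_herm hd hM hP₀ hB₀.1)
  simp only [G, ggrad, Matrix.mul_sub, rtr_sub, Matrix.mul_smul, rtr_smul] at hG
  have h7 := hquad D₀ x₀ hP₀ hD₀.2 B₀ hB₀
  have h8 := mul_le_mul_of_nonneg_left hG hK.le
  linarith

end PData

end Vale.Agent.P371G
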