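import Vale.Agent.P371G.Core

/-! # The potential `Ψ_α(A, M)`, its gradient, and the interface used by the minimax argument -/

namespace Vale.Agent.P371G

open Matrix MeasureTheory Set
open scoped ComplexOrder MatrixOrder

variable {n : ℕ}

/-- `∫₀^∞ s^(α-1) log (1 + 1/s) ds`, the normalisation of `y ↦ y^α`. -/
noncomputable def K0 (α : ℝ) : ℝ := ∫ s in Ioi (0 : ℝ), s ^ (α - 1) * Real.log (1 + 1 / s)

/-- `Ψ_α(A, M)`. -/
noncomputable def Psi (α : ℝ) (A M : Mat n) : ℝ :=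
  (K0 α)⁻¹ * ∫ s in Ioi (0 : ℝ), s ^ (α - 1) * HH s A M

/-- The gradient of `Ψ_α` in `A`, defined entrywise. -/
noncomputable def Rhat (α : ℝ) (A M : Mat n) : Mat n :=
  Matrix.of fun i j =>
    (((K0 α)⁻¹ : ℝ) : ℂ) * ∫ s in Ioi (0 : ℝ), ((s ^ (α - 1) : ℝ) : ℂ) * Lam s A M i j

/-- The scalar value of `Ψ_α`. -/
noncomputable def gval (α a m : ℝ) : ℝ :=
  a * ∫ θ in (0 : ℝ)..1, (θ * a * (2 * m - θ * a)) ^ α

/-- The properties of `Ψ_α` used by the minimax argument. They are proved in `PsiProps.lean`. -/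
structure PsiAPI (α : ℝ) : Prop where
  /-- midpoint concavity and monotonicity in `M²` -/
  midpoint : ∀ {n : ℕ} {A M M₀ M₁ : Mat n}, A.PosDef → Adm A M → Adm A M₀ → Adm A M₁ →
    M₀ * M₀ + M₁ * M₁ ≤ (2 : ℝ) • (M * M) → Psi α A M₀ + Psi α A M₁ ≤ 2 * Psi α A M
  /-- value on commuting pairs -/
  comm : ∀ {n : ℕ} {A : Mat n} (hA : A.IsHermitian) (m : ℝ → ℝ), 0 ≤ A →
    (∀ i, 0 < m (hA.eigenvalues i)) → (∀ i, hA.eigenvalues i ≤ 2 * m (hA.eigenvalues i)) →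
    Psi α A (fc m A) = ∑ i, gval α (hA.eigenvalues i) (m (hA.eigenvalues i))
  /-- derivative in `A` at fixed `M` -/
  deriv : ∀ {n : ℕ} {A M V : Mat n}, A.PosDef → ((2 : ℝ) • M - A).PosDef → V.IsHermitian →
    HasDerivAt (fun t : ℝ => Psi α (A + t • V) M) (rtr (V * Rhat α A M)) 0
  /-- joint continuity, along sequences -/
  contPsi : ∀ {n : ℕ} {A M : ℕ → Mat n} {A₀ M₀ : Mat n}, (∀ k, Adm (A k) (M k)) → Adm A₀ M₀ →
    Filter.Tendsto A Filter.atTop (nhds A₀) → Filter.Tendsto M Filter.atTop (nhds M₀) →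
    Filter.Tendsto (fun k => Psi α (A k) (M k)) Filter.atTop (nhds (Psi α A₀ M₀))
  /-- joint continuity of the gradient, along sequences -/
  contR : ∀ {n : ℕ} {A M : ℕ → Mat n} {A₀ M₀ : Mat n}, (∀ k, Adm (A k) (M k)) → Adm A₀ M₀ →
    Filter.Tendsto A Filter.atTop (nhds A₀) → Filter.Tendsto M Filter.atTop (nhds M₀) →
    Filter.Tendsto (fun k => Rhat α (A k) (M k)) Filter.atTop (nhds (Rhat α A₀ M₀))
  /-- the gradient is Hermitian -/
  herm : ∀ {n : ℕ} {A M : Mat n}, Adm A M → (Rhat α A M).IsHermitian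
  /-- the algebraic inequality -/
  key : ∀ {n : ℕ} {A M : Mat n}, A.PosDef → ((2 : ℝ) • M - A).PosDef → 0 ≤ Rhat α A M →
    rtr (fc (fun x => x ^ (1 + 1 / α)) (Rhat α A M))
      ≤ rtr (Rhat α A M * (M * M - (M - A) * (M - A)))

/-- The minimax objective. -/
noncomputable def fpot (α ε : ℝ) (R Xp A M : Mat n) : ℝ :=
  rtr (R * (M - A)) - rtr (M * M * Xp) + Psi α A M
    + ε * (lndet ((2 : ℝ) • M - A) - lndet A)

/-- The domain of the minimax. -/
def Dom (A M : Mat n) : Prop := A.PosDef ∧ ((2 : ℝ) • M - A).PosDef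

/-- `M` maximises the objective at `A`. -/
def IsMaxAt (α ε : ℝ) (R Xp A M : Mat n) : Prop :=
  Dom A M ∧ ∀ M', Dom A M' → fpot α ε R Xp A M' ≤ fpot α ε R Xp A M

/-- The minimax value `inf_A max_M`. -/
noncomputable def Sval (α ε : ℝ) (R Xp : Mat n) : ℝ :=
  sInf {v | ∃ A M : Mat n, IsMaxAt α ε R Xp A M ∧ v = fpot α ε R Xp A M}

end Vale.Agent.P371G
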