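import Vale.Agent.P371G.Bounds

/-! # Scalar integrals behind the normalisation of `Ψ_α` -/

namespace Vale.Agent.P371G

open Set MeasureTheory Filter Topology

variable {α : ℝ}

private theorem integrableOn_Ioc_rpow {p T : ℝ} (hp : -1 < p) (hT : 0 ≤ T) :
    IntegrableOn (fun s : ℝ => s ^ p) (Ioc 0 T) :=
  (intervalIntegrable_iff_integrableOn_Ioc_of_le hT).1 (intervalIntegral.intervalIntegrable_rpow' hp)

private theorem abs_log_le {s ε : ℝ} (hs : 0 < s) (hε : 0 < ε) :
    |Real.log s| ≤ (s ^ ε + s ^ (-ε)) / ε := by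
  have h1 := Real.log_le_rpow_div hs.le hε
  have h2 := Real.log_le_rpow_div (inv_nonneg.2 hs.le) hε
  rw [Real.log_inv, Real.inv_rpow hs.le, ← Real.rpow_neg hs.le] at h2
  have p1 : 0 ≤ s ^ ε / ε := by positivity
  have p2 : 0 ≤ s ^ (-ε) / ε := by positivity
  rw [add_div, abs_le]
  constructor <;> linarith

theorem wB_integrable (hα : α ∈ Ioo (0:ℝ) 1) {K : ℝ} (hK : 1 ≤ K) :
    IntegrableOn (fun s => s ^ (α - 1) * wB K s) (Ioi 0) := by
  obtain ⟨hα0, hα1⟩ := hα
  have hT : (0:ℝ) < 4 * K ^ 2 := by positivity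
  rw [← Ioc_union_Ioi_eq_Ioi hT.le, integrableOn_union]
  constructor
  · have hL : 0 ≤ Real.log (6 * K) := Real.log_nonneg (by linarith)
    have e : 0 < α / 2 := by linarith
    have hd : IntegrableOn (fun s : ℝ => (α/2)⁻¹ * s ^ (α - 1 + α/2)
        + ((α/2)⁻¹ * s ^ (α - 1 + -(α/2)) + 2 * Real.log (6 * K) * s ^ (α - 1)))
        (Ioc 0 (4 * K ^ 2)) :=
      ((integrableOn_Ioc_rpow (by linarith) hT.le).const_mul _).add
        (((integrableOn_Ioc_rpow (by linarith) hT.le).const_mul _).add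
          ((integrableOn_Ioc_rpow (by linarith) hT.le).const_mul _))
    refine hd.mono' ?_ ?_
    · refine (ContinuousOn.congr (f := fun s : ℝ =>
        s ^ (α - 1) * (|Real.log s| + 2 * Real.log (6 * K))) ?_ ?_).aestronglyMeasurable
        measurableSet_Ioc
      · refine ContinuousOn.mul (continuousOn_id.rpow_const fun x hx => Or.inl hx.1.ne') ?_
        exact ((Real.continuousOn_log.mono fun x hx => hx.1.ne').abs).add continuousOn_const
      · intro s hs
        simp [wB, if_pos hs.2]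
    · refine (ae_restrict_mem measurableSet_Ioc).mono fun s hs => ?_
      rw [Real.norm_eq_abs, abs_of_nonneg (mul_nonneg (Real.rpow_nonneg hs.1.le _) (wB_nonneg hK)),
        wB, if_pos hs.2, Real.rpow_add hs.1, Real.rpow_add hs.1]
      have := mul_le_mul_of_nonneg_left (abs_log_le hs.1 e) (Real.rpow_nonneg hs.1.le (α - 1))
      calc s ^ (α - 1) * (|Real.log s| + 2 * Real.log (6 * K))
          ≤ s ^ (α - 1) * ((s ^ (α/2) + s ^ (-(α/2))) / (α/2))
            + s ^ (α - 1) * (2 * Real.log (6 * K)) := by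
            rw [mul_add]
            linarith
        _ = _ := by ring
  · refine IntegrableOn.congr_fun
      ((integrableOn_Ioi_rpow_of_lt (a := α - 2) (by linarith) hT).const_mul (4 * K ^ 2))
      (fun s hs => ?_) measurableSet_Ioi
    have hs0 : 0 < s := hT.trans hs
    simp only [wB, if_neg (not_le.2 (show 4 * K ^ 2 < s from hs))]
    rw [show α - 2 = α - 1 - 1 by ring, Real.rpow_sub_one hs0.ne']
    ring

private theorem log_add_le {y s ε : ℝ} (hy : 0 ≤ y) (hs : 0 < s) (hs1 : s ≤ 1) (hε : 0 < ε) :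
    Real.log (1 + y / s) ≤ (1 + y) ^ ε / ε * s ^ (-ε) := by
  have h1 : 1 + y / s ≤ (1 + y) / s := by
    rw [add_div]; gcongr; exact (one_le_div hs).2 hs1
  refine (Real.log_le_log (by positivity) h1).trans ?_
  refine (Real.log_le_rpow_div (by positivity) hε).trans_eq ?_
  rw [Real.div_rpow (by linarith) hs.le, Real.rpow_neg hs.le]
  ring

private theorem log_le_div {y s : ℝ} (hy : 0 ≤ y) (hs : 0 < s) :
    Real.log (1 + y / s) ≤ y / s := by
  have := Real.log_le_sub_one_of_pos (show 0 < 1 + y / s by positivity)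
  linarith

private theorem log_nonneg' {y s : ℝ} (hy : 0 ≤ y) (hs : 0 < s) :
    0 ≤ Real.log (1 + y / s) :=
  Real.log_nonneg (le_add_of_nonneg_right (by positivity))

private theorem continuousOn_lam {y : ℝ} (hy : 0 ≤ y) :
    ContinuousOn (fun s => Real.log (1 + y / s)) (Ioi 0) :=
  ContinuousOn.log (continuousOn_const.add (continuousOn_const.div continuousOn_id fun _ hx =>
    ne_of_gt hx)) fun _ hx => (add_pos_of_pos_of_nonneg one_pos
      (div_nonneg hy (le_of_lt hx))).ne'

private theorem continuousOn_pow : ContinuousOn (fun s : ℝ => s ^ (α - 1)) (Ioi 0) :=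
  continuousOn_id.rpow_const fun _ hx => Or.inl (ne_of_gt hx)

theorem log_integrable (hα : α ∈ Ioo (0:ℝ) 1) {y : ℝ} (hy : 0 ≤ y) :
    IntegrableOn (fun s => s ^ (α - 1) * Real.log (1 + y / s)) (Ioi 0) := by
  obtain ⟨hα0, hα1⟩ := hα
  have hc : ContinuousOn (fun s => s ^ (α - 1) * Real.log (1 + y / s)) (Ioi 0) :=
    continuousOn_pow.mul (continuousOn_lam hy)
  rw [← Ioc_union_Ioi_eq_Ioi zero_le_one, integrableOn_union]
  constructor
  · refine ((integrableOn_Ioc_rpow (p := α - 1 + -(α/2)) (by linarith) zero_le_one).const_mul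
      ((1 + y) ^ (α/2) / (α/2))).mono'
      ((hc.mono Ioc_subset_Ioi_self).aestronglyMeasurable measurableSet_Ioc) ?_
    refine (ae_restrict_mem measurableSet_Ioc).mono fun s hs => ?_
    rw [Real.norm_eq_abs, abs_of_nonneg (mul_nonneg (Real.rpow_nonneg hs.1.le _)
      (log_nonneg' hy hs.1)), Real.rpow_add hs.1]
    refine (mul_le_mul_of_nonneg_left (log_add_le hy hs.1 hs.2 (by linarith : 0 < α/2))
      (Real.rpow_nonneg hs.1.le _)).trans_eq (by ring)
  · refine ((integrableOn_Ioi_rpow_of_lt (a := α - 2) (by linarith) one_pos).const_mul y).mono'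
      ((hc.mono (Ioi_subset_Ioi zero_le_one)).aestronglyMeasurable measurableSet_Ioi) ?_
    refine (ae_restrict_mem measurableSet_Ioi).mono fun s hs => ?_
    have hs0 : (0:ℝ) < s := one_pos.trans hs
    rw [Real.norm_eq_abs, abs_of_nonneg (mul_nonneg (Real.rpow_nonneg hs0.le _)
      (log_nonneg' hy hs0)), show α - 2 = α - 1 - 1 by ring, Real.rpow_sub_one hs0.ne' (α - 1)]
    refine (mul_le_mul_of_nonneg_left (log_le_div hy hs0) (Real.rpow_nonneg hs0.le _)).trans_eq ?_
    ring

theorem K0_pos (hα : α ∈ Ioo (0:ℝ) 1) : 0 < K0 α := by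
  have hi := log_integrable hα zero_le_one
  have hn : ∀ s ∈ Ioi (0:ℝ), 0 < s ^ (α - 1) * Real.log (1 + 1 / s) := fun s hs => by
    have hs : 0 < s := hs
    exact mul_pos (Real.rpow_pos_of_pos hs _) (Real.log_pos (lt_add_of_pos_right _ (by positivity)))
  rw [K0, setIntegral_pos_iff_support_of_nonneg_ae
    ((ae_restrict_mem measurableSet_Ioi).mono fun s hs => (hn s hs).le) hi]
  refine lt_of_lt_of_le ?_ (measure_mono
    (show Ioi (0:ℝ) ⊆ Function.support (fun s : ℝ => s ^ (α - 1) * Real.log (1 + 1 / s)) ∩ Ioi 0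
      from fun s hs => ⟨(hn s hs).ne', hs⟩))
  simp

theorem log_integral (hα : α ∈ Ioo (0:ℝ) 1) {y : ℝ} (hy : 0 ≤ y) :
    IntegrableOn (fun s => s ^ (α - 1) * Real.log (1 + y / s)) (Ioi 0) ∧
      (∫ s in Ioi (0:ℝ), s ^ (α - 1) * Real.log (1 + y / s)) = K0 α * y ^ α := by
  refine ⟨log_integrable hα hy, ?_⟩
  rcases hy.eq_or_lt with rfl | hy'
  · simp [Real.zero_rpow hα.1.ne']
  have h := integral_comp_mul_left_Ioi (fun s => s ^ (α - 1) * Real.log (1 + y / s)) 0 hy'
  rw [mul_zero, smul_eq_mul] at h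
  have e : (∫ t in Ioi (0:ℝ), (y * t) ^ (α - 1) * Real.log (1 + y / (y * t)))
      = y ^ (α - 1) * K0 α := by
    rw [K0, ← integral_const_mul]
    refine setIntegral_congr_fun measurableSet_Ioi fun t ht => ?_
    have ht : 0 < t := ht
    simp only [Real.mul_rpow hy'.le ht.le, div_mul_eq_div_div, div_self hy'.ne']
    ring
  rw [e] at h
  rw [show K0 α * y ^ α = y * (y ^ (α - 1) * K0 α) by
    rw [Real.rpow_sub_one hy'.ne']; field_simp, h, ← mul_assoc, mul_inv_cancel₀ hy'.ne', one_mul]

private theorem klein_nonneg {y s : ℝ} (hy : 0 ≤ y) (hs : 0 < s) :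
    0 ≤ (y + s) * Real.log (1 + y / s) - y := by
  have h : 0 < s / (y + s) := by positivity
  have h1 := Real.log_le_sub_one_of_pos h
  have e : Real.log (1 + y / s) = -Real.log (s / (y + s)) := by
    rw [← Real.log_inv, inv_div, show 1 + y / s = (y + s) / s by field_simp; ring]
  have e2 : (y + s) * (s / (y + s) - 1) = -y := by field_simp; ring
  rw [e]
  nlinarith [mul_le_mul_of_nonneg_left h1 (by positivity : (0:ℝ) ≤ y + s)]

private theorem klein_le {y s : ℝ} (hy : 0 ≤ y) (hs : 0 < s) :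
    (y + s) * Real.log (1 + y / s) - y ≤ y * Real.log (1 + y / s) := by
  have h := mul_le_mul_of_nonneg_left (log_le_div hy hs) hs.le
  rw [mul_div_cancel₀ _ hs.ne'] at h
  linarith

theorem klein_integral (hα : α ∈ Ioo (0:ℝ) 1) {y : ℝ} (hy : 0 ≤ y) :
    IntegrableOn (fun s => s ^ (α - 1) * ((y + s) * Real.log (1 + y / s) - y)) (Ioi 0) ∧
      (∫ s in Ioi (0:ℝ), s ^ (α - 1) * ((y + s) * Real.log (1 + y / s) - y))
        = K0 α * y ^ (1 + α) / (1 + α) := by
  obtain ⟨hα0, hα1⟩ := hα
  obtain ⟨hiL, hvL⟩ := log_integral ⟨hα0, hα1⟩ hy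
  have hiP : IntegrableOn (fun s => s ^ (α - 1) * ((y + s) * Real.log (1 + y / s) - y))
      (Ioi 0) := by
    refine (hiL.const_mul y).mono' ((continuousOn_pow.mul ((((continuousOn_const.add
      continuousOn_id).mul (continuousOn_lam hy)).sub continuousOn_const))).aestronglyMeasurable
      measurableSet_Ioi) ?_
    refine (ae_restrict_mem measurableSet_Ioi).mono fun s hs => ?_
    rw [Real.norm_eq_abs, abs_of_nonneg (mul_nonneg (Real.rpow_nonneg (le_of_lt hs) _)
      (klein_nonneg hy hs))]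
    exact (mul_le_mul_of_nonneg_left (klein_le hy hs)
      (Real.rpow_nonneg (le_of_lt hs) _)).trans_eq (by ring)
  refine ⟨hiP, ?_⟩
  set F : ℝ → ℝ := fun s => s ^ α * ((y + s) * Real.log (1 + y / s) - y) with hF
  set F' : ℝ → ℝ := fun s => (1 + α) * (s ^ (α - 1) * ((y + s) * Real.log (1 + y / s) - y))
    - y * (s ^ (α - 1) * Real.log (1 + y / s)) with hF'
  have hd : ∀ s ∈ Ioi (0:ℝ), HasDerivAt F (F' s) s := by
    intro s hs
    have hs : 0 < s := hs
    have h1 : (1 + y * s⁻¹) ≠ 0 := by positivity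
    have hl := (((hasDerivAt_inv hs.ne').const_mul y).const_add 1).log h1
    have h := (Real.hasDerivAt_rpow_const (p := α) (Or.inl hs.ne')).fun_mul
      ((((hasDerivAt_id s).const_add y).fun_mul hl).sub_const y)
    simp only [← div_eq_mul_inv, id_eq] at h
    refine h.congr_deriv ?_
    simp only [hF', Real.rpow_sub_one hs.ne']
    field_simp
    ring
  have h0 : F 0 = 0 := by simp [hF, Real.zero_rpow hα0.ne']
  have hcont : ContinuousWithinAt F (Ici 0) 0 := by
    rw [← continuousWithinAt_Ioi_iff_Ici, ContinuousWithinAt, h0]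
    refine squeeze_zero' (g := fun s => y * ((1 + y) ^ (α/2) / (α/2)) * s ^ (α/2))
      (eventually_nhdsWithin_of_forall fun s hs =>
        mul_nonneg (Real.rpow_nonneg (le_of_lt hs) _) (klein_nonneg hy hs)) ?_ ?_
    · filter_upwards [self_mem_nhdsWithin,
        mem_nhdsWithin_of_mem_nhds (Iio_mem_nhds (one_pos (α := ℝ)))] with s hs hs1
      have hs : 0 < s := hs
      refine (mul_le_mul_of_nonneg_left ((klein_le hy hs).trans (mul_le_mul_of_nonneg_left
        (log_add_le hy hs (le_of_lt hs1) (by linarith : 0 < α/2)) hy))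
        (Real.rpow_nonneg hs.le _)).trans_eq ?_
      rw [show s ^ (α/2) = s ^ α * s ^ (-(α/2)) by rw [← Real.rpow_add hs]; ring_nf]
      ring
    · have := ((continuous_id.rpow_const fun _ => Or.inr (by linarith : 0 ≤ α/2)).tendsto'
        0 ((0:ℝ) ^ (α/2)) rfl).const_mul (y * ((1 + y) ^ (α/2) / (α/2)))
      rw [Real.zero_rpow (by linarith), mul_zero] at this
      exact this.mono_left nhdsWithin_le_nhds
  have htop : Tendsto F atTop (𝓝 0) := by
    refine squeeze_zero' (g := fun s => y ^ 2 * s ^ (-(1 - α)))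
      ((eventually_gt_atTop 0).mono fun s hs =>
        mul_nonneg (Real.rpow_nonneg hs.le _) (klein_nonneg hy hs))
      ((eventually_gt_atTop 0).mono fun s hs => ?_) ?_
    · refine (mul_le_mul_of_nonneg_left ((klein_le hy hs).trans (mul_le_mul_of_nonneg_left
        (log_le_div hy hs) hy)) (Real.rpow_nonneg hs.le _)).trans_eq ?_
      rw [neg_sub, Real.rpow_sub_one hs.ne']
      ring
    · simpa using (tendsto_rpow_neg_atTop (by linarith : 0 < 1 - α)).const_mul (y ^ 2)
  have hint := integral_Ioi_of_hasDerivAt_of_tendsto hcont hd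
    ((hiP.const_mul (1 + α)).sub (hiL.const_mul y)) htop
  rw [h0, hF', integral_sub (hiP.const_mul _) (hiL.const_mul _), integral_const_mul,
    integral_const_mul, hvL] at hint
  rw [eq_div_iff (by linarith), show y ^ (1 + α) = y * y ^ α from
    Real.rpow_one_add' hy (by linarith)]
  linarith

end Vale.Agent.P371G
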