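import Vale.Agent.P371G.Defs
import Vale.Agent.P371M.Soliton

/- The soliton attains the one-bound-state constant for every exponent above 1/2. -/

namespace Vale.Agent.P371G

open Real MeasureTheory Filter Topology Set
open scoped Matrix ComplexOrder
open Vale.Agent.P371M

namespace SolitonGen

/-- The power `(cosh x)^(-2b)`. -/
noncomputable def sechPow (b x : ℝ) : ℝ := (cosh x ^ 2) ^ (-b)

theorem sigmoid_two_mul (x : ℝ) :
    Real.sigmoid (2 * x) * (1 - Real.sigmoid (2 * x)) = 1 / (4 * cosh x ^ 2) := by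
  rw [← Real.sigmoid_neg, Real.sigmoid_def, Real.sigmoid_def, cosh_eq, neg_neg]
  have e1 : exp (2 * x) = exp x ^ 2 := by rw [← Real.exp_nat_mul]; norm_num
  have h0 := exp_pos x
  rw [exp_neg (2 * x), exp_neg x, e1]
  field_simp
  ring

theorem hasDerivAt_sub (x : ℝ) :
    HasDerivAt (fun y => Real.sigmoid (2 * y)) (2 * (1 / (4 * cosh x ^ 2))) x := by
  rw [← sigmoid_two_mul, mul_comm (2 : ℝ)]
  exact (Real.hasDerivAt_sigmoid (2 * x)).comp x (by simpa using (hasDerivAt_id x).const_mul 2)

theorem image_sub : (fun y => Real.sigmoid (2 * y)) '' univ = Ioo 0 1 := by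
  rw [image_univ, ← Real.range_sigmoid]
  exact (mul_left_surjective₀ (two_ne_zero : (2:ℝ) ≠ 0)).range_comp Real.sigmoid

theorem injOn_sub : InjOn (fun y => Real.sigmoid (2 * y)) univ :=
  ((Real.sigmoid_injective).comp (mul_right_injective₀ (two_ne_zero : (2:ℝ) ≠ 0))).injOn

theorem pullback_eq {b : ℝ} (hb : b ≠ 0) (x : ℝ) :
    |2 * (1 / (4 * cosh x ^ 2))| •
      (Real.sigmoid (2 * x) ^ (b - 1) * (1 - Real.sigmoid (2 * x)) ^ (b - 1))
      = 2 / 4 ^ b * sechPow b x := by
  have hc : 0 < cosh x ^ 2 := pow_pos (cosh_pos x) 2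
  rw [← Real.mul_rpow (Real.sigmoid_nonneg _) (sub_nonneg.2 (Real.sigmoid_le_one _)),
    sigmoid_two_mul, smul_eq_mul, abs_of_pos (by positivity), sechPow, mul_assoc]
  have hy : 0 < 1 / (4 * cosh x ^ 2) := by positivity
  rw [show (1 / (4 * cosh x ^ 2)) * (1 / (4 * cosh x ^ 2)) ^ (b - 1)
      = (1 / (4 * cosh x ^ 2)) ^ b by
        conv_lhs => rw [← Real.rpow_one_add' hy.le (by simpa using hb)]
        ring_nf]
  rw [one_div, Real.inv_rpow (by positivity), Real.mul_rpow (by norm_num) hc.le,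
    Real.rpow_neg hc.le]
  field_simp

theorem beta_integrableOn {b : ℝ} (hb : 0 < b) :
    IntegrableOn (fun s : ℝ => s ^ (b - 1) * (1 - s) ^ (b - 1)) (Ioo 0 1) := by
  have h := (Complex.betaIntegral_convergent (u := (b : ℂ)) (v := (b : ℂ)) (by simpa) (by simpa))
  rw [intervalIntegrable_iff_integrableOn_Ioo_of_le zero_le_one] at h
  refine IntegrableOn.congr_fun h.re (fun s hs => ?_) measurableSet_Ioo
  change ((s : ℂ) ^ ((b : ℂ) - 1) * (1 - (s : ℂ)) ^ ((b : ℂ) - 1)).re = _
  rw [show (b : ℂ) - 1 = ((b - 1 : ℝ) : ℂ) by push_cast; ring,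
    show (1 : ℂ) - (s : ℂ) = ((1 - s : ℝ) : ℂ) by push_cast; ring,
    ← Complex.ofReal_cpow hs.1.le, ← Complex.ofReal_cpow (sub_nonneg.2 hs.2.le),
    ← Complex.ofReal_mul, Complex.ofReal_re]

theorem beta_integral {b : ℝ} (hb : 0 < b) :
    ∫ s in Ioo (0:ℝ) 1, s ^ (b - 1) * (1 - s) ^ (b - 1)
      = Real.Gamma b * Real.Gamma b / Real.Gamma (b + b) := by
  rw [← ProbabilityTheory.beta, ProbabilityTheory.beta_eq_betaIntegralReal b b hb hb,
    Complex.betaIntegral, intervalIntegral.integral_of_le zero_le_one,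
    ← integral_Ioc_eq_integral_Ioo, ← RCLike.re_to_complex, ← integral_re]
  · refine setIntegral_congr_fun measurableSet_Ioc fun s hs => ?_
    rw [RCLike.re_to_complex, show (b : ℂ) - 1 = ((b - 1 : ℝ) : ℂ) by push_cast; ring,
      show (1 : ℂ) - (s : ℂ) = ((1 - s : ℝ) : ℂ) by push_cast; ring,
      ← Complex.ofReal_cpow hs.1.le, ← Complex.ofReal_cpow (sub_nonneg.2 hs.2),
      ← Complex.ofReal_mul, Complex.ofReal_re]
  · exact (intervalIntegrable_iff_integrableOn_Ioc_of_le zero_le_one).1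
      (Complex.betaIntegral_convergent (by simpa) (by simpa))

theorem sechPow_integrable {b : ℝ} (hb : 0 < b) : Integrable (sechPow b) := by
  have h := (integrableOn_image_iff_integrableOn_abs_deriv_smul MeasurableSet.univ
    (fun x _ => (hasDerivAt_sub x).hasDerivWithinAt) injOn_sub
    (fun s : ℝ => s ^ (b - 1) * (1 - s) ^ (b - 1))).1 (image_sub ▸ beta_integrableOn hb)
  rw [integrableOn_univ] at h
  simp only [pullback_eq hb.ne'] at h
  exact (integrable_const_mul_iff (IsUnit.mk0 _ (by positivity)) _).1 h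

theorem integral_sechPow {b : ℝ} (hb : 0 < b) :
    ∫ x, sechPow b x = Real.sqrt π * Real.Gamma b / Real.Gamma (b + 1 / 2) := by
  have h := integral_image_eq_integral_abs_deriv_smul MeasurableSet.univ
    (fun x _ => (hasDerivAt_sub x).hasDerivWithinAt) injOn_sub
    (fun s : ℝ => s ^ (b - 1) * (1 - s) ^ (b - 1))
  rw [image_sub, beta_integral hb, setIntegral_univ] at h
  simp only [pullback_eq hb.ne', integral_const_mul] at h
  have e := Real.Gamma_mul_Gamma_add_half b
  have g1 := (Real.Gamma_pos_of_pos hb).ne'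
  have g2 := (Real.Gamma_pos_of_pos (show 0 < b + 1 / 2 by linarith)).ne'
  have g3 := (Real.Gamma_pos_of_pos (show 0 < 2 * b by linarith)).ne'
  have p4 : (4:ℝ) ^ b = 2 ^ (2 * b) := by
    rw [Real.rpow_mul two_pos.le, Real.rpow_two]; norm_num
  have p2 : (2:ℝ) ^ (1 - 2 * b) = 2 / 2 ^ (2 * b) := by
    rw [Real.rpow_sub two_pos, Real.rpow_one]
  have hp : (2:ℝ) ^ (2 * b) ≠ 0 := (Real.rpow_pos_of_pos two_pos _).ne'
  rw [← two_mul, p4] at h
  rw [p2] at e
  rw [mul_comm (2 : ℝ) b] at g3
  field_simp at e h ⊢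
  refine mul_left_cancel₀ (mul_ne_zero (two_ne_zero : (2:ℝ) ≠ 0) g3) ?_
  linear_combination (-Gamma ((b * 2 + 1) / 2)) * h + Gamma b * e

end SolitonGen

open SolitonGen

/-- The soliton attains the one-bound-state constant, for every `γ > 1/2` and every `m ≥ 1`. -/
theorem sol_extremal_gen {γ : ℝ} (hγ : 1 / 2 < γ) {m : ℕ} (hm : 1 ≤ m) :
    LOne γ ∈ Vale.Agent.P371M.LTRatios γ m := by
  set ν := γ - 1 / 2 with hνdef
  have hν : 0 < ν := by linarith
  have hp0 : 0 < γ + 1 / 2 := by linarith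
  set a0 : Fin m := ⟨0, hm⟩
  set V : ℝ → ℝ := fun x => ν * (ν + 1) / cosh x ^ 2 with hVdef
  have hVn : ∀ x, 0 ≤ V x := fun x => by simp only [hVdef]; positivity
  have hVc : Continuous V :=
    continuous_const.div (continuous_cosh.pow 2) fun x => (pow_pos (cosh_pos x) 2).ne'
  have hV1 : ∀ x, V x ≤ ν * (ν + 1) := fun x =>
    div_le_self (by positivity) (one_le_pow₀ (one_le_cosh x))
  set N := ∫ x, sechPow ν x with hNdef
  have hN : 0 < N := by
    rw [hNdef, integral_sechPow hν]
    have := Real.Gamma_pos_of_pos hν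
    have := Real.Gamma_pos_of_pos (show 0 < ν + 1 / 2 by linarith)
    positivity
  set f : ℝ → ℝ := fun x => cosh x ^ (-ν) / Real.sqrt N with hfdef
  set f1 : ℝ → ℝ := fun x => -ν * (sinh x / cosh x) * f x with hf1def
  have hNs : Real.sqrt N ≠ 0 := (Real.sqrt_pos.2 hN).ne'
  have hfd : ∀ x, HasDerivAt f (f1 x) x := by
    intro x
    refine (((hasDerivAt_cosh x).rpow_const (p := -ν) (Or.inl (cosh_pos x).ne')).div_const
      (Real.sqrt N)).congr_deriv ?_
    simp only [hf1def, hfdef]
    rw [Real.rpow_sub (cosh_pos x), Real.rpow_one]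
    ring
  have hf1d : ∀ x, HasDerivAt f1 ((ν ^ 2 - V x) * f x) x := by
    intro x
    have hc := (cosh_pos x).ne'
    refine ((((hasDerivAt_sinh x).div (hasDerivAt_cosh x) hc).const_mul (-ν)).mul
      (hfd x)).congr_deriv ?_
    simp only [hf1def, hVdef, Pi.div_apply]
    field_simp
    linear_combination (-(ν + 1) * f x) * cosh_sq_sub_sinh_sq x
  have hfc : Continuous f := continuous_iff_continuousAt.2 fun x => (hfd x).continuousAt
  have hf1c : Continuous f1 := continuous_iff_continuousAt.2 fun x => (hf1d x).continuousAt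
  have hfn : ∀ x, 0 ≤ f x := fun x =>
    div_nonneg (Real.rpow_nonneg (cosh_pos x).le _) (Real.sqrt_nonneg _)
  have hfsq : ∀ x, f x ^ 2 = sechPow ν x / N := fun x => by
    simp only [hfdef, sechPow, div_pow, Real.sq_sqrt hN.le]
    congr 1
    rw [← Real.rpow_natCast (cosh x) 2, ← Real.rpow_mul (cosh_pos x).le,
      ← Real.rpow_natCast (cosh x ^ (-ν)) 2, ← Real.rpow_mul (cosh_pos x).le]
    ring_nf
  have hfub : ∀ x, f x ≤ 1 / Real.sqrt N := fun x =>
    (div_le_div_iff_of_pos_right (Real.sqrt_pos.2 hN)).2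
      (Real.rpow_le_one_of_one_le_of_nonpos (one_le_cosh x) (by linarith))
  have hf1le : ∀ x, |f1 x| ≤ ν * f x := by
    intro x
    have h : |sinh x / cosh x| ≤ 1 := by
      rw [abs_div, abs_of_pos (cosh_pos x), div_le_one (cosh_pos x), abs_le]
      exact ⟨by linarith [sinh_lt_cosh (-x), sinh_neg x, cosh_neg x], (sinh_lt_cosh x).le⟩
    simp only [hf1def, abs_mul, abs_neg, abs_of_pos hν, abs_of_nonneg (hfn x)]
    exact mul_le_mul_of_nonneg_right (mul_le_of_le_one_right hν.le h) (hfn x)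
  have hfL : MemLp (fun x => (f x : ℂ)) 2 := by
    have hm2 : AEStronglyMeasurable (fun x => (f x : ℂ)) volume :=
      (Complex.continuous_ofReal.comp hfc).aestronglyMeasurable
    rw [memLp_two_iff_integrable_sq_norm hm2]
    refine ((sechPow_integrable hν).div_const N).congr (Eventually.of_forall fun x => ?_)
    simp only [Complex.norm_real, Real.norm_eq_abs, sq_abs, hfsq]
  have hc1 : Continuous fun x => (f1 x : ℂ) := Complex.continuous_ofReal.comp hf1c
  have hfH : IsH1 (fun x => (f x : ℂ)) (fun x => (f1 x : ℂ)) :=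
    ⟨hfL, hfL.of_le_mul hc1.aestronglyMeasurable (Eventually.of_forall fun x => by
        simpa [Complex.norm_real, abs_of_nonneg (hfn x)] using hf1le x),
      fun a b => (intervalIntegral.integral_eq_sub_of_hasDerivAt
        (fun x _ => (hfd x).ofReal_comp) (hc1.intervalIntegrable _ _)).symm⟩
  set W : ℝ → Matrix (Fin m) (Fin m) ℂ := fun x =>
    Matrix.diagonal fun a => ((if a = a0 then V x else 0 : ℝ) : ℂ) with hWdef
  have htr : ∀ x, trPow (γ + 1 / 2) (W x)
      = (ν * (ν + 1)) ^ (γ + 1 / 2) * sechPow (γ + 1 / 2) x := fun x => by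
    rw [hWdef, trPow_diagonal, Finset.sum_eq_single a0]
    · rw [if_pos rfl, sechPow, hVdef, Real.div_rpow (by positivity) (sq_nonneg _),
        Real.rpow_neg (sq_nonneg _), div_eq_mul_inv]
    · intro b _ hb
      rw [if_neg hb, Real.zero_rpow hp0.ne']
    · simp
  have hint : Integrable fun x => trPow (γ + 1 / 2) (W x) := by
    simp only [htr]; exact (sechPow_integrable hp0).const_mul _
  have hval : (∫ x, trPow (γ + 1 / 2) (W x))
      = (ν * (ν + 1)) ^ (γ + 1 / 2) *
        (Real.sqrt π * Real.Gamma (γ + 1 / 2) / Real.Gamma (γ + 1)) := by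
    simp only [htr, integral_const_mul, integral_sechPow hp0]
    norm_num [add_assoc]
  set u : Fin 1 → ℝ → Fin m → ℂ := fun _ x a => if a = a0 then (f x : ℂ) else 0 with hu
  set du : Fin 1 → ℝ → Fin m → ℂ := fun _ x a => if a = a0 then (f1 x : ℂ) else 0 with hdu
  refine ⟨W, ⟨fun x => Matrix.PosSemidef.diagonal fun a => ?_, fun a b => ?_, hint⟩, ?_, 1, u, du,
    fun _ => -ν ^ 2, ⟨fun i a => ?_, fun i j => ?_, fun _ => by nlinarith, ?_⟩, ?_⟩
  · by_cases ha : a = a0 <;> simp [ha, hVn x]
  · simp only [hWdef, Matrix.diagonal_apply]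
    by_cases hab : a = b
    · simp only [if_pos hab]
      refine Complex.measurable_ofReal.comp ?_
      by_cases ha : a = a0
      · simp only [if_pos ha]; exact hVc.measurable
      · simp only [if_neg ha]; exact measurable_const
    · simp only [if_neg hab]; exact measurable_const
  · rw [hval]
    have := Real.Gamma_pos_of_pos hp0
    have := Real.Gamma_pos_of_pos (show 0 < γ + 1 by linarith)
    positivity
  · simp only [hu, hdu]
    by_cases ha : a = a0
    · simpa [ha] using hfH
    · simp only [if_neg ha]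
      exact ⟨MemLp.zero', MemLp.zero', fun c d => by simp⟩
  · rw [if_pos (Subsingleton.elim i j)]
    have e : ∀ x, star (u i x) ⬝ᵥ u j x = ((sechPow ν x / N : ℝ) : ℂ) := fun x => by
      simp only [hu, dotProduct, Pi.star_apply]
      rw [Finset.sum_eq_single a0 (fun b _ hb => by simp [hb]) (by simp)]
      simp only [if_true, RCLike.star_def, Complex.conj_ofReal, ← Complex.ofReal_mul]
      rw [← sq, hfsq]
    rw [integral_congr_ae (Eventually.of_forall e), integral_complex_ofReal, integral_div,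
      ← hNdef, div_self hN.ne', Complex.ofReal_one]
  · intro i φ dφ hφ
    have e1 : ∀ x, star (dφ x) ⬝ᵥ du i x = star (dφ x a0) * (f1 x : ℂ) := fun x => by
      simp only [hdu, dotProduct, Pi.star_apply]
      rw [Finset.sum_eq_single a0 (fun b _ hb => by simp [hb]) (by simp)]
      simp
    have e2 : ∀ x, star (φ x) ⬝ᵥ (W x *ᵥ u i x)
        = star (φ x a0) * ((V x * f x : ℝ) : ℂ) := fun x => by
      simp only [hWdef, hu, dotProduct, Pi.star_apply, Matrix.mulVec_diagonal]
      rw [Finset.sum_eq_single a0 (fun b _ hb => by simp [hb]) (by simp)]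
      simp
    have e3 : ∀ x, star (φ x) ⬝ᵥ u i x = star (φ x a0) * (f x : ℂ) := fun x => by
      simp only [hu, dotProduct, Pi.star_apply]
      rw [Finset.sum_eq_single a0 (fun b _ hb => by simp [hb]) (by simp)]
      simp
    simp only [e1, e2, e3]
    have hφ0 := hφ a0
    have I1 : Integrable fun x => star (dφ x a0) * (f1 x : ℂ) := by
      refine (hφ0.dsq_integrable.add hfH.dsq_integrable).mono'
        ((Complex.continuous_conj.comp_aestronglyMeasurable hφ0.2.1.1).mul
          hc1.aestronglyMeasurable) (Eventually.of_forall fun x => ?_)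
      simp only [Pi.add_apply, norm_mul, norm_star]
      nlinarith [norm_nonneg (dφ x a0), norm_nonneg ((f1 x : ℂ)),
        sq_nonneg (‖dφ x a0‖ - ‖(f1 x : ℂ)‖)]
    have I3 : Integrable fun x => star (φ x a0) * (f x : ℂ) := hφ0.mul_integrable hfH
    have I2 : Integrable fun x => star (φ x a0) * ((V x * f x : ℝ) : ℂ) := by
      refine (I3.norm.const_mul (ν * (ν + 1))).mono' (((hφ0.continuous.star).mul
        (Complex.continuous_ofReal.comp (hVc.mul hfc))).aestronglyMeasurable)
        (Eventually.of_forall fun x => ?_)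
      simp only [norm_mul, norm_star, Complex.norm_real, Real.norm_eq_abs]
      rw [abs_of_nonneg (hVn x), ← mul_left_comm]
      exact mul_le_mul_of_nonneg_right (hV1 x) (mul_nonneg (norm_nonneg _) (abs_nonneg _))
    have hg' : Continuous fun x => (((ν ^ 2 - V x) * f x : ℝ) : ℂ) :=
      Complex.continuous_ofReal.comp ((continuous_const.sub hVc).mul hfc)
    have hsb : ∀ x, ‖(f1 x : ℂ)‖ ≤ ν * (1 / Real.sqrt N) := fun x => by
      rw [Complex.norm_real, Real.norm_eq_abs]
      exact (hf1le x).trans (mul_le_mul_of_nonneg_left (hfub x) hν.le)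
    have hes : ∀ x, star (dφ x a0) * (f1 x : ℂ)
        + star (φ x a0) * (((ν ^ 2 - V x) * f x : ℝ) : ℂ)
        = star (dφ x a0) * (f1 x : ℂ) - star (φ x a0) * ((V x * f x : ℝ) : ℂ)
          - ((-ν ^ 2 : ℝ) : ℂ) * (star (φ x a0) * (f x : ℂ)) := fun x => by push_cast; ring
    have hI : Integrable fun x => star (dφ x a0) * (f1 x : ℂ)
        + star (φ x a0) * (((ν ^ 2 - V x) * f x : ℝ) : ℂ) := by
      simp only [hes]; exact (I1.sub I2).sub (I3.const_mul _)
    have h0 := ibp_full hφ0 (fun x => (hf1d x).ofReal_comp) hg' hsb hI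
    rw [integral_congr_ae (Eventually.of_forall hes), integral_sub, integral_sub I1 I2,
      integral_const_mul, sub_eq_zero] at h0
    · exact h0
    · exact I1.sub I2
    · exact I3.const_mul _
  · rw [hval, Fin.sum_univ_one, abs_neg, abs_of_nonneg (sq_nonneg ν), LOne, ← hνdef,
      show γ + 3 / 2 = (γ + 1 / 2) + 1 by ring, Real.Gamma_add_one hp0.ne',
      show γ + 1 / 2 = ν + 1 by rw [hνdef]; ring]
    have hν1 : 0 < ν + 1 := by linarith
    have g1 := (Real.Gamma_pos_of_pos hν1).ne'
    have g2 := (Real.Gamma_pos_of_pos (show 0 < γ + 1 by linarith)).ne'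
    rw [Real.div_rpow hν.le hν1.le, Real.mul_rpow hν.le hν1.le, Real.rpow_add_one hν.ne',
      Real.rpow_add_one hν1.ne', ← Real.rpow_natCast ν 2, ← Real.rpow_mul hν.le,
      show ((2:ℕ):ℝ) * γ = ν + (ν + 1) by rw [hνdef]; push_cast; ring, Real.rpow_add hν,
      Real.rpow_add_one hν.ne']
    have a1 := (Real.rpow_pos_of_pos hν ν).ne'
    have a2 := (Real.rpow_pos_of_pos hν1 ν).ne'
    field_simp

end Vale.Agent.P371G
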