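import Mathlib

/-! # Spectral calculus for complex Hermitian matrices: traces in two eigenbases -/

namespace Vale.Agent.P371G

open Matrix Finset
open scoped ComplexOrder MatrixOrder

/-- Square complex matrices. -/
abbrev Mat (n : ℕ) := Matrix (Fin n) (Fin n) ℂ

variable {n : ℕ}

/-- Real part of the trace. -/
noncomputable def rtr (X : Mat n) : ℝ := (trace X).re

theorem rtr_add (X Y : Mat n) : rtr (X + Y) = rtr X + rtr Y := by simp [rtr]

theorem rtr_sub (X Y : Mat n) : rtr (X - Y) = rtr X - rtr Y := by simp [rtr]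

theorem rtr_neg (X : Mat n) : rtr (-X) = -rtr X := by simp [rtr]

theorem rtr_zero : rtr (0 : Mat n) = 0 := by simp [rtr]

theorem rtr_smul (r : ℝ) (X : Mat n) : rtr (r • X) = r * rtr X := by
  simp [rtr, Matrix.trace_smul]

theorem rtr_one : rtr (1 : Mat n) = n := by simp [rtr]

theorem rtr_mul_comm (X Y : Mat n) : rtr (X * Y) = rtr (Y * X) := by
  rw [rtr, Matrix.trace_mul_comm, rtr]

theorem rtr_sum {ι : Type*} (s : Finset ι) (f : ι → Mat n) :
    rtr (∑ i ∈ s, f i) = ∑ i ∈ s, rtr (f i) := by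
  simp [rtr, Matrix.trace_sum]

theorem rtr_mul_nonneg {P Q : Mat n} (hP : 0 ≤ P) (hQ : 0 ≤ Q) : 0 ≤ rtr (P * Q) := by
  obtain ⟨B, rfl⟩ := CStarAlgebra.nonneg_iff_eq_star_mul_self.mp hQ
  rw [rtr, ← Matrix.mul_assoc, Matrix.trace_mul_comm, ← Matrix.mul_assoc]
  exact (Complex.nonneg_iff.1 (hP.posSemidef.mul_mul_conjTranspose_same B).trace_nonneg).1

theorem rtr_mul_le_left {P Q R : Mat n} (hR : 0 ≤ R) (h : P ≤ Q) :
    rtr (R * P) ≤ rtr (R * Q) := by
  have := rtr_mul_nonneg hR (sub_nonneg.2 h)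
  rw [Matrix.mul_sub, rtr_sub] at this
  linarith

theorem rtr_nonneg {P : Mat n} (hP : 0 ≤ P) : 0 ≤ rtr P :=
  (Complex.nonneg_iff.1 hP.posSemidef.trace_nonneg).1

theorem rtr_mono {P Q : Mat n} (h : P ≤ Q) : rtr P ≤ rtr Q := by
  have := rtr_nonneg (sub_nonneg.2 h)
  rw [rtr_sub] at this
  linarith

theorem contSpec (f : ℝ → ℝ) (X : Mat n) : ContinuousOn f (spectrum ℝ X) :=
  (Matrix.finite_real_spectrum (A := X)).continuousOn f

theorem contImage (f g : ℝ → ℝ) (X : Mat n) : ContinuousOn f (g '' spectrum ℝ X) :=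
  ((Matrix.finite_real_spectrum (A := X)).image g).continuousOn f

/-- Functional calculus. -/
noncomputable abbrev fc (f : ℝ → ℝ) (X : Mat n) : Mat n := cfc f X

section
variable {X : Mat n}

theorem fc_herm (f : ℝ → ℝ) (X : Mat n) : (fc f X).IsHermitian := cfc_predicate f X

theorem fc_add (f g : ℝ → ℝ) : fc f X + fc g X = fc (fun x => f x + g x) X :=
  (cfc_add (a := X) f g (contSpec _ _) (contSpec _ _)).symm

theorem fc_sub (f g : ℝ → ℝ) : fc f X - fc g X = fc (fun x => f x - g x) X :=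
  (cfc_sub f g X (contSpec _ _) (contSpec _ _)).symm

theorem fc_mul (f g : ℝ → ℝ) : fc f X * fc g X = fc (fun x => f x * g x) X :=
  (cfc_mul f g X (contSpec _ _) (contSpec _ _)).symm

theorem fc_smul (r : ℝ) (f : ℝ → ℝ) : r • fc f X = fc (fun x => r * f x) X :=
  (cfc_const_mul r f X (contSpec _ _)).symm

theorem fc_comp (hX : X.IsHermitian) (g f : ℝ → ℝ) : fc g (fc f X) = fc (fun x => g (f x)) X :=
  (cfc_comp' g f X (contImage _ _ _) (contSpec _ _) hX).symm

theorem fc_id (hX : X.IsHermitian) : fc (fun x => x) X = X := cfc_id' ℝ X hX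

theorem fc_const (hX : X.IsHermitian) (r : ℝ) : fc (fun _ => r) X = r • (1 : Mat n) := by
  exact (cfc_const r X hX).trans (Algebra.algebraMap_eq_smul_one r)

theorem fc_one (hX : X.IsHermitian) : fc (fun _ => (1 : ℝ)) X = 1 := by
  rw [fc_const hX, one_smul]

theorem fc_congr (hX : X.IsHermitian) {f g : ℝ → ℝ}
    (h : ∀ i, f (hX.eigenvalues i) = g (hX.eigenvalues i)) : fc f X = fc g X :=
  cfc_congr fun x hx => by
    rw [hX.spectrum_real_eq_range_eigenvalues] at hx
    obtain ⟨i, rfl⟩ := hx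
    exact h i

theorem fc_mono (hX : X.IsHermitian) {f g : ℝ → ℝ}
    (h : ∀ i, f (hX.eigenvalues i) ≤ g (hX.eigenvalues i)) : fc f X ≤ fc g X := by
  refine cfc_mono (fun x hx => ?_) (contSpec _ _) (contSpec _ _)
  rw [hX.spectrum_real_eq_range_eigenvalues] at hx
  obtain ⟨i, rfl⟩ := hx
  exact h i

theorem fc_nonneg (hX : X.IsHermitian) {f : ℝ → ℝ} (h : ∀ i, 0 ≤ f (hX.eigenvalues i)) :
    0 ≤ fc f X := by
  refine cfc_nonneg fun x hx => ?_
  rw [hX.spectrum_real_eq_range_eigenvalues] at hx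
  obtain ⟨i, rfl⟩ := hx
  exact h i

theorem fc_diag (hX : X.IsHermitian) (f : ℝ → ℝ) :
    fc f X = (hX.eigenvectorUnitary : Mat n) *
      diagonal (fun i => (f (hX.eigenvalues i) : ℂ)) * (hX.eigenvectorUnitary : Mat n)ᴴ := by
  rw [fc, hX.cfc_eq, IsHermitian.cfc, Unitary.conjStarAlgAut_apply]
  rfl

theorem eU_mul_star (hX : X.IsHermitian) :
    (hX.eigenvectorUnitary : Mat n) * (hX.eigenvectorUnitary : Mat n)ᴴ = 1 :=
  Unitary.coe_mul_star_self hX.eigenvectorUnitary

theorem eU_star_mul (hX : X.IsHermitian) :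
    (hX.eigenvectorUnitary : Mat n)ᴴ * (hX.eigenvectorUnitary : Mat n) = 1 :=
  Unitary.coe_star_mul_self hX.eigenvectorUnitary

end

/-- A matrix expressed in the eigenbases of two Hermitian matrices. -/
noncomputable def inBases {X Y : Mat n} (hX : X.IsHermitian) (hY : Y.IsHermitian) (A : Mat n) :
    Mat n :=
  (hX.eigenvectorUnitary : Mat n)ᴴ * A * (hY.eigenvectorUnitary : Mat n)

/-- Squared modulus of the overlap of the two eigenbases. -/
noncomputable def ov {X Y : Mat n} (hX : X.IsHermitian) (hY : Y.IsHermitian) (i j : Fin n) : ℝ :=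
  ‖inBases hX hY 1 i j‖ ^ 2

theorem ov_nonneg {X Y : Mat n} (hX : X.IsHermitian) (hY : Y.IsHermitian) (i j : Fin n) :
    0 ≤ ov hX hY i j := sq_nonneg _

section
variable {X Y : Mat n} (hX : X.IsHermitian) (hY : Y.IsHermitian)

theorem inBases_back (A : Mat n) :
    (hX.eigenvectorUnitary : Mat n) * inBases hX hY A * (hY.eigenvectorUnitary : Mat n)ᴴ = A := by
  simp only [inBases, ← Matrix.mul_assoc, eU_mul_star, Matrix.one_mul]
  rw [Matrix.mul_assoc, eU_mul_star, Matrix.mul_one]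

theorem inBases_fc_left (f : ℝ → ℝ) (A : Mat n) (i j : Fin n) :
    inBases hX hY (fc f X * A) i j = f (hX.eigenvalues i) * inBases hX hY A i j := by
  rw [fc_diag hX]
  simp only [inBases, ← Matrix.mul_assoc, eU_star_mul, Matrix.one_mul]
  rw [Matrix.mul_assoc (diagonal _), Matrix.mul_assoc (diagonal _), Matrix.diagonal_mul]

theorem inBases_fc_right (g : ℝ → ℝ) (A : Mat n) (i j : Fin n) :
    inBases hX hY (A * fc g Y) i j = inBases hX hY A i j * g (hY.eigenvalues j) := by
  rw [fc_diag hY]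
  simp only [inBases, Matrix.mul_assoc, eU_star_mul, Matrix.mul_one]
  rw [← Matrix.mul_assoc A, ← Matrix.mul_assoc (_ : Mat n) _ (diagonal _), Matrix.mul_diagonal]

theorem inBases_add (A B : Mat n) : inBases hX hY (A + B) = inBases hX hY A + inBases hX hY B := by
  simp [inBases, Matrix.mul_add, Matrix.add_mul]

theorem inBases_sub (A B : Mat n) : inBases hX hY (A - B) = inBases hX hY A - inBases hX hY B := by
  simp [inBases, Matrix.mul_sub, Matrix.sub_mul]

theorem inBases_star (A : Mat n) : (inBases hX hY A)ᴴ = inBases hY hX Aᴴ := by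
  simp [inBases, Matrix.mul_assoc]

theorem inBases_diff (i j : Fin n) :
    inBases hX hY (X - Y) i j
      = ((hX.eigenvalues i : ℂ) - hY.eigenvalues j) * inBases hX hY 1 i j := by
  have h1 : inBases hX hY X i j = hX.eigenvalues i * inBases hX hY 1 i j := by
    rw [← inBases_fc_left hX hY (fun x => x), fc_id hX, Matrix.mul_one]
  have h2 : inBases hX hY Y i j = inBases hX hY 1 i j * hY.eigenvalues j := by
    rw [← inBases_fc_right hX hY (fun x => x), fc_id hY, Matrix.one_mul]
  rw [inBases_sub, Matrix.sub_apply, h1, h2]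
  ring

/-- The trace pairing `tr (f(X) A g(Y) B)` in the two eigenbases. -/
theorem rtr_fc_mul_fc_mul (f g : ℝ → ℝ) (A B : Mat n) :
    rtr (fc f X * A * fc g Y * B) = ∑ i, ∑ j, f (hX.eigenvalues i) * g (hY.eigenvalues j) *
      (inBases hX hY A i j * inBases hY hX B j i).re := by
  set U : Mat n := (hX.eigenvectorUnitary : Mat n) with hU
  set V : Mat n := (hY.eigenvectorUnitary : Mat n) with hV
  have : trace (fc f X * A * fc g Y * B)
      = trace (diagonal (fun i => (f (hX.eigenvalues i) : ℂ)) * inBases hX hY A *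
          diagonal (fun j => (g (hY.eigenvalues j) : ℂ)) * inBases hY hX B) := by
    rw [fc_diag hX, fc_diag hY, inBases, inBases, ← hU, ← hV]
    rw [show U * diagonal (fun i => (f (hX.eigenvalues i) : ℂ)) * Uᴴ * A *
      (V * diagonal (fun j => (g (hY.eigenvalues j) : ℂ)) * Vᴴ) * B
      = U * (diagonal (fun i => (f (hX.eigenvalues i) : ℂ)) * (Uᴴ * A * V) *
        diagonal (fun j => (g (hY.eigenvalues j) : ℂ)) * (Vᴴ * B)) by
        simp only [Matrix.mul_assoc], Matrix.trace_mul_comm]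
    simp only [Matrix.mul_assoc]
  rw [rtr, this, Matrix.trace, Complex.re_sum]
  refine Finset.sum_congr rfl fun i _ => ?_
  rw [Matrix.diag_apply, Matrix.mul_apply, Complex.re_sum]
  refine Finset.sum_congr rfl fun j _ => ?_
  rw [Matrix.mul_diagonal, Matrix.diagonal_mul,
    show (f (hX.eigenvalues i) : ℂ) * inBases hX hY A i j * (g (hY.eigenvalues j) : ℂ) *
      inBases hY hX B j i = ((f (hX.eigenvalues i) * g (hY.eigenvalues j) : ℝ) : ℂ) *
      (inBases hX hY A i j * inBases hY hX B j i) by push_cast; ring, Complex.re_ofReal_mul]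

/-- The weighted Hilbert–Schmidt form. -/
theorem rtr_fc_star (f g : ℝ → ℝ) (A : Mat n) :
    rtr (fc f X * A * fc g Y * Aᴴ) = ∑ i, ∑ j, f (hX.eigenvalues i) * g (hY.eigenvalues j) *
      ‖inBases hX hY A i j‖ ^ 2 := by
  rw [rtr_fc_mul_fc_mul hX hY]
  refine Finset.sum_congr rfl fun i _ => Finset.sum_congr rfl fun j _ => ?_
  rw [← inBases_star, Matrix.conjTranspose_apply, RCLike.star_def, Complex.mul_conj',
    ← Complex.ofReal_pow, Complex.ofReal_re]

theorem rtr_fc_fc (f g : ℝ → ℝ) :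
    rtr (fc f X * fc g Y)
      = ∑ i, ∑ j, f (hX.eigenvalues i) * g (hY.eigenvalues j) * ov hX hY i j := by
  have := rtr_fc_star hX hY f g 1
  simpa [ov] using this

theorem sum_ov_left (j : Fin n) : ∑ i, ov hX hY i j = 1 := by
  have h : ((inBases hX hY 1)ᴴ * inBases hX hY 1) j j = 1 := by
    rw [inBases, Matrix.mul_one, Matrix.conjTranspose_mul, Matrix.conjTranspose_conjTranspose,
      Matrix.mul_assoc, ← Matrix.mul_assoc (hX.eigenvectorUnitary : Mat n), eU_mul_star,
      Matrix.one_mul, eU_star_mul, Matrix.one_apply_eq]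
  have h2 := congrArg Complex.re h
  rw [Matrix.mul_apply, Complex.re_sum] at h2
  simpa [ov, Matrix.conjTranspose_apply, Complex.conj_mul', ← Complex.ofReal_pow] using h2

theorem sum_ov_right (i : Fin n) : ∑ j, ov hX hY i j = 1 := by
  have e : ∀ j, ov hX hY i j = ov hY hX j i := fun j => by
    rw [ov, ov, ← norm_star (inBases hX hY 1 i j), ← Matrix.conjTranspose_apply, inBases_star,
      Matrix.conjTranspose_one]
  simp only [e, sum_ov_left]

theorem sum_left (f : ℝ → ℝ) :
    ∑ i, ∑ j, f (hX.eigenvalues i) * ov hX hY i j = ∑ i, f (hX.eigenvalues i) := by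
  simp [← Finset.mul_sum, sum_ov_right]

theorem sum_right (g : ℝ → ℝ) :
    ∑ i, ∑ j, g (hY.eigenvalues j) * ov hX hY i j = ∑ j, g (hY.eigenvalues j) := by
  rw [Finset.sum_comm]
  simp [← Finset.mul_sum, sum_ov_left]

include hX in
theorem rtr_fc (f : ℝ → ℝ) : rtr (fc f X) = ∑ i, f (hX.eigenvalues i) := by
  rw [fc_diag hX, rtr, Matrix.trace_mul_comm, ← Matrix.mul_assoc, eU_star_mul, Matrix.one_mul,
    Matrix.trace_diagonal, Complex.re_sum]
  simp

/-- Klein's principle: a two variable inequality becomes a trace inequality. -/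
theorem klein {ι : Type*} (s : Finset ι) (f g : ι → ℝ → ℝ)
    (h : ∀ i j, 0 ≤ ∑ k ∈ s, f k (hX.eigenvalues i) * g k (hY.eigenvalues j)) :
    0 ≤ ∑ k ∈ s, rtr (fc (f k) X * fc (g k) Y) := by
  simp only [rtr_fc_fc hX hY]
  rw [Finset.sum_comm]
  refine Finset.sum_nonneg fun i _ => ?_
  rw [Finset.sum_comm]
  refine Finset.sum_nonneg fun j _ => ?_
  rw [← Finset.sum_mul]
  exact mul_nonneg (h i j) (ov_nonneg hX hY i j)

end

end Vale.Agent.P371G
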